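import Vale.Agent.P014Y.C.Ld.All0
import Vale.Agent.P014Y.C.Ms.All

/-!
# P014 Y, C, the leading term without hypothesis
-/

namespace Vale.Agent.P014Y.C.Ld

/-- **the leading term** -/
theorem lead : LEAD := lead0 Ms.x_bas Ms.x_msr Ms.x_lms

end Vale.Agent.P014Y.C.Ld
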