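import Vale.Agent.P014Y.C.Ld.Rho
import Vale.Agent.P014Y.C.Al.Hc
import Vale.Agent.P014Y.C.Al.Gbx

/-!
# P014 Y, C, the leading term: row ADM (moving the vertices along the smoothing prime)
-/

set_option autoImplicit false

open NumberField Module IsDedekindDomain WithZero Filter
open scoped Classical

noncomputable section

namespace Vale.Agent.P014Y.C.Ld

open Rh Al.Gx

namespace Am

variable {M : Type} [Field M] [NumberField M]

theorem ex_r (K : Type) [Field K] [NumberField K] [Algebra K M] {n : ℕ} (hn : finrank K M = n)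
    (a : Fin n → M) (j : Fin n) :
    ∃ r : 𝓞 M, r ≠ 0 ∧ ∀ i, i ≠ j → Algebra.trace K M (a i * r) = 0 := by
  have : FiniteDimensional K M := Module.Finite.of_restrictScalars_finite ℚ K M
  let f : M →ₗ[K] ({i // i ≠ j} → K) :=
    LinearMap.pi fun i => Algebra.trace K M ∘ₗ LinearMap.mulLeft K (a i)
  obtain ⟨x, hx, x0⟩ := Submodule.exists_mem_ne_zero_of_ne_bot
    (f.ker_ne_bot_of_finrank_lt (by have := j.pos; simp [hn]; omega))
  obtain ⟨t, t0, ht⟩ := ((IsFractionRing.isAlgebraic_iff ℤ ℚ M).2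
    (Algebra.IsAlgebraic.isAlgebraic x)).exists_integral_multiple
  refine ⟨⟨t • x, ht⟩, fun e => smul_ne_zero t0 x0 (congrArg (fun z : 𝓞 M => (z : M)) e),
    fun i h => ?_⟩
  have k : Algebra.trace K M (a i * x) = 0 := congrFun (LinearMap.mem_ker.1 hx) ⟨i, h⟩
  change Algebra.trace K M (a i * t • x) = 0
  rw [mul_smul_comm, map_zsmul, k, smul_zero]

theorem l_mem {c : Pl M} {l : ℕ} (h : Sm c.asIdeal l) : (l : 𝓞 M) ∈ c.asIdeal :=
  h.2.2.1 ▸ Ideal.absNorm_mem _

theorem val_l {c : Pl M} {l : ℕ} (h : Sm c.asIdeal l) : c.valuation M l = exp (-1 : ℤ) := by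
  have h1 := (c.intValuation_le_pow_iff_mem l 1).2 (by simpa using l_mem h)
  have h2 := mt (c.intValuation_le_pow_iff_dvd l 2).1 h.2.2.2
  rw [← c.valuation_of_algebraMap (K := M)] at h1 h2
  change c.valuation M (algebraMap (𝓞 M) M _) ≤ _ at h1
  change ¬ c.valuation M (algebraMap (𝓞 M) M _) ≤ _ at h2
  rw [map_natCast, val_od c (Nat.cast_ne_zero.2 h.1.ne_zero), exp_le_exp] at h1 h2
  rw [val_od c (Nat.cast_ne_zero.2 h.1.ne_zero), exp_inj]
  omega

theorem not_mem {c : Pl M} {l N : ℕ} (h : Sm c.asIdeal l) (k : N.Coprime l) :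
    (N : 𝓞 M) ∉ c.asIdeal := fun m => by
  obtain ⟨u, v, e⟩ := (Nat.isCoprime_iff_coprime.2 k).map (Int.castRingHom (𝓞 M))
  simp only [eq_intCast, Int.cast_natCast] at e
  exact c.isPrime.one_notMem
    (e ▸ add_mem (c.asIdeal.mul_mem_left _ m) (c.asIdeal.mul_mem_left _ (l_mem h)))

end Am

open Am

/-- **row ADM** -/
theorem adm : ADM := by
  intro K _ _ ι J M _ _ _ n hn c P l m hs hP hm
  have c2 : (3 : 𝓞 M) ∉ c.asIdeal := by
    simpa using not_mem hs ((Nat.coprime_primes Nat.prime_three hs.1).2 hs.2.1.symm)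
  obtain ⟨k, k0, x, x0, x1, hx⟩ := ex_gen (I := c.asIdeal)
    (f := Ideal.span {(3 : 𝓞 M) ^ m} * P.asIdeal) (mul_ne_zero (by simp) P.ne_bot) c.ne_bot (by
      by_contra e
      have := c.isMaximal.eq_of_le e le_sup_left
      rcases c.isPrime.mul_le.1 (this ▸ le_sup_right) with e | e
      · exact c2 (c.isPrime.mem_of_pow_mem m (e (Ideal.mem_span_singleton_self _)))
      · exact hP (P.isMaximal.eq_of_le c.isPrime.ne_top e ▸ l_mem hs))
  have x0' : (x : M) ≠ 0 := RingOfIntegers.coe_ne_zero_iff.2 x0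
  have v1 : V1 ι J m (x : M) := by
    obtain ⟨d, hd⟩ := Ideal.mem_span_singleton'.1 (Ideal.mul_le_left x1)
    have e : (d : M) * 3 ^ m = x - 1 := by
      simpa only [map_mul, map_pow, map_sub, map_one, map_ofNat] using
        congrArg (algebraMap (𝓞 M) M) hd
    exact v1_iff.2 ⟨d, int_Ov d, by linear_combination -e⟩
  have vQ : ∀ Q : Pl M, Q ≠ c → Q.valuation M (x : M) = 1 := fun Q h =>
    Q.valuation_eq_one_iff_notMem.2 fun e => h (HeightOneSpectrum.ext
      (c.isMaximal.eq_of_le Q.isPrime.ne_top (Q.isPrime.le_of_pow_le (n := k)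
        (hx ▸ (Ideal.span_singleton_le_iff_mem _).2 e))).symm)
  have vc : 1 ≤ od c (x : M) := by
    have := (c.valuation_lt_one_iff_mem (K := M) x).2 (Ideal.pow_le_self k0.ne'
      (hx ▸ Ideal.mem_span_singleton_self x))
    change c.valuation M (x : M) < 1 at this
    rw [val_od c x0', ← exp_zero, exp_lt_exp] at this
    omega
  refine ⟨⟨Units.mk0 x x0', v1, v1_inv hm v1⟩,
    (P.valuation_lt_one_iff_mem (K := M) (x - 1)).2 (Ideal.mul_le_right x1), vQ, fun a N hN => ?_⟩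
  refine eventually_all.2 fun j => ?_
  obtain ⟨r, r0, hr⟩ := ex_r K hn a j
  have r0' : (r : M) ≠ 0 := RingOfIntegers.coe_ne_zero_iff.2 r0
  filter_upwards [eventually_ge_atTop (od c (r : M)).toNat] with B hB
  obtain ⟨s, e⟩ : ∃ s : ℕ, (s : ℤ) = B * od c (x : M) - od c (r : M) :=
    ⟨_, Int.toNat_of_nonneg (by nlinarith [Int.toNat_le.1 hB, Int.natCast_nonneg B])⟩
  have vd : c.valuation M ((l : M) ^ s * r / (x : M) ^ B) = 1 := by
    rw [map_div₀, map_mul, map_pow, map_pow, val_l hs, val_od c r0', val_od c x0', ← exp_nsmul,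
      ← exp_nsmul, ← exp_add, ← exp_sub, ← exp_zero, exp_inj, nsmul_eq_mul, nsmul_eq_mul, e]
    ring
  obtain ⟨d, hd⟩ := HeightOneSpectrum.mem_integers_of_valuation_le_one (R := 𝓞 M) M
    ((l : M) ^ s * r / (x : M) ^ B) fun Q => by
      by_cases h : Q = c
      · exact h ▸ vd.le
      · rw [map_div₀, map_pow, vQ Q h, one_pow, div_one]
        simpa using Q.valuation_le_one (K := M) (l ^ s * r)
  refine ⟨N * d, dvd_mul_right _ _, fun h => (c.isPrime.mem_or_mem h).elim (not_mem hs hN)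
    (c.valuation_eq_one_iff_notMem.1 (hd ▸ vd)), fun i h => ?_⟩
  have e2 : (x : M) ^ B * a i * ((N * d : 𝓞 M) : M) = (N * l ^ s : ℕ) • (a i * r) := by
    change _ * (algebraMap (𝓞 M) M _) = _
    rw [map_mul, hd, map_natCast, nsmul_eq_mul]
    push_cast
    field_simp
  change Algebra.trace K M ((x : M) ^ B * a i * _) = 0
  rw [e2, map_nsmul, hr i h, smul_zero]

end Vale.Agent.P014Y.C.Ld
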