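import Vale.Agent.P014Y.C.Ld.St1

/-!
# P014Y C, the leading term, row DSC: germs, dual numbers, chains
-/

set_option autoImplicit false

open Finset Filter TrivSqZeroExt

noncomputable section

namespace Vale.Agent.P014Y.C.Ld.Dc

open P004C.An

theorem mp_cyc {E G : Type} [CommGroup E] [CommGroup G] (j : E →* G) (L : List E) :
    mp j (cyc L) = cyc (L.map j) := by
  induction L with
  | nil => simp [cyc]
  | cons e L ih =>
    rw [List.map_cons, cyc, cyc, ← ih, mp_pr, pr_mp]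
    congr 2
    funext a
    exact map_mul j e a

theorem mp_tr {E G : Type} [CommGroup E] [CommGroup G] (j : E →* G) (x : E) (c : Ch E) :
    mp j (tr x c) = tr (j x) (mp j c) := by
  rw [mp_mp, mp_mp]
  congr 2
  funext a
  exact map_mul j x a

theorem co_zero {V A : Type} [AddCommGroup A] {n : ℕ} (c : Ch V) :
    co (fun _ : Fin n → V => (0 : A)) c = 0 :=
  (co_ext (φ := 0) (fun _ => rfl) (fun _ _ => rfl) c).symm

theorem prod_cl {R : Type} [CommRing R] (P : AddSubgroup R) {n : ℕ} (U : Fin n → Set R) (c : R)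
    (h : ∀ f : Fin n → R, (∀ i, f i ∈ U i) → c * ∏ i, f i ∈ P) (g : Fin n → R)
    (hg : ∀ i, g i ∈ AddSubgroup.closure (U i)) : c * ∏ i, g i ∈ P := by
  induction n generalizing c with
  | zero => simpa using h g fun i => i.elim0
  | succ n ih =>
    rw [Fin.prod_univ_succ, mul_left_comm, mul_comm]
    refine (AddSubgroup.closure_le (P.comap (AddMonoidHom.mulLeft
      (c * ∏ i : Fin n, g i.succ)))).2 (fun x hx => ?_) (hg 0)
    change c * (∏ i : Fin n, g i.succ) * x ∈ P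
    rw [mul_right_comm]
    refine ih (fun i => U i.succ) (c * x) (fun f hf => ?_) _ fun i => hg i.succ
    have := h (Fin.cons x f) fun i => Fin.cases hx hf i
    rwa [Fin.prod_univ_succ, Fin.cons_zero, ← mul_assoc] at this

variable {B : Type} [CommRing B] [Algebra ℂ_[3] B]

/-- extension of scalars for dual numbers -/
def em (B : Type) [CommRing B] [Algebra ℂ_[3] B] : Dn →+* DualNumber B where
  toFun z := (algebraMap ℂ_[3] B z.fst, algebraMap ℂ_[3] B z.snd)
  map_one' := TrivSqZeroExt.ext (map_one (algebraMap ℂ_[3] B)) (map_zero (algebraMap ℂ_[3] B))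
  map_zero' := TrivSqZeroExt.ext (map_zero (algebraMap ℂ_[3] B)) (map_zero (algebraMap ℂ_[3] B))
  map_add' x y := TrivSqZeroExt.ext (map_add (algebraMap ℂ_[3] B) _ _)
    (map_add (algebraMap ℂ_[3] B) _ _)
  map_mul' x y := TrivSqZeroExt.ext (map_mul (algebraMap ℂ_[3] B) _ _) (by
    refine Eq.trans ?_ (DualNumber.snd_mul _ _).symm
    change algebraMap ℂ_[3] B (x * y).snd = _
    rw [DualNumber.snd_mul, map_add, map_mul, map_mul]
    rfl)

@[simp] theorem em_fst (z : Dn) : (em B z).fst = algebraMap ℂ_[3] B z.fst := rfl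

@[simp] theorem em_snd (z : Dn) : (em B z).snd = algebraMap ℂ_[3] B z.snd := rfl

/-- constants -/
def al (B : Type) [CommRing B] [Algebra ℂ_[3] B] : ℂ_[3] →+* DualNumber B :=
  (algebraMap B (DualNumber B)).comp (algebraMap ℂ_[3] B)

@[simp] theorem al_fst (x : ℂ_[3]) : (al B x).fst = algebraMap ℂ_[3] B x := rfl

@[simp] theorem al_snd (x : ℂ_[3]) : (al B x).snd = 0 := rfl

/-- germs -/
abbrev Gm (B : Type) [CommRing B] : Type := Germ (atTop : Filter ℕ) (DualNumber B)

/-- the germ of a sequence -/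
def gc (B : Type) [CommRing B] : (ℕ → DualNumber B) →+* Gm B := Germ.coeRingHom _

/-- constant germs -/
def kc (B : Type) [CommRing B] : DualNumber B →+* Gm B := (gc B).comp (Pi.constRingHom ℕ _)

/-- the germ of a sequence of dual numbers -/
def gm (B : Type) [CommRing B] [Algebra ℂ_[3] B] : (ℕ → Dn) →+* Gm B :=
  (gc B).comp ((em B).compLeft ℕ)

omit [Algebra ℂ_[3] B] in
theorem gc_eq {f g : ℕ → DualNumber B} : gc B f = gc B g ↔ ∀ᶠ n in atTop, f n = g n := Germ.coe_eq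

theorem gm_congr {f g : ℕ → Dn} (h : ∀ᶠ n in atTop, f n = g n) : gm B f = gm B g :=
  gc_eq.2 (h.mono fun _ e => congrArg (em B) e)

theorem kc_gm (a : DualNumber B) (f : ℕ → Dn) : kc B a * gm B f = gc B fun n => a * em B (f n) :=
  (map_mul (gc B) _ _).symm

omit [Algebra ℂ_[3] B] in
theorem smul_kc (a b : DualNumber B) : a • kc B b = gc B fun _ => a * b := rfl

theorem co_gm {V : Type} {n : ℕ} (a : DualNumber B) (ψ : ℕ → (Fin n → V) → Dn) (z : Ch V) :
    co (fun t => kc B a * gm B fun m => ψ m t) z = kc B a * gm B fun m => co (ψ m) z := by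
  have h1 := map_co (fun t m => ψ m t)
    ((AddMonoidHom.mulLeft (kc B a)).comp (gm B).toAddMonoidHom) z
  have h2 : co (fun t m => ψ m t) z = fun m => co (ψ m) z :=
    funext fun m => map_co (fun t m => ψ m t) (Pi.evalAddMonoidHom (fun _ : ℕ => Dn) m) z
  rw [h2] at h1
  exact h1.symm

/-- small germs -/
def N0 (τ : B →ₗ[ℂ_[3]] ℂ_[3]) {δ : ℝ} (h : 0 ≤ δ) : AddSubgroup (Gm B) where
  carrier := {x | ∃ F, x = gc B F ∧ ∀ᶠ n in atTop, ‖τ (F n).snd‖ ≤ δ}
  zero_mem' := ⟨0, (map_zero _).symm, .of_forall fun _ => by simpa using h⟩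
  add_mem' := by
    rintro _ _ ⟨F, rfl, hF⟩ ⟨G, rfl, hG⟩
    refine ⟨F + G, (map_add _ _ _).symm, (hF.and hG).mono fun n k => ?_⟩
    rw [Pi.add_apply, snd_add, map_add]
    exact (IsUltrametricDist.norm_add_le_max _ _).trans (max_le k.1 k.2)
  neg_mem' := by
    rintro _ ⟨F, rfl, hF⟩
    refine ⟨-F, (map_neg _ _).symm, hF.mono fun n k => ?_⟩
    rwa [Pi.neg_apply, snd_neg, map_neg, norm_neg]

theorem res_co {V : Type} {n : ℕ} (ψ : ℕ → (Fin n → V) → Dn) (om : (Fin n → V) → ℂ_[3])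
    (x : ℂ_[3]) {C : ℝ} (hC : 0 ≤ C)
    (h : ∀ t, ∀ᶠ m in atTop, (ψ m t).fst = x * om t ∧ ‖(ψ m t).snd‖ ≤ C) (z : Ch V) :
    ∀ᶠ m in atTop, (co (ψ m) z).fst = x * co om z ∧ ‖(co (ψ m) z).snd‖ ≤ C := by
  induction z using FreeAbelianGroup.induction_on with
  | zero => exact .of_forall fun m => by simpa using hC
  | of L =>
    by_cases hL : L.length = n
    · obtain ⟨a, rfl⟩ := ex_ofFn hL
      simpa only [co_ofFn] using h a
    · exact .of_forall fun m => by simpa [co_ne _ hL] using hC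
  | neg L ih => exact ih.mono fun m k => by simpa using k
  | add y z h1 h2 =>
    refine (h1.and h2).mono fun m k => ?_
    rw [map_add, map_add, fst_add, snd_add, k.1.1, k.2.1, mul_add]
    exact ⟨rfl, (IsUltrametricDist.norm_add_le_max _ _).trans (max_le k.1.2 k.2.2)⟩

theorem co_ev {V A N : Type} [AddCommGroup A] [AddCommGroup N] {n : ℕ}
    (Θ : (Fin n → V) → A →+ N) (f : A) (z : Ch V) : co Θ z f = co (fun t => Θ t f) z :=
  co_ext (φ := (co Θ).flip f) (fun a => congrArg (· f) (co_ofFn Θ a))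
    (fun _ h => congrArg (· f) (co_ne Θ h)) z

theorem ex_ps0 (hE : EXT) {R N : Type} [CommRing R] [CommRing N] (k : R →+* N) (k0 : ℚ →+* N)
    {V X : Type} {n : ℕ} (T : AddSubgroup (X → ℤ)) (ψ : (Fin n → V) → (X → ℤ) → N)
    (h : ∀ t, ∀ f ∈ T, ∀ g ∈ T, ψ t (f + g) = ψ t f + ψ t g) :
    ∃ Ψ : Ch V →+ (X → R) →+ N, ∀ z, ∀ g ∈ T, ∀ a : R,
      Ψ z (fun x => a * g x) = co (fun t => k a * ψ t g) z := by
  let _ : Algebra ℚ N := k0.toAlgebra
  choose Θ hΘ using fun t => hE X N T (ψ t) (h t)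
  refine ⟨co fun t => (Θ t).comp (k.toAddMonoidHom.compLeft X), fun z g hg a => ?_⟩
  rw [co_ev]
  refine congrArg (fun F => co F z) (funext fun t => ?_)
  refine Eq.trans (congrArg (Θ t) (funext fun x => ?_)) (hΘ t g hg (k a))
  change k (a * g x) = _
  rw [map_mul, map_intCast]

/-- extension of scalars for a family of germs of functionals -/
theorem ex_psi (hE : EXT) (B : Type) [CommRing B] [Algebra ℂ_[3] B] {V X : Type} {n : ℕ}
    (T : AddSubgroup (X → ℤ)) (ψ : ℕ → (Fin n → V) → (X → ℤ) → Dn)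
    (h : ∀ t, ∀ f ∈ T, ∀ g ∈ T, ∀ᶠ m in atTop, ψ m t (f + g) = ψ m t f + ψ m t g) :
    ∃ Ψ : Ch V →+ (X → DualNumber B) →+ Gm B, ∀ z, ∀ g ∈ T, ∀ a : DualNumber B,
      Ψ z (fun x => a * g x) = co (fun t => kc B a * gm B fun m => ψ m t g) z :=
  ex_ps0 hE (kc B) ((kc B).comp ((al B).comp (Rat.castHom ℂ_[3]))) T
    (fun t g => gm B fun m => ψ m t g) fun t f hf g hg =>
    (gm_congr (h t f hf g hg)).trans (map_add (gm B) (fun m => ψ m t f) fun m => ψ m t g)

end Vale.Agent.P014Y.C.Ld.Dc
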