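import Vale.Agent.P014Y.C.Ld.St3
import Vale.Agent.P014Y.C.Ld.Dsc0
import Vale.Agent.P004C.Ld.Cup
import Vale.Agent.P004C.Ld.Trf
import Vale.Agent.P004C.Ld.Ext

/-!
# P014 Y, C, the leading term, row DSC: the abstract descent
-/

set_option autoImplicit false

open Finset Filter TrivSqZeroExt

noncomputable section

namespace Vale.Agent.P014Y.C.Ld.Dc

open P004C.An

/-- the twisted action is additive -/
def twH {G R X : Type} [Group G] [CommRing R] [MulAction G X] (κ : G → R) (x : G) :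
    (X → R) →+ X → R where
  toFun := tw κ x
  map_zero' := funext fun _ => mul_zero _
  map_add' _ _ := funext fun _ => mul_add _ _ _

theorem lx_of {X R : Type} [CommRing R] {S : Set (X → ℤ)} {T : Set R} {a : R} (ha : a ∈ T)
    {g : X → ℤ} (hg : g ∈ S) : (fun x => a * g x) ∈ Lx S T :=
  AddSubgroup.subset_closure ⟨a, ha, g, hg, rfl⟩

theorem prod_lx {X R : Type} [CommRing R] (P : AddSubgroup (X → R)) {n : ℕ} (φ : X → ℤ)
    (S : Fin n → Set (X → ℤ)) (T : Set R)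
    (h : ∀ (a : Fin n → R) (f : Fin n → X → ℤ), (∀ i, a i ∈ T) → (∀ i, f i ∈ S i) →
      (fun x => (∏ i, a i) * (φ * ∏ i, f i : X → ℤ) x) ∈ P) (g : Fin n → X → R)
    (hg : ∀ i, g i ∈ Lx (S i) T) : (fun x => (φ x : R)) * ∏ i, g i ∈ P := by
  refine prod_cl P _ _ (fun f hf => ?_) g hg
  choose a ha f' hf' e using hf
  have e' : (fun x => (φ x : R)) * ∏ i, f i =
      fun x => (∏ i, a i) * (φ * ∏ i, f' i : X → ℤ) x := by
    funext x
    simp only [e, Pi.mul_apply, Finset.prod_apply, prod_mul_distrib]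
    push_cast
    ring
  rw [e']
  exact h a f' ha hf'

variable {B : Type} [CommRing B] [Algebra ℂ_[3] B] {E G X : Type} [CommGroup E] [CommGroup G]
  [MulAction E X] {n : ℕ} {j : E →* G} {x0 : X} {T : AddSubgroup (X → ℤ)} {l : E → ℂ_[3]}
  {om : (Fin n → G) → ℂ_[3]} {C : ℝ} {ψ : ℕ → (Fin n → G) → (X → ℤ) → Dn}
  {Ψ : Ch G →+ (X → DualNumber B) →+ Gm B}

/-- the defining property of the extended cocycle -/
def Ky (T : AddSubgroup (X → ℤ)) (ψ : ℕ → (Fin n → G) → (X → ℤ) → Dn)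
    (Ψ : Ch G →+ (X → DualNumber B) →+ Gm B) : Prop := ∀ z, ∀ g ∈ T, ∀ a : DualNumber B,
  Ψ z (fun x => a * g x) = co (fun t => kc B a * gm B fun m => ψ m t g) z

theorem psi_bd (h : Pg j x0 T l om C ψ) (k : Ky T ψ Ψ) (z : Ch G) {f : X → DualNumber B}
    (hf : f ∈ Lx (T : Set (X → ℤ)) Set.univ) : Ψ (bd z) f = 0 := by
  refine (AddSubgroup.closure_le (Ψ (bd z)).ker).2 ?_ hf
  rintro _ ⟨a, -, g, hg, rfl⟩
  change Ψ (bd z) _ = 0
  rw [k _ g hg, co_bd, ← co_zero (n := n + 1) z]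
  refine congrArg (fun F => co F z) (funext fun t => ?_)
  have h1 := gm_congr (B := B) (g := 0) (h.coc t g hg)
  have h2 : (fun m => ∑ i : Fin (n + 1), (-1 : ℤ) ^ (i : ℕ) • ψ m (fun k => t (i.succAbove k)) g) =
      ∑ i : Fin (n + 1), (-1 : ℤ) ^ (i : ℕ) • fun m => ψ m (fun k => t (i.succAbove k)) g := by
    funext m
    rw [Finset.sum_apply]
    rfl
  rw [h2, map_zero, map_sum] at h1
  simp_rw [← mul_smul_comm, ← mul_sum, ← map_zsmul]
  rw [h1, mul_zero]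

theorem psi_tr (h : Pg j x0 T l om C ψ) (k : Ky T ψ Ψ) {κ : E → DualNumber B} {x : E}
    (hκ : κ x = 1 - inr (algebraMap ℂ_[3] B (l x))) {f : X → DualNumber B}
    (hf : f ∈ Lx (T : Set (X → ℤ)) Set.univ) : tw κ x f ∈ Lx (T : Set (X → ℤ)) Set.univ ∧
      ∀ z, Ψ (tr (j x) z) f = Ψ z (tw κ x f) := by
  have e : ∀ (a : DualNumber B) (g : X → ℤ), tw κ x (fun y => a * g y) =
      fun y => κ x * a * ((fun y => g (x⁻¹ • y)) y : ℤ) := fun a g =>
    funext fun y => (mul_assoc _ _ _).symm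
  refine ⟨(AddSubgroup.closure_le ((Lx (T : Set (X → ℤ)) Set.univ).comap (twH κ x))).2 ?_ hf,
    fun z => (AddSubgroup.closure_le
      ((Ψ (tr (j x) z)).eqLocus ((Ψ z).comp (twH κ x)))).2 ?_ hf⟩
  · rintro _ ⟨a, -, g, hg, rfl⟩
    change tw κ x (fun y => a * g y) ∈ Lx (T : Set (X → ℤ)) Set.univ
    rw [e]
    exact lx_of (Set.mem_univ _) (h.st x⁻¹ g hg)
  · rintro _ ⟨a, -, g, hg, rfl⟩
    change Ψ (tr (j x) z) (fun y => a * g y) = Ψ z (tw κ x fun y => a * g y)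
    rw [e, k _ g hg, k _ _ (h.st x⁻¹ g hg), co_mp]
    refine congrArg (fun F => co F z) (funext fun t => ?_)
    rw [kc_gm, kc_gm]
    refine gc_eq.2 ((h.eqv t x g hg).mono fun m e' => ?_)
    have e1 : em B (1 - inr (l x)) = κ x := by
      rw [hκ, map_sub, map_one]
      congr 1
      exact TrivSqZeroExt.ext (map_zero (algebraMap ℂ_[3] B)) rfl
    change a * em B (ψ m (fun i => j x * t i) g) = _
    rw [e', map_mul, e1]
    ring

theorem psi_res (h : Pg j x0 T l om C ψ) (k : Ky T ψ Ψ) (τ : B →ₗ[ℂ_[3]] ℂ_[3]) {δ : ℝ}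
    (hδ : 0 ≤ δ) (z : Ch G) {g : X → ℤ} (hg : g ∈ T) {a : DualNumber B} (ha : ‖τ a.fst‖ * C ≤ δ)
    {d n0 : ℂ_[3]} (e : co om z = n0 * d) :
    Ψ z (fun x => a * g x) - (a * g x0 * al B d) • kc B (al B n0) ∈ N0 τ hδ := by
  have hC : 0 ≤ C := by
    obtain ⟨m, hm⟩ := (h.res 1 0 (zero_mem _)).exists
    exact (norm_nonneg _).trans hm.2
  rw [k _ g hg, co_gm, kc_gm, smul_kc, ← map_sub]
  refine ⟨_, rfl, (res_co (fun m t => ψ m t g) om (g x0) hC (fun t => h.res t g hg) z).mono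
    fun m k => ?_⟩
  have e1 : (a * em B (co (fun t => ψ m t g) z) - a * g x0 * al B d * al B n0).snd =
      (co (fun t => ψ m t g) z).snd • a.fst := by
    have e2 : (g x0 : DualNumber B) = al B (g x0) := (map_intCast _ _).symm
    rw [e2, mul_assoc, mul_assoc, ← map_mul, ← map_mul, snd_sub, DualNumber.snd_mul,
      DualNumber.snd_mul, em_fst, em_snd, al_fst, al_snd, k.1, e, Algebra.smul_def,
      mul_comm n0 d]
    ring
  change ‖τ (a * em B (co (fun t => ψ m t g) z) - a * g x0 * al B d * al B n0).snd‖ ≤ δ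
  rw [e1, map_smul, smul_eq_mul, norm_mul, mul_comm]
  exact (mul_le_mul_of_nonneg_left k.2 (norm_nonneg _)).trans ha

theorem det_al {p : ℕ} (v : Fin p → Fin (p + 1) → ℂ_[3]) :
    (Matrix.of (Fin.cons 1 fun k i => al B (v k i) :
      Fin (p + 1) → Fin (p + 1) → DualNumber B)).det =
    al B (Matrix.of (Fin.cons 1 v : Fin (p + 1) → Fin (p + 1) → ℂ_[3])).det := by
  rw [RingHom.map_det]
  congr 1
  ext1 i i'
  refine Fin.cases ?_ (fun k => rfl) i
  exact (map_one (al B)).symm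

theorem fin_step (τ : B →ₗ[ℂ_[3]] ℂ_[3]) {δ : ℝ} (hδ : 0 ≤ δ) {Q : Type} (F : Finset Q)
    (a : Q → DualNumber B) (w : Q → ℕ → Dn) (V : Q → ℂ_[3]) (y : DualNumber B) (n0 c : ℂ_[3])
    (h : ∑ z ∈ F, kc B (a z) * gm B (w z) -
      (al B c * DualNumber.eps * y) • kc B (al B n0) ∈ N0 τ hδ)
    (hw : ∀ z ∈ F, ‖τ (a z).fst‖ ≤ 1 ∧
      ∀ᶠ m in atTop, (w z m).fst = 0 ∧ ‖(w z m).snd - V z‖ ≤ δ) :
    ‖∑ z ∈ F, τ (a z).fst * V z - c * n0 * τ y.fst‖ ≤ δ := by
  obtain ⟨H, e, hH⟩ := h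
  simp_rw [kc_gm, smul_kc, ← map_sum, ← map_sub] at e
  obtain ⟨m, ⟨e1, h1⟩, h2⟩ := (((gc_eq.1 e).and hH).and
    ((eventually_all_finset F).2 fun z hz => (hw z hz).2)).exists
  have e2 : τ (H m).snd = ∑ z ∈ F, τ (a z).fst * (w z m).snd - c * n0 * τ y.fst := by
    rw [← e1, Pi.sub_apply, Finset.sum_apply, snd_sub, snd_sum, map_sub, map_sum]
    congr 1
    · refine sum_congr rfl fun z hz => ?_
      rw [DualNumber.snd_mul, em_fst, em_snd, (h2 z hz).1, map_zero, mul_zero, add_zero, mul_comm,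
        ← Algebra.smul_def, map_smul, smul_eq_mul, mul_comm]
    · have e3 : (al B c * DualNumber.eps * y * al B n0).snd = (c * n0) • y.fst := by
        simp only [DualNumber.snd_mul, fst_mul, al_fst, al_snd, DualNumber.fst_eps,
          DualNumber.snd_eps, Algebra.smul_def, map_mul]
        ring
      rw [e3, map_smul, smul_eq_mul]
  have e4 : ∑ z ∈ F, τ (a z).fst * V z - c * n0 * τ y.fst =
      τ (H m).snd + ∑ z ∈ F, τ (a z).fst * (V z - (w z m).snd) := by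
    rw [e2]
    simp_rw [mul_sub, sum_sub_distrib]
    ring
  rw [e4]
  refine (IsUltrametricDist.norm_add_le_max _ _).trans (max_le h1
    (IsUltrametricDist.norm_sum_le_of_forall_le_of_nonneg hδ fun z hz => ?_))
  rw [norm_mul, norm_sub_rev]
  exact (mul_le_mul (hw z hz).1 (h2 z hz).2 (norm_nonneg _) zero_le_one).trans (one_mul _).le

theorem dsc0 (p r : ℕ) (q : Fin (p + 1) ⊕ Fin r ≃ Fin (r + 1) ⊕ Fin p) : ∃ s : ℤ,
  (s = 1 ∨ s = -1) ∧ ∀ (B : Type) [CommRing B] [Algebra ℂ_[3] B] (S0 : Subring B) (J : Ideal S0)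
    (τ : B →ₗ[ℂ_[3]] ℂ_[3])
    (E G X : Type) [CommGroup E] [CommGroup G] [MulAction E X] [MulAction G X] (j : E →* G) (x0 : X)
    (T : AddSubgroup (X → ℤ)) (lo : E → Fin (p + 1) → ℂ_[3]) (om : (Fin (p + 1) → G) → ℂ_[3])
    (n0 : ℂ_[3]) (C δ : ℝ) (ψ : ℕ → (Fin (p + 1) → G) → (X → ℤ) → Dn) (φ : X → ℤ)
    (S : Fin (r + 1) → Set (X → ℤ)) (χ : Fin (r + 1) → E →* DualNumber B)
    (c c' : Fin (r + 1) → E → X → DualNumber B) (b : Fin (r + 1) → X → DualNumber B)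
    (π : Fin (r + 1) → E) (u : Fin p → E) (d : Fin p → ℕ) (Q : Type) (F : Finset Q)
    (a : Q → DualNumber B) (g : Q → X → ℤ) (s' : Q → G) (V : Q → ℂ_[3]),
    Pg j x0 T (fun e => ∑ i, lo e i) om C ψ → (∀ (e : E) (y : X), j e • y = e • y) →
    (∀ e : E, e • x0 = x0) → (∀ (e : E) y, φ (e • y) = φ y) →
    (∀ v : Fin p → E, co om (cyc (List.ofFn fun k => j (v k))) = n0 * (Matrix.of
      (Fin.cons 1 fun k => lo (v k) : Fin (p + 1) → Fin (p + 1) → ℂ_[3])).det) →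
    (∀ f : Fin (r + 1) → X → ℤ, (∀ i, f i ∈ S i) → φ * ∏ i, f i ∈ T) →
    (∀ i x, (χ i x).fst ∈ S0) →
    (∀ i, Lw x0 {z | z.fst ∈ S0} (χ i) (c i) (c' i) (b i) (Lx (S i) Set.univ)
      (Lx (S i) {z | ∃ y ∈ J, z.fst = (y : S0)})) →
    (∀ i k, i < k → c i (π k) = 0) → (∀ i k, c i (u k) = 0) →
    (∀ x, ∏ i, χ i x = 1 - TrivSqZeroExt.inr (algebraMap ℂ_[3] B (∑ i, lo x i))) →
    (∀ k, ∑ i, lo (u k) i = 0) → 0 ≤ δ → (∀ z : S0, z ∈ J ^ (r + 1) → ‖τ z‖ * C ≤ δ) →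
    (∀ y, φ y * ∏ i, c i (π i) y = ∑ z ∈ F, a z *
      ∑ e ∈ Fintype.piFinset fun k => range (d k), (g z ((∏ k, u k ^ e k)⁻¹ • y) : ℤ)) →
    (∀ z ∈ F, g z ∈ T ∧ (∀ k y, g z (u k ^ d k • y) = g z y) ∧ ‖τ (a z).fst‖ ≤ 1 ∧
      ∀ᶠ B in atTop, (co (fun t => ψ B t (g z))
          (tr (s' z) (cyc (List.ofFn fun k => j (u k ^ d k))))).fst = 0 ∧
        ‖(co (fun t => ψ B t (g z))
          (tr (s' z) (cyc (List.ofFn fun k => j (u k ^ d k))))).snd - V z‖ ≤ δ) →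
    ‖∑ z ∈ F, τ (a z).fst * V z - s * (p + 1) * n0 * φ x0 * τ (Matrix.of fun k k' => Sum.elim
      (fun i => algebraMap ℂ_[3] B (lo (Sum.elim π u (q k)) i)) (fun i : Fin r =>
        (∏ i' ∈ Iic i, (χ i'.castSucc (Sum.elim π u (q k))).fst) *
          (1 - (χ i.succ (Sum.elim π u (q k))).fst)) k').det‖ ≤ δ := by
  obtain ⟨s, hs, H⟩ := P004C.Ld.cup p r q
  refine ⟨s, hs, ?_⟩
  intro B _ _ S0 J τ E G X _ _ _ _ j x0 T lo om n0 C δ ψ φ S χ c c' b π u d Q F a g s' V hP hj h0 hφ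
    hom hT hχ hL hπ hu hpr hlo hδ hJ hsum hz
  obtain ⟨Ψ, k⟩ := ex_psi P004C.Ld.ext B T ψ hP.add
  have hA : ∀ g : Fin (r + 1) → X → DualNumber B, (∀ i, g i ∈ Lx (S i) Set.univ) →
      (fun x => (φ x : DualNumber B)) * ∏ i, g i ∈ Lx (T : Set (X → ℤ)) Set.univ :=
    prod_lx _ φ S _ fun a f _ hf => lx_of (Set.mem_univ _) (hT f hf)
  have hc : ∀ v : Fin p → E, mp j (cyc (List.ofFn v)) = cyc (List.ofFn fun k => j (v k)) :=
    fun v => by rw [mp_cyc, List.map_ofFn]; rfl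
  let K : Submonoid (DualNumber B) :=
    { carrier := {z | z.fst ∈ S0}
      one_mem' := one_mem S0
      mul_mem' := fun x y => S0.mul_mem x y }
  have H1 := H E (DualNumber B) X (Gm B) x0 K (fun x => φ x) χ c c' b (fun i => Lx (S i) Set.univ)
    (fun i => Lx (S i) {z | ∃ y ∈ J, z.fst = (y : S0)}) π u (Ψ.comp (mp j)) (N0 τ hδ)
    (fun x i => al B (lo x i)) DualNumber.eps (kc B (al B n0)) h0 (fun e y => by rw [hφ]) hχ hL hπ
    hu (fun z g hg => ⟨?_, fun x => ?_⟩) (fun x => ?_) fun v g hg => ?_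
  rotate_left
  · rw [AddMonoidHom.comp_apply, ← bd_mp]
    exact psi_bd hP k _ (hA g hg)
  · rw [AddMonoidHom.comp_apply, AddMonoidHom.comp_apply, mp_tr]
    exact (psi_tr hP k (κ := fun y => ∏ i, χ i y) (hpr x) (hA g hg)).2 _
  · rw [hpr, ← map_sum]
    congr 1
    refine TrivSqZeroExt.ext ?_ ?_
    · rw [fst_mul, DualNumber.fst_eps, zero_mul, fst_inr]
    · rw [DualNumber.snd_mul, DualNumber.fst_eps, DualNumber.snd_eps, zero_mul, one_mul, zero_add,
        snd_inr, al_fst]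
  · rw [AddMonoidHom.comp_apply, hc, det_al]
    set dd := (Matrix.of (Fin.cons 1 fun k => lo (v k) : Fin (p + 1) → Fin (p + 1) → ℂ_[3])).det
    let Θ : (X → DualNumber B) →+ Gm B := Ψ (cyc (List.ofFn fun k => j (v k))) - AddMonoidHom.mk'
      (fun f => (f x0 * al B dd) • kc B (al B n0)) fun f f' => by
        rw [Pi.add_apply, add_mul, add_smul]
    refine prod_lx ((N0 τ hδ).comap Θ) φ S _ (fun a f ha hf => ?_) g hg
    refine psi_res hP k τ hδ _ (hT f hf) ?_ (hom v)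
    choose y hy e using ha
    have e1 : (∏ i, a i).fst = ((∏ i, y i : S0) : B) := by
      rw [SubmonoidClass.coe_finsetProd, ← prod_congr rfl fun i _ => e i]
      exact map_prod (fstHom B B B) _ _
    rw [e1]
    refine hJ _ ?_
    have := Ideal.prod_mem_prod (s := univ) (I := fun _ => J) fun i _ => hy i
    rwa [prod_const, card_univ, Fintype.card_fin] at this
  have e1 : (fun x => (φ x : DualNumber B)) * ∏ i, c i (π i) = ∑ z ∈ F,
      ∑ e ∈ Fintype.piFinset fun k => range (d k),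
        fun y => a z * g z ((∏ k, j (u k) ^ e k)⁻¹ • y) := by
    funext y
    rw [Pi.mul_apply, Finset.prod_apply, hsum, Finset.sum_apply]
    refine sum_congr rfl fun z _ => ?_
    rw [Finset.sum_apply, Int.cast_sum, mul_sum]
    refine sum_congr rfl fun e _ => ?_
    simp_rw [← map_pow]
    rw [← map_prod, ← map_inv, hj]
  have e2 : ∀ z ∈ F, Ψ (cyc (List.ofFn fun k => j (u k)))
      (∑ e ∈ Fintype.piFinset fun k => range (d k),
        fun y => a z * g z ((∏ k, j (u k) ^ e k)⁻¹ • y)) = kc B (a z) * gm B fun m =>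
      co (fun t => ψ m t (g z)) (tr (s' z) (cyc (List.ofFn fun k => j (u k ^ d k)))) := by
    intro z hzF
    refine (P004C.Ld.trf p G X _ _ Ψ (Lx (T : Set (X → ℤ)) Set.univ) (fun k => j (u k)) d
      (fun y => a z * g z y) (s' z) (fun w f hf => psi_bd hP k w hf) (fun i f hf => ?_)
      (lx_of (Set.mem_univ _) (hz z hzF).1) fun i y => ?_).trans ?_
    · have h1 := psi_tr hP k (κ := fun _ => 1) (x := u i)
        (by rw [hlo, map_zero, inr_zero, sub_zero]) hf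
      have h2 : tw (fun _ => 1) (u i) f = fun y => f ((j (u i))⁻¹ • y) := by
        funext y
        rw [← map_inv, hj]
        exact one_mul _
      rwa [h2] at h1
    · rw [← map_pow, hj, (hz z hzF).2.1]
    · rw [k _ _ (hz z hzF).1, co_gm]
      simp_rw [map_pow]
  rw [AddMonoidHom.comp_apply, hc, e1, map_sum, sum_congr rfl e2] at H1
  have e3 : ∀ y : DualNumber B, (s : DualNumber B) * ((p : DualNumber B) + 1) *
      (DualNumber.eps : DualNumber B) * (φ x0 : DualNumber B) * y =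
      al B (s * (p + 1) * φ x0) * DualNumber.eps * y := fun y => by
    rw [map_mul, map_mul, map_add, map_intCast, map_intCast, map_natCast, map_one]
    ring
  rw [e3] at H1
  have H2 := fin_step τ hδ F a _ V _ n0 _ H1 fun z hzF => (hz z hzF).2.2
  rw [mul_right_comm _ (φ x0 : ℂ_[3]) n0] at H2
  refine le_of_eq_of_le ?_ H2
  congr 4
  refine Eq.trans ?_ ((fstHom B B B).toRingHom.map_det _).symm
  congr 1
  ext1 i i'
  rcases i' with i' | i'
  · rfl
  · change _ = fstHom B B B (_ * (1 - _))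
    rw [map_mul, map_sub, map_one, map_prod]
    rfl

end Vale.Agent.P014Y.C.Ld.Dc

namespace Vale.Agent.P014Y.C.Ld

/-- **DSC** -/
theorem dsc : DSC := fun p r q =>
  let ⟨s, hs, H⟩ := Dc.dsc0 p r q
  ⟨s, hs, fun A => H (Gr A)⟩

end Vale.Agent.P014Y.C.Ld
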