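import Vale.Agent.P014Y.C.Ld.Defs

/-!
# P014Y C, the leading term: calculus of bounded series
-/

set_option autoImplicit false

open Finset

noncomputable section

namespace Vale.Agent.P014Y.C.Ld

open MvPowerSeries

variable {p : ℕ} {ι : Type*} {A B : ℝ}

theorem nrm_two : ‖(3 : ℂ_[3])‖ = 1 / 3 := by
  have := PadicComplex.norm_extends' 3 (3 : ℚ_[3])
  have h : ‖(3 : ℚ_[3])‖ = 1 / 3 := by simpa using Padic.norm_p (p := 3)
  rwa [h, map_ofNat, PadicComplex.coe_eq, map_ofNat] at this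

theorem nrm_eight : ‖(27 : ℂ_[3])‖ = 1 / 27 := by
  rw [show (27 : ℂ_[3]) = 3 ^ 3 by norm_num, norm_pow, nrm_two]; norm_num

theorem nrm_eight_inv : ‖(27 : ℂ_[3])⁻¹‖ = 27 := by rw [norm_inv, nrm_eight]; norm_num

theorem nrm_add {x y : ℂ_[3]} (hx : ‖x‖ ≤ A) (hy : ‖y‖ ≤ A) : ‖x + y‖ ≤ A :=
  (IsUltrametricDist.norm_add_le_max x y).trans (max_le hx hy)

theorem nrm_sub {x y : ℂ_[3]} (hx : ‖x‖ ≤ A) (hy : ‖y‖ ≤ A) : ‖x - y‖ ≤ A := by
  rw [sub_eq_add_neg]; exact nrm_add hx (by rwa [norm_neg])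

theorem nrm_sum (hA : 0 ≤ A) {s : Finset ι} {x : ι → ℂ_[3]} (h : ∀ i ∈ s, ‖x i‖ ≤ A) :
    ‖∑ i ∈ s, x i‖ ≤ A := IsUltrametricDist.norm_sum_le_of_forall_le_of_nonneg hA h

theorem nrm_near {x : ℂ_[3]} (h : ‖x - 1‖ < 1) : ‖x‖ = 1 := by
  have := IsUltrametricDist.norm_add_eq_max_of_norm_ne_norm (x := x - 1) (y := 1)
    (by rw [norm_one]; exact h.ne)
  rwa [sub_add_cancel, norm_one, max_eq_right h.le] at this

/-- bounded series in the barycentric variables -/
def Bt (A : ℝ) (f : Tt p) : Prop := ∀ b, ‖coeff b f‖ ≤ A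

theorem bd_iff {F : Qs p} : Bd A F ↔ ∀ d, Bt A (PowerSeries.coeff d F) := Prod.forall

namespace Bt

variable {f g : Tt p}

theorem nonneg (h : Bt A f) : 0 ≤ A := (norm_nonneg _).trans (h 0)

theorem mono (h : Bt A f) (k : A ≤ B) : Bt B f := fun b => (h b).trans k

theorem zero (h : 0 ≤ A) : Bt A (0 : Tt p) := fun b => by simpa using h

theorem mon (b : Fin p →₀ ℕ) (a : ℂ_[3]) : Bt ‖a‖ (monomial b a : Tt p) := fun c => by
  classical
  rw [coeff_monomial]; split_ifs <;> simp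

theorem const (a : ℂ_[3]) : Bt ‖a‖ (C a : Tt p) := mon 0 a

theorem one : Bt 1 (1 : Tt p) := by simpa using const (p := p) 1

theorem var (i : Fin p) : Bt 1 (X i : Tt p) := (mon (Finsupp.single i 1) 1).mono norm_one.le

theorem add (h : Bt A f) (k : Bt A g) : Bt A (f + g) := fun b => by
  rw [map_add]; exact nrm_add (h b) (k b)

theorem neg (h : Bt A f) : Bt A (-f) := fun b => by rw [map_neg, norm_neg]; exact h b

theorem sub (h : Bt A f) (k : Bt A g) : Bt A (f - g) := by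
  rw [sub_eq_add_neg]; exact h.add k.neg

theorem smul (a : ℂ_[3]) (h : Bt A f) : Bt (‖a‖ * A) (a • f) := fun b => by
  rw [map_smul, norm_smul]; exact mul_le_mul_of_nonneg_left (h b) (norm_nonneg _)

theorem sum (hA : 0 ≤ A) {s : Finset ι} {f : ι → Tt p} (h : ∀ i ∈ s, Bt A (f i)) :
    Bt A (∑ i ∈ s, f i) := fun b => by
  rw [map_sum]; exact nrm_sum hA fun i hi => h i hi b

theorem mul (h : Bt A f) (k : Bt B g) : Bt (A * B) (f * g) := fun b => by
  classical
  rw [coeff_mul]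
  exact nrm_sum (mul_nonneg h.nonneg k.nonneg) fun x _ => by
    rw [norm_mul]; exact mul_le_mul (h _) (k _) (norm_nonneg _) h.nonneg

theorem prod {s : Finset ι} {A : ι → ℝ} {f : ι → Tt p} (h : ∀ i ∈ s, Bt (A i) (f i)) :
    Bt (∏ i ∈ s, A i) (∏ i ∈ s, f i) :=
  Finset.cons_induction_on (motive := fun s => (∀ i ∈ s, Bt (A i) (f i)) →
    Bt (∏ i ∈ s, A i) (∏ i ∈ s, f i)) s (fun _ => by simpa using one) (fun a s ha ih h => by
      rw [prod_cons, prod_cons]
      exact (h a (mem_cons_self ..)).mul (ih fun i hi => h i (mem_cons_of_mem hi))) h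

theorem pow (h : Bt A f) (n : ℕ) : Bt (A ^ n) (f ^ n) := by
  induction n with
  | zero => simpa using one
  | succ n ih => rw [pow_succ, pow_succ]; exact ih.mul h

end Bt

theorem cf_add (F G : Qs p) (x) : cf (F + G) x = cf F x + cf G x := by simp [cf]

theorem cf_neg (F : Qs p) (x) : cf (-F) x = -cf F x := by simp [cf]

theorem cf_sub (F G : Qs p) (x) : cf (F - G) x = cf F x - cf G x := by simp [cf]

theorem cf_smul (a : ℂ_[3]) (F : Qs p) (x) : cf (a • F) x = a * cf F x := rfl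

theorem cf_sum (s : Finset ι) (F : ι → Qs p) (x) : cf (∑ i ∈ s, F i) x = ∑ i ∈ s, cf (F i) x := by
  simp [cf]

theorem cf_ext {F G : Qs p} (h : ∀ x, cf F x = cf G x) : F = G :=
  PowerSeries.ext fun d => MvPowerSeries.ext fun b => h (d, b)

namespace Bd

variable {F G : Qs p}

theorem nonneg (h : Bd A F) : 0 ≤ A := (norm_nonneg _).trans (h 0)

theorem mono (h : Bd A F) (k : A ≤ B) : Bd B F := fun b => (h b).trans k

theorem co (h : Bd A F) (d : ℕ) : Bt A (PowerSeries.coeff d F) := bd_iff.1 h d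

theorem zero (h : 0 ≤ A) : Bd A (0 : Qs p) := bd_iff.2 fun d => by simpa using Bt.zero h

theorem mon (d : ℕ) {f : Tt p} (h : Bt A f) : Bd A (PowerSeries.monomial d f) :=
  bd_iff.2 fun c => by
    rw [PowerSeries.coeff_monomial]; split_ifs
    exacts [h, Bt.zero h.nonneg]

theorem const {f : Tt p} (h : Bt A f) : Bd A (PowerSeries.C f) :=
  PowerSeries.monomial_zero_eq_C_apply f ▸ mon 0 h

theorem one : Bd 1 (1 : Qs p) := const Bt.one

theorem var : Bd 1 (PowerSeries.X : Qs p) := PowerSeries.X_eq (R := Tt p) ▸ mon 1 Bt.one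

theorem add (h : Bd A F) (k : Bd A G) : Bd A (F + G) := fun b => by
  rw [cf_add]; exact nrm_add (h b) (k b)

theorem neg (h : Bd A F) : Bd A (-F) := fun b => by rw [cf_neg, norm_neg]; exact h b

theorem sub (h : Bd A F) (k : Bd A G) : Bd A (F - G) := by
  rw [sub_eq_add_neg]; exact h.add k.neg

theorem smul (a : ℂ_[3]) (h : Bd A F) : Bd (‖a‖ * A) (a • F) := fun b => by
  rw [cf_smul, norm_mul]; exact mul_le_mul_of_nonneg_left (h b) (norm_nonneg _)

theorem sum (hA : 0 ≤ A) {s : Finset ι} {F : ι → Qs p} (h : ∀ i ∈ s, Bd A (F i)) :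
    Bd A (∑ i ∈ s, F i) := fun b => by
  rw [cf_sum]; exact nrm_sum hA fun i hi => h i hi b

theorem mul (h : Bd A F) (k : Bd B G) : Bd (A * B) (F * G) := bd_iff.2 fun d => by
  rw [PowerSeries.coeff_mul]
  exact Bt.sum (mul_nonneg h.nonneg k.nonneg) fun x _ => (h.co _).mul (k.co _)

theorem prod {s : Finset ι} {A : ι → ℝ} {F : ι → Qs p} (h : ∀ i ∈ s, Bd (A i) (F i)) :
    Bd (∏ i ∈ s, A i) (∏ i ∈ s, F i) :=
  Finset.cons_induction_on (motive := fun s => (∀ i ∈ s, Bd (A i) (F i)) →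
    Bd (∏ i ∈ s, A i) (∏ i ∈ s, F i)) s (fun _ => by simpa using one) (fun a s ha ih h => by
      rw [prod_cons, prod_cons]
      exact (h a (mem_cons_self ..)).mul (ih fun i hi => h i (mem_cons_of_mem hi))) h

theorem pow (h : Bd A F) (n : ℕ) : Bd (A ^ n) (F ^ n) := by
  induction n with
  | zero => simpa using one
  | succ n ih => rw [pow_succ, pow_succ]; exact ih.mul h

theorem of_const {f : Tt p} (h : Bd A (PowerSeries.C f)) : Bt A f := by simpa using h.co 0

end Bd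

theorem bt_uu (i : Fin (p + 1)) : Bt 27 (uu i : Tt p) := by
  have h (j : Fin p) : Bt 27 (C 27⁻¹ * X j : Tt p) := by
    simpa [nrm_eight] using (Bt.const (p := p) 27⁻¹).mul (Bt.var j)
  refine Fin.cases ?_ (fun j => h j) i
  exact (Bt.one.mono (by norm_num)).sub (Bt.sum (by norm_num) fun j _ => h j)

theorem bt_lu {η : Fin (p + 1) → ℂ_[3]} (h : ∀ i, ‖η i‖ ≤ A) : Bt (27 * A) (lu η) :=
  have hA := (norm_nonneg _).trans (h 0)
  Bt.sum (by positivity) fun i _ => by
    rw [mul_comm 27]; exact ((Bt.const _).mono (h i)).mul (bt_uu i)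

theorem bd_sg : Bd 27 (sg : Qs p) := by
  simpa [nrm_eight, sg] using (Bd.const (Bt.const (p := p) 27⁻¹)).mul Bd.var

end Vale.Agent.P014Y.C.Ld
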