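import Vale.Agent.P014Y.C.Ld.Rho
import Vale.Agent.P014Y.C.Ld.Lg
import Vale.Agent.P014Y.C.Ld.Bd
import Vale.Agent.P014Y.C.Al.Gbx
import Vale.Agent.P014Y.C.As.Val
import Mathlib.NumberTheory.NumberField.Norm

/-!
# P014 Y, C, the leading term: row FND (the group of `w`-units)
-/

set_option autoImplicit false
set_option linter.unusedSectionVars false

open NumberField Module IsDedekindDomain
open scoped Classical

noncomputable section

namespace Vale.Agent.P014Y.C.Ld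

namespace Fu0

open As Al.Gx

/-- a character which kills the kernel of the orders is a combination of the orders -/
theorem comb {G κ F : Type} [AddCommGroup G] [Fintype κ] [DecidableEq κ] [Field F] [CharZero F]
    (o : G →+ κ → ℤ) (Λ : G →+ F) (h : ∀ x, o x = 0 → Λ x = 0)
    (k : ∀ i, ∃ x N, N ≠ 0 ∧ o x = Pi.single i N) : ∃ a : κ → F, ∀ x, ∑ i, a i * o x i = Λ x := by
  choose x N N0 hx using k
  have D0 : ((∏ i, N i : ℤ) : F) ≠ 0 := Int.cast_ne_zero.2 (Finset.prod_ne_zero_iff.2 fun i _ => N0 i)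
  have d : ∀ i, (∏ i, N i) / N i * N i = ∏ i, N i := fun i =>
    Int.ediv_mul_cancel (Finset.dvd_prod_of_mem N (Finset.mem_univ i))
  refine ⟨fun i => Λ (x i) / N i, fun y => mul_left_cancel₀ D0 ?_⟩
  have := h ((∏ i, N i) • y - ∑ i, (o y i * ((∏ i, N i) / N i)) • x i) (funext fun j => by
    simp [hx, Pi.single_apply, mul_assoc, d, mul_comm (o y j)])
  rw [map_sub, map_sum, sub_eq_zero, map_zsmul, zsmul_eq_mul] at this
  rw [this, Finset.mul_sum]
  refine Finset.sum_congr rfl fun i _ => ?_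
  have := Int.cast_ne_zero (α := F).2 (N0 i)
  rw [map_zsmul, zsmul_eq_mul, Int.cast_mul]
  nth_rewrite 1 [← d i]
  rw [Int.cast_mul]
  field_simp

theorem lg_one : lg 1 = 0 := by simpa using lg_mul (x := 1) (y := 1) (by simp) (by simp)

theorem lg_prod {α : Type} (s : Finset α) {e : α → ℂ_[3]} (h : ∀ i, ‖e i - 1‖ ≤ 1 / 9) :
    ‖∏ i ∈ s, e i - 1‖ ≤ 1 / 9 ∧ lg (∏ i ∈ s, e i) = ∑ i ∈ s, lg (e i) := by
  induction s using Finset.induction_on with
  | empty => simp [lg_one]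
  | insert i s n k =>
    rw [Finset.prod_insert n, Finset.sum_insert n, lg_mul (h i) k.1, k.2]
    exact ⟨near_mul (by norm_num) (h i) k.1, rfl⟩

variable {M : Type} [Field M] [NumberField M] {r : ℕ} {w : Fin (r + 1) → Pl M} {P : Pl M}

theorem od_mul (P : Pl M) (x y : Mˣ) : od P ((x * y : Mˣ) : M) = od P (x : M) + od P (y : M) := by
  rw [od, od, od, Units.val_mul, map_mul, WithZero.log_mul ((Valuation.ne_zero_iff _).2 x.ne_zero)
    ((Valuation.ne_zero_iff _).2 y.ne_zero), neg_add]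

theorem od_zero {x : M} (h : x ≠ 0) : od P x = 0 ↔ P.valuation M x = 1 :=
  ⟨fun e => by rw [Rh.val_od P h, e]; rfl, fun e => by simp [od, e]⟩

theorem val_iff {y z : 𝓞 M} (y0 : y ≠ 0) (z0 : z ≠ 0) :
    P.valuation M (y : M) = P.valuation M (z : M) ↔
      emultiplicity P.asIdeal (Ideal.span {y}) = emultiplicity P.asIdeal (Ideal.span {z}) := by
  refine (Eq.congr (P.valuation_of_algebraMap y) (P.valuation_of_algebraMap z)).trans
    ⟨fun h => emultiplicity_eq_emultiplicity_iff.2 fun n => ?_, fun h => ?_⟩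
  · rw [← P.intValuation_le_pow_iff_dvd, ← P.intValuation_le_pow_iff_dvd, h]
  · rw [P.intValuation_eq_exp_neg_multiplicity y0, P.intValuation_eq_exp_neg_multiplicity z0,
      multiplicity_eq_of_emultiplicity_eq h]

theorem em_mul (h : ∀ i, P ≠ w i) (I : Ideal (𝓞 M)) (e : Fin (r + 1) → ℕ) :
    emultiplicity P.asIdeal (I * ∏ i, (w i).asIdeal ^ e i) = emultiplicity P.asIdeal I := by
  rw [emultiplicity_mul P.prime, (emultiplicity_eq_zero (b := ∏ i, (w i).asIdeal ^ e i)).2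
    fun d => ?_, add_zero]
  obtain ⟨i, -, k⟩ := (P.prime.dvd_finsetProd_iff _).1 d
  exact h i (HeightOneSpectrum.ext ((w i).isMaximal.eq_of_le P.isPrime.ne_top
    (Ideal.le_of_dvd (P.prime.dvd_of_dvd_pow k))).symm)

variable (w) in
theorem split {I : Ideal (𝓞 M)} (h : I ≠ ⊥) : ∃ (L : Ideal (𝓞 M)) (e : Fin (r + 1) → ℕ),
    (∀ i, L ⊔ (w i).asIdeal = ⊤) ∧ I = L * ∏ i, (w i).asIdeal ^ e i := by
  suffices k : ∀ s : Finset (Fin (r + 1)), ∃ (L : Ideal (𝓞 M)) (e : Fin (r + 1) → ℕ),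
      (∀ i ∈ s, L ⊔ (w i).asIdeal = ⊤) ∧ I = L * ∏ i, (w i).asIdeal ^ e i by
    simpa using k Finset.univ
  intro s
  induction s using Finset.induction_on with
  | empty => exact ⟨I, 0, by simp, by simp [Ideal.top_pow]⟩
  | insert j s n k =>
    obtain ⟨L, e, k1, k2⟩ := k
    have := (w j).isMaximal
    obtain ⟨Q, q1, q2⟩ := Ideal.eq_prime_pow_mul_coprime (I := L)
      (left_ne_zero_of_mul (k2 ▸ h)) (w j).asIdeal
    obtain ⟨c, q2⟩ : ∃ c, L = (w j).asIdeal ^ c * Q := ⟨_, q2⟩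
    refine ⟨Q, e + Pi.single j c, Finset.forall_mem_insert _ _ _ |>.2 ⟨sup_comm Q _ ▸ q1, fun i hi =>
      top_unique (k1 i hi ▸ sup_le_sup_right (q2.le.trans Ideal.mul_le_right) _)⟩, ?_⟩
    simp only [Pi.add_apply, pow_add, Finset.prod_mul_distrib]
    rw [Finset.prod_eq_single j (f := fun i => (w i).asIdeal ^ (Pi.single j c : _ → ℕ) i)
      (fun i _ n => by simp [n]) (by simp), Pi.single_eq_same, k2, q2]
    ring

/-- numerator and denominator of a `w`-unit -/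
theorem dec {x : M} (x0 : x ≠ 0) (h : ∀ P : Pl M, (∀ i, P ≠ w i) → P.valuation M x = 1) :
    ∃ (y z : 𝓞 M) (L : Ideal (𝓞 M)) (e e' : Fin (r + 1) → ℕ), y ≠ 0 ∧ z ≠ 0 ∧ x * z = y ∧
      (∀ i, L ⊔ (w i).asIdeal = ⊤) ∧ Ideal.span {y} = L * ∏ i, (w i).asIdeal ^ e i ∧
      Ideal.span {z} = L * ∏ i, (w i).asIdeal ^ e' i := by
  obtain ⟨⟨y, z, hz⟩, k⟩ := IsLocalization.surj (nonZeroDivisors (𝓞 M)) x
  have z0 := nonZeroDivisors.ne_zero hz
  have y0 : y ≠ 0 := RingOfIntegers.coe_ne_zero_iff.1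
    (k.symm.trans_ne (mul_ne_zero x0 (RingOfIntegers.coe_ne_zero_iff.2 z0)))
  obtain ⟨L, e, l1, l2⟩ := split w (Ideal.span_singleton_eq_bot.not.2 y0)
  obtain ⟨L', e', l1', l2'⟩ := split w (Ideal.span_singleton_eq_bot.not.2 z0)
  have n : L ≠ ⊥ := left_ne_zero_of_mul (l2 ▸ Ideal.span_singleton_eq_bot.not.2 y0)
  have n' : L' ≠ ⊥ := left_ne_zero_of_mul (l2' ▸ Ideal.span_singleton_eq_bot.not.2 z0)
  have : ∀ p, Prime p → emultiplicity p L = emultiplicity p L' := fun p hp => by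
    let P : Pl M := ⟨p, Ideal.isPrime_of_prime hp, hp.ne_zero⟩
    by_cases c : ∀ i, P ≠ w i
    · refine (em_mul c L e).symm.trans (Eq.trans ?_ (em_mul c L' e'))
      rw [← l2, ← l2', ← val_iff y0 z0, ← show x * (z : M) = (y : M) from k, map_mul, h P c, one_mul]
    · obtain ⟨i, c⟩ := not_forall_not.1 c
      have k : ∀ L, L ⊔ (w i).asIdeal = ⊤ → emultiplicity p L = 0 := fun L l =>
        emultiplicity_eq_zero.2 fun d => P.isPrime.ne_top
          (top_unique (l ▸ sup_le (Ideal.le_of_dvd d) (c ▸ le_rfl)))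
      rw [k L (l1 i), k L' (l1' i)]
  obtain rfl : L = L' := associated_iff_eq.1 (associated_of_dvd_dvd
    ((UniqueFactorizationMonoid.dvd_iff_emultiplicity_le n).2 fun p hp => (this p hp).le)
    ((UniqueFactorizationMonoid.dvd_iff_emultiplicity_le n').2 fun p hp => (this p hp).ge))
  exact ⟨y, z, L, e, e', y0, z0, k, l1, l2, l2'⟩

variable {K : Type} [Field K] [NumberField K] {ι : ℂ →+* ℂ_[3]} {J : K →+* ℂ} [Algebra K M] {m : ℕ}

theorem gv_iff (hm : 1 ≤ m) {x : Mˣ} : x ∈ Gv M ι J m ↔ V1 ι J m (x : M) :=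
  ⟨fun h => h.1, fun h => ⟨h, by simpa using v1_inv hm h⟩⟩

theorem ev_iff (hm : 1 ≤ m) (x : Mˣ) :
    Ev ι J (fun i => (w i).asIdeal) m 1 1 (x : M) ↔ x ∈ Ew w ι J m := by
  refine ⟨fun ⟨h, y, z, e, e', y0, z0, a, b⟩ => ⟨(gv_iff hm).2 h, fun P c => ?_⟩, fun ⟨h, k⟩ => ?_⟩
  · have := (val_iff y0 z0).2 ((em_mul c _ e').symm.trans
      ((congrArg _ (by simpa using b.symm)).trans (em_mul c _ e)))
    rwa [← a, map_mul, mul_eq_right₀
      ((Valuation.ne_zero_iff _).2 (RingOfIntegers.coe_ne_zero_iff.2 z0))] at this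
  · obtain ⟨y, z, L, e, e', y0, z0, a, -, b, c⟩ := dec x.ne_zero k
    exact ⟨h.1, y, z, e, e', y0, z0, a, by rw [b, c]; ring⟩

theorem ex_pi (hm : 1 ≤ m) (inj : Function.Injective fun i => (w i).asIdeal)
    (h2 : ∀ i, 3 ∉ (w i).asIdeal) (i : Fin (r + 1)) : ∃ (x : Ew w ι J m) (N : ℤ), N ≠ 0 ∧
      (fun j => od (w j) ((x : Mˣ) : M)) = Pi.single i N := by
  obtain ⟨h, h0, hπ⟩ := ex_pow (𝓞 M)
  obtain ⟨π, hπ⟩ := hπ _ (w i).ne_bot
  obtain ⟨N, N0, hN⟩ := pow_v1 (ι := ι) (J := J) (M := M) m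
  have π0 : (π : M) ^ N ≠ 0 := pow_ne_zero _ (RingOfIntegers.coe_ne_zero_iff.2 fun e =>
    pow_ne_zero h (w i).ne_bot (by simp [hπ, e]))
  have k : ∀ P : Pl M, P.valuation M ((π : M) ^ N) = 1 ↔ P ≠ w i := fun P => by
    rw [map_pow, pow_eq_one_iff_of_nonneg zero_le N0]
    refine (P.valuation_eq_one_iff_notMem (K := M) (r := π)).trans (not_congr ?_)
    rw [← Ideal.span_singleton_le_iff_mem, ← hπ, P.isPrime.pow_le_iff h0]
    exact ⟨fun e => HeightOneSpectrum.ext ((w i).isMaximal.eq_of_le P.isPrime.ne_top e).symm,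
      fun e => e ▸ le_rfl⟩
  refine ⟨⟨Units.mk0 _ π0, (gv_iff hm).2 (hN π ?_), fun P c => (k P).2 (c i)⟩, od (w i) (π ^ N),
    mt (od_zero π0).1 fun e => (k _).1 e rfl, funext fun j => ?_⟩
  · rw [← hπ, ← Ideal.isCoprime_iff_sup_eq]
    exact (Ideal.isCoprime_iff_sup_eq.2 ((w i).isMaximal.out.2 _
      (left_lt_sup.2 (mt (Ideal.span_singleton_le_iff_mem _).1 (h2 i))))).pow_left
  · rcases eq_or_ne j i with rfl | n
    · simp
    · rw [Pi.single_eq_of_ne n]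
      exact (od_zero π0).2 ((k _).2 fun e => n (inj (congrArg HeightOneSpectrum.asIdeal e)))

theorem ex_unit {x : Mˣ} (h : ∀ P : Pl M, P.valuation M (x : M) = 1) :
    ∃ u : (𝓞 M)ˣ, ((u : 𝓞 M) : M) = x := by
  obtain ⟨a, ha⟩ := HeightOneSpectrum.mem_integers_of_valuation_le_one M (x : M) fun P => (h P).le
  obtain ⟨b, hb⟩ := HeightOneSpectrum.mem_integers_of_valuation_le_one (R := 𝓞 M) M (x : M)⁻¹
    fun P => by rw [map_inv₀, h P, inv_one]
  exact ⟨Units.mkOfMulEqOne a b (RingOfIntegers.coe_injective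
    (by rw [map_mul, ha, hb, map_one, x.mul_inv'])), ha⟩

theorem fermat (P : Pl M) (u : (𝓞 M)ˣ) :
    P.valuation M (((u : 𝓞 M) : M) ^ (Ideal.absNorm P.asIdeal - 1) - 1) < 1 := by
  have := P.isMaximal
  let _ := Ideal.Quotient.field P.asIdeal
  have := Ideal.finiteQuotientOfFreeOfNeBot _ P.ne_bot
  have e := pow_card_eq_one' (x := Units.map (Ideal.Quotient.mk P.asIdeal).toMonoidHom u)
  rw [Nat.card_units] at e
  exact (P.valuation_lt_one_iff_mem (K := M) (u ^ _ - 1)).2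
    (Ideal.Quotient.eq.1 (congrArg Units.val e))

theorem norm_one {Ω : ℝ} (B : Base ι J Ω) (hm : 2 ≤ m) {u : (𝓞 M)ˣ}
    (h : V1 ι J m ((u : 𝓞 M) : M)) : Algebra.norm K ((u : 𝓞 M) : M) = 1 := by
  rcases B.upm (Units.map (RingOfIntegers.norm K) u) with e | e
  · exact congrArg (fun z : (𝓞 K)ˣ => ((z : 𝓞 K) : K)) e
  · have e' : Algebra.norm K ((u : 𝓞 M) : M) = -1 := congrArg (fun z : (𝓞 K)ˣ => ((z : 𝓞 K) : K)) e
    have := Va.cont (ι := ι) (J := J) 1 _ m (one_mem (Ov ι J M)) h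
    have t : ‖(-1 : ℂ_[3]) - 1‖ = 1 := nrm_near (by
      rw [show (-1 : ℂ_[3]) - 1 - 1 = -3 by norm_num, norm_neg, nm_two]; norm_num)
    rw [e', map_one, map_neg, map_neg, map_one, map_one, t, nm_two] at this
    have := this.trans (pow_le_pow_of_le_one (by norm_num) (by norm_num) hm)
    norm_num at this

end Fu0

open Fu0 As Al.Gx

theorem fnd : FND := by
  intro K _ _ ι J Ω B M _ _ _ n σ S m hm
  have m1 : 1 ≤ m := by omega
  have nr : ∀ x : M, V1 ι J m x → Ld.Nr m fun i => ι (σ i x) := fun x h i => by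
    have := Va.emb_le (S.ext i) h
    simp only [map_div₀, map_sub, map_one, map_pow, map_ofNat] at this
    rwa [norm_div, norm_pow, nm_two, div_le_one (by positivity)] at this
  have n4 : ∀ x : M, V1 ι J m x → ∀ i, ‖ι (σ i x) - 1‖ ≤ 1 / 9 := fun x h i =>
    (nr x h i).trans ((pow_le_pow_of_le_one (by norm_num) (by norm_num) hm).trans (by norm_num))
  refine ⟨nr, fun x => (S.both x).1, fun r A t w Φ φ t2 X => ?_⟩
  have pi := ex_pi (ι := ι) (J := J) m1 X.inj fun i h => X.cop i (Ideal.mem_of_dvd _ t2 h)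
  have un : ∀ x ∈ Ew w ι J m, (∀ j, od (w j) ((x : Mˣ) : M) = 0) →
      ∃ u : (𝓞 M)ˣ, ((u : 𝓞 M) : M) = (x : Mˣ) := fun x h k => ex_unit fun P => by
    by_cases c : ∀ i, P ≠ w i
    · exact h.2 P c
    · obtain ⟨i, rfl⟩ := not_forall_not.1 c
      exact (od_zero x.ne_zero).1 (k i)
  have n1 : ∀ x ∈ Ew w ι J m, (∀ j, od (w j) ((x : Mˣ) : M) = 0) →
      Algebra.norm K ((x : Mˣ) : M) = 1 := fun x h k => by
    obtain ⟨u, e⟩ := un x h k
    exact e ▸ norm_one B hm (e ▸ h.1.1)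
  refine ⟨ev_iff m1, fun x h => ?_, pi, fun x h k => ⟨n1 x h k, un x h k, ?_⟩, ?_⟩
  · obtain ⟨y, z, L, e, e', y0, z0, a, l, b, c⟩ := dec x.ne_zero h.2
    have := (X.prd y L e y0 l b).trans (X.prd z L e' z0 l c).symm
    simpa only [← a, X.loc _ _ _ x.ne_zero (RingOfIntegers.coe_ne_zero_iff.2 z0),
      Finset.sum_add_distrib, add_right_inj, add_eq_right] using this
  · obtain ⟨u, e⟩ := un x h k
    exact e ▸ fermat (w 0) u
  · obtain ⟨a, ha⟩ := comb (G := Additive (Ew w ι J m))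
      (AddMonoidHom.mk' (fun x j => od (w j) ((x.toMul : Mˣ) : M))
        fun x y => funext fun j => od_mul _ _ _)
      (AddMonoidHom.mk' (fun x => -∑ j, lg (ι (σ j ((x.toMul : Mˣ) : M)))) fun x y => by
        rw [← neg_add, ← Finset.sum_add_distrib]
        refine congrArg _ (Finset.sum_congr rfl fun j _ => Eq.trans ?_
          (lg_mul (n4 _ x.toMul.2.1.1 j) (n4 _ y.toMul.2.1.1 j)))
        rw [← map_mul, ← map_mul]
        rfl)
      (fun x h => neg_eq_zero.2 (by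
        rw [← (lg_prod _ (n4 _ x.toMul.2.1.1)).2, ← map_prod, (S.both _).1,
          n1 _ x.toMul.2 (congrFun h), map_one, map_one, lg_one])) pi
    exact ⟨a, fun x h => ha (.ofMul ⟨x, h⟩)⟩

end Vale.Agent.P014Y.C.Ld
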