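import Vale.Agent.P014Y.C.Ld.St3
import Vale.Agent.P004C.Ld.Adp
import Vale.Agent.P014Y.C.Ld.Fnd

/-!
# P014 Y, C, the leading term: row FRM (frames exist)
-/

set_option autoImplicit false
set_option linter.unusedSectionVars false

open NumberField Module IsDedekindDomain
open scoped Classical

noncomputable section

namespace Vale.Agent.P014Y.C.Ld

namespace Fm

variable {M : Type} [Field M] [NumberField M] {r : ℕ} {w : Fin (r + 1) → Pl M}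
  {K : Type} [Field K] [NumberField K] {ι : ℂ →+* ℂ_[3]} {J : K →+* ℂ} [Algebra K M] {m : ℕ}

theorem ex_dm : ∃ D, Dm w ι J m D := by
  let s := MulAction.orbitRel (Uw w ι J m) M
  have k : ∀ (e : Uw w ι J m) (x : M), Quotient.mk s (e • x) = Quotient.mk s x := fun e x =>
    Quotient.sound ⟨e, rfl⟩
  refine ⟨{x | x ≠ 0 ∧ (Quotient.mk s x).out = x}, fun h => h.1 rfl, fun x n => ?_⟩
  obtain ⟨e, he⟩ : s _ x := Quotient.mk_out x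
  refine ⟨e, ⟨e.2, mul_ne_zero (Units.ne_zero _) n, (congrArg _ (k e x)).trans he.symm⟩,
    fun f ⟨a, _, b⟩ => Subtype.ext (Units.ext (mul_right_cancel₀ n
      (b.symm.trans ((congrArg _ (k ⟨f, a⟩ x)).trans he.symm))))⟩

theorem u1_mul (P : Pl M) {e : Mˣ} (h : e ∈ Rh.U1 P) {y ρ : M} (y0 : y ≠ 0) (r0 : ρ ≠ 0)
    (k : P.valuation M (y / ρ - 1) < 1) : P.valuation M (e * y / ρ - 1) < 1 := by
  rw [mul_div_assoc]
  exact mul_mem h (show Units.mk0 _ (div_ne_zero y0 r0) ∈ Rh.U1 P from k)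

theorem bx_mul {h : Fin (r + 1) → ℕ} {e : Mˣ} (k : ∀ i, od (w i) (e : M) = 0) {y : M}
    (b : Bx w h y) : Bx w h (e * y) :=
  ⟨mul_ne_zero e.ne_zero b.1, fun i => by
    rw [od_mul _ e.ne_zero b.1, k, zero_add]; exact b.2 i⟩

variable (w ι J m) in
/-- the elements of order zero -/
def Oz : Subgroup (Ew w ι J m) where
  carrier := {x | ∀ i, od (w i) ((x : Mˣ) : M) = 0}
  one_mem' _ := od_one _
  mul_mem' {x y} a b i := (od_mul _ (x : Mˣ).ne_zero (y : Mˣ).ne_zero).trans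
    (by rw [a, b, add_zero])
  inv_mem' {x} a i := by rw [Subgroup.coe_inv, Units.val_inv_eq_inv_val, od_inv, a, neg_zero]

theorem dom {p : ℕ} {h : Fin (r + 1) → ℕ} {u : Fin p → Ew w ι J m} {d : Fin p → ℕ} {Rho : Finset M}
    (a2 : ∀ j, 0 < d j) (ou : ∀ a : Fin p → ℕ, ∏ j, u j ^ a j ∈ Oz w ι J m)
    (a5 : ∀ x ∈ Oz w ι J m, ∃ a : Fin p → ℕ, (∀ j, a j < d j) ∧ (∏ j, u j ^ a j)⁻¹ * x ∈ Uw w ι J m)
    (a6 : ∀ x : M, x ≠ 0 → ∃ e : Ew w ι J m, Bx w h ((e : Mˣ) • x))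
    (a7 : ∀ (x : M) (e : Ew w ι J m), Bx w h x → Bx w h ((e : Mˣ) • x) → e ∈ Oz w ι J m)
    (r1 : ∀ ρ ∈ Rho, ρ ≠ 0)
    (r3 : ∀ y : M, y ≠ 0 → 0 ≤ od (w 0) y → od (w 0) y < h 0 → ∃! z : M × (Fin p → ℕ),
      (z.1 ∈ Rho ∧ ∀ j, z.2 j < d j) ∧
        (w 0).valuation M ((∏ j, u j ^ z.2 j)⁻¹ • y / z.1 - 1) < 1) {D : Set M} (hD : Dm w ι J m D)
    {x : M} (x0 : x ≠ 0) : ∃! e : Ew w ι J m, (e : Mˣ) • x ∈
      {y ∈ D | Bx w h y ∧ ∃ ρ ∈ Rho, (w 0).valuation M (y / ρ - 1) < 1} := by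
  refine existsUnique_of_exists_of_unique ?_ fun e e' ⟨c1, c2, ρ, c3, c4⟩ ⟨d1, d2, ρ', d3, d4⟩ => ?_
  · obtain ⟨e, b⟩ := a6 x x0
    obtain ⟨⟨ρ, a⟩, ⟨⟨b1, -⟩, b2⟩, -⟩ := r3 _ b.1 (b.2 0).1 (b.2 0).2
    have b' := bx_mul (inv_mem (ou a)) b
    obtain ⟨e', ⟨k1, k2⟩, -⟩ := hD.2 _ b'.1
    refine ⟨e' * ((∏ j, u j ^ a j)⁻¹ * e), ?_⟩
    rw [Subgroup.coe_mul, Subgroup.coe_mul, mul_smul, mul_smul]
    exact ⟨k2, bx_mul k1.1 b', ρ, b1, u1_mul _ k1.2 b'.1 (r1 ρ b1) b2⟩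
  · obtain ⟨f, rfl⟩ : ∃ f, e' = f * e := ⟨e' / e, (div_mul_cancel _ _).symm⟩
    rw [Subgroup.coe_mul, mul_smul] at d1 d2 d4
    obtain ⟨a, b1, b2⟩ := a5 f (a7 _ f c2 d2)
    have := (r3 _ d2.1 (d2.2 0).1 (d2.2 0).2).unique (y₁ := (ρ, a)) (y₂ := (ρ', 0))
      ⟨⟨c3, b1⟩, by
        have := u1_mul _ b2.2 c2.1 (r1 ρ c3) c4
        rwa [Subgroup.coe_mul, Units.val_mul, mul_assoc] at this⟩
      ⟨⟨d3, a2⟩, by simpa using d4⟩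
    obtain ⟨-, rfl⟩ := Prod.mk.inj this
    rw [(hD.2 _ c2.1).unique (y₁ := f) (y₂ := 1) ⟨by simpa using b2, d1⟩
      ⟨one_mem _, by simpa using c1⟩, one_mul]

end Fm

open Fm

theorem frm : FRM := by
  intro K _ _ ι J Ω B M _ _ _ p m r A t w Φ φ q γ hp hm t2 X G
  obtain ⟨σ, S⟩ := As.ex_sg J hp
  obtain ⟨f1, -, f3, f4, -⟩ := (fnd K ι J Ω B M _ σ S m hm).2.2 r A t w Φ φ t2 X
  have ev : ∀ j, Ev ι J (fun i => (w i).asIdeal) m 1 1 (γ j) := fun j =>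
    (G.gen _).2 ⟨Pi.single j 1, by simp [Pi.single_apply]⟩
  let γ' : _ → Mˣ := fun j => Units.mk0 (γ j) (Al.Gx.v1_unit (by omega) (ev j).1).1
  let g : _ → Ew w ι J m := fun j => ⟨γ' j, (f1 _).1 (ev j)⟩
  have cg : ∀ a : Fin (p + 1) ⊕ Fin r → ℤ,
      (((∏ j, g j ^ a j : Ew w ι J m) : Mˣ) : M) = ∏ j, γ j ^ a j := fun a => by simp [g, γ']
  let o : Ew w ι J m → Fin (r + 1) → ℤ := fun x i => od (w i) ((x : Mˣ) : M)
  have om : ∀ x y, o (x * y) = o x + o y := fun x y => funext fun i => Fu0.od_mul _ _ _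
  obtain ⟨π, h, u, d, P, a1, a2, a3, a4, a5, a6, a7, a8⟩ :=
    P004C.Ld.adp p r q (Ew w ι J m) g o (Uw w ι J m)
    (Ideal.absNorm (w 0).asIdeal - 1) (fun x => by
      obtain ⟨c, e⟩ := (G.gen _).1 ((f1 _).2 x.2)
      have e0 : x = ∏ j, g j ^ c j := Subtype.ext (Units.ext (e.trans (cg c).symm))
      refine ⟨c, e0, fun c' e' => sub_eq_zero.1 (G.ind _ ?_)⟩
      rw [← cg]
      simp only [Pi.sub_apply, zpow_sub, Finset.prod_mul_distrib, Finset.prod_inv_distrib, ← e',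
        ← e0, mul_inv_cancel]
      rfl) om f3 (fun x h => funext h.1)
    (Nat.sub_pos_of_lt (NumberField.HeightOneSpectrum.one_lt_absNorm (w 0))) fun x h =>
      ⟨(Oz w ι J m).pow_mem (congrFun h) _, (f4 _ x.2 (congrFun h)).2.2⟩
  have ou : ∀ a : Fin p → ℕ, ∏ j, u j ^ a j ∈ Oz w ι J m := fun a =>
    prod_mem fun j _ => (Oz w ι J m).pow_mem (congrFun (a2 j).2) _
  obtain ⟨Rho, r1, r2⟩ := rho M (w 0) (∀ j, Fin (d j))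
    (fun a => (∏ j, u j ^ (a j : ℕ) : Ew w ι J m)) ((Oz w ι J m).map (Ew w ι J m).subtype) (h 0)
    (fun _ ⟨x, a, e⟩ => e ▸ (Fu0.od_zero (Units.ne_zero _)).1 (a 0))
    (fun a => ⟨_, ou _, rfl⟩) fun _ ⟨x, hx, e⟩ => by
      obtain ⟨a, ⟨b1, b2⟩, b3⟩ := a5 x (funext hx)
      exact e ▸ ⟨fun j => ⟨a j, b1 j⟩, b2.2, fun a' k => funext fun j => Fin.ext (congrFun
        (b3 (fun j => a' j) ⟨fun j => (a' j).2,
          (Oz w ι J m).mul_mem (inv_mem (ou _)) hx, k⟩) j)⟩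
  have r3 : ∀ y : M, y ≠ 0 → 0 ≤ od (w 0) y → od (w 0) y < h 0 → ∃! z : M × (Fin p → ℕ),
      (z.1 ∈ Rho ∧ ∀ j, z.2 j < d j) ∧
        (w 0).valuation M ((∏ j, u j ^ z.2 j)⁻¹ • y / z.1 - 1) < 1 := fun y y0 y1 y2 => by
    obtain ⟨⟨ρ, a⟩, ⟨b1, b2⟩, b3⟩ := r2 y y0 y1 y2
    refine ⟨(ρ, fun j => a j), ⟨⟨b1, fun j => (a j).2⟩, b2⟩, fun z ⟨⟨c1, c2⟩, c3⟩ => ?_⟩
    obtain ⟨rfl, rfl⟩ := Prod.mk.inj (b3 (z.1, fun j => ⟨z.2 j, c2 j⟩) ⟨c1, c3⟩)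
    rfl
  obtain ⟨D, hD⟩ := ex_dm (w := w) (ι := ι) (J := J) (m := m)
  have bx : ∀ (e : Ew w ι J m) (y : M), y ≠ 0 → (Bx w h ((e : Mˣ) • y) ↔ ∀ i,
      0 ≤ ((fun i => od (w i) y) + o e) i ∧ ((fun i => od (w i) y) + o e) i < h i) :=
    fun e y n => (and_iff_right (mul_ne_zero (Units.ne_zero _) n)).trans (forall_congr' fun i => by
      rw [Units.smul_def, smul_eq_mul, od_mul _ (Units.ne_zero _) n, add_comm]; rfl)
  exact ⟨π, h, u, d, Rho, D, γ', P, ⟨fun i => (a1 i).2, fun j => congrFun (a2 j).2,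
    fun j => (a2 j).1, a4, a3, fun ρ k => (r1 ρ k).1, r3, fun D hD x x0 => dom (fun j => (a2 j).1) ou
      (fun x k => (a5 x (funext k)).exists) (fun x n => (a6 _).1.imp fun e => (bx e x n).2)
      (fun x e b b' => congrFun ((a6 _).2 e b.2 ((bx e x b.1).1 b'))) (fun ρ k => (r1 ρ k).1) r3
      hD x0⟩, hD, fun j => ⟨rfl, (ev j).1⟩, a7, fun j => by simp [a8, g]⟩

end Vale.Agent.P014Y.C.Ld
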