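import Vale.Agent.P014Y.C.Ld.St3
import Vale.Agent.P004C.Ld.Goo

/-! # P014 Y, C, the leading term: row GOO -/

set_option autoImplicit false
set_option linter.all false

open NumberField Module IsDedekindDomain
open scoped Classical

noncomputable section

namespace Vale.Agent.P014Y.C.Ld

open As Al.Gx

open P004C.Ld.Go in
theorem goo (hyp : HYP) : GOO := by
  intro K _ _ ι J π τ ψ A M _ _ _ c l S r w hw m I ρ t hm I0 ρ0 t0
  obtain ⟨p, hp, pw⟩ : ∃ p : ℕ, p.Prime ∧ (p : 𝓞 M) ∈ (w 0).asIdeal := by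
    obtain ⟨p, -, -, a, b, -⟩ := P004C.Ld.Hy.ex_h (w 0).isMaximal
    exact ⟨p, a, b⟩
  have p2 : p ≠ 3 := fun e => hw 0 (Ideal.mul_mem_right _ _ (by simpa [e] using pw))
  have pl : p.Coprime l := (Nat.coprime_primes hp S.1).2 fun e =>
    hw 0 (Ideal.mul_mem_left _ _ (e ▸ pw))
  have pv : ‖ι (J (p : 𝓞 K))‖ = 1 := not_vv.1 fun q => by
    obtain ⟨u, v, e⟩ := (Nat.isCoprime_iff_coprime.2
      ((Nat.coprime_primes hp Nat.prime_three).2 p2)).intCast (R := 𝓞 K)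
    refine (vv_prime (ι := ι) (J := J)).ne_top ((Ideal.eq_top_iff_one _).2 ?_)
    exact e ▸ add_mem (Ideal.mul_mem_left _ _ (by simpa using q))
      (Ideal.mul_mem_left _ _ (by simpa using two_vv))
  have lQ : ∀ Q : Pl M, (p : 𝓞 M) ∈ Q.asIdeal → (l : 𝓞 M) ∉ Q.asIdeal := fun Q =>
    one_of (by simpa using (Nat.isCoprime_iff_coprime.2 pl.symm).intCast (R := 𝓞 M))
  obtain ⟨C, hC⟩ := ex_C (y := (Ideal.absNorm I : 𝓞 M))
    (Nat.cast_ne_zero.2 (Ideal.absNorm_eq_zero_iff.not.2 I0))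
  obtain ⟨s, hs⟩ := hyp K ι J M (w 0) C m ρ t (fun h => hw 0 (Ideal.mul_mem_right _ _ h)) hm ρ0 t0
  have : FiniteDimensional K M := Module.Finite.of_restrictScalars_finite ℚ K M
  have n0 : (finrank K M : M) ≠ 0 := Nat.cast_ne_zero.2 finrank_pos.ne'
  have s0 : vl s ≠ 0 := (s : Mˣ).ne_zero
  obtain ⟨e₁, h₁⟩ := ex_e (finrank K M * (t * vl s))⁻¹ hp
  obtain ⟨e₂, h₂⟩ := ex_e ((finrank K M * (t * vl s))⁻¹ / ρ) hp
  refine ⟨s, fun n a g ha hg => ⟨p ^ (e₂ + e₁ + 1), pl.pow_left _, fun j x gx ⟨b, hb⟩ => ?_⟩⟩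
  obtain ⟨g1, g2, g3⟩ := hg x gx
  set o := Algebra.trace K M (t * (vl s * a j) * x) / (p ^ (e₂ + e₁ + 1) : ℕ) with ho
  have vo : ∀ Q : Pl M, (p : 𝓞 M) ∈ Q.asIdeal → Q.valuation M (algebraMap K M o) ≤ 1 := by
    intro Q q
    have k := Q.valuation_le_one (K := M) (algebraMap (𝓞 K) (𝓞 M) ⟨_, hb⟩)
    have k1 : Q.valuation M (algebraMap (𝓞 K) (𝓞 M) (π * l) : 𝓞 M) = 1 :=
      Q.valuation_eq_one_iff_notMem.2 fun z => by
        rw [map_mul, map_natCast] at z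
        exact (Q.isPrime.mem_or_mem z).elim (one_of (by
          simpa using (A.cop p pv).map (algebraMap (𝓞 K) (𝓞 M))) q) (lQ Q q)
    change Q.valuation M (algebraMap K M (((π * l : 𝓞 K) : K) ^ b * o)) ≤ 1 at k
    change Q.valuation M (algebraMap K M ((π * l : 𝓞 K) : K)) = 1 at k1
    rwa [map_mul, map_pow, map_mul, map_pow, k1, one_pow, one_mul] at k
  refine hs (a j * x - p ^ (e₂ + e₁ + 1) * (finrank K M * (t * vl s))⁻¹ * algebraMap K M o) ?_
    (fun Q n u => ?_) ?_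
  · rw [show (a j * x - p ^ (e₂ + e₁ + 1) * (finrank K M * (t * vl s))⁻¹ * algebraMap K M o) / ρ -
      1 = a j * (x / ρ - 1) + (a j - 1) -
        p ^ (e₂ + e₁ + 1) * ((finrank K M * (t * vl s))⁻¹ / ρ) * algebraMap K M o by ring]
    refine Valuation.map_sub_lt _ (Valuation.map_add_lt _ ?_ (ha j).1) ?_
    · rwa [map_mul, Rh.val_one _ (ha j).1, one_mul]
    · rw [map_mul]
      exact (mul_le_of_le_one_right' (vo _ pw)).trans_lt (h₂ _ pw e₁).2
  · have q : (p : 𝓞 M) ∈ Q.asIdeal := by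
      have : (p : ℤ) ∈ Q.asIdeal.under ℤ := u ▸ (by simpa [Ideal.mem_comap] using pw)
      simpa [Ideal.mem_comap] using this
    have o1 : (1 : WithZero (Multiplicative ℤ)) ≤ WithZero.exp (C : ℤ) := by
      rw [← WithZero.exp_zero, WithZero.exp_le_exp]; positivity
    refine Valuation.map_sub_le _ ?_ ?_
    · rw [map_mul, (ha j).2 Q fun e => lQ Q q (e ▸ S.2.2.1 ▸ Ideal.absNorm_mem _), one_mul]
      by_cases k : ∃ i, Q = w i
      · obtain ⟨i, rfl⟩ := k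
        exact (g2 i).trans o1
      · exact hC Q x (g1 Q (fun z => z.2 ⟨p, pv, by simpa using q⟩) (not_exists.1 k) _
          (Ideal.absNorm_mem I))
    · rw [map_mul, show e₂ + e₁ + 1 = e₁ + (e₂ + 1) by ring]
      exact (mul_le_one' (h₁ Q q _).1 (vo Q q)).trans o1
  · have p0 : ((p ^ (e₂ + e₁ + 1) : ℕ) : K) ≠ 0 := Nat.cast_ne_zero.2 (pow_ne_zero _ hp.ne_zero)
    have n1 : (finrank K M : K) ≠ 0 := Nat.cast_ne_zero.2 finrank_pos.ne'
    rw [show t * vl s * (a j * x - p ^ (e₂ + e₁ + 1) * (finrank K M * (t * vl s))⁻¹ *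
      algebraMap K M o) = t * (vl s * a j) * x -
        algebraMap K M ((p ^ (e₂ + e₁ + 1) : ℕ) * o / finrank K M) by
      simp only [map_div₀, map_mul, map_natCast]
      push_cast
      field_simp, map_sub, Algebra.trace_algebraMap, nsmul_eq_mul, mul_div_cancel₀ _ n1, ho,
      mul_div_cancel₀ _ p0, sub_self]

end Vale.Agent.P014Y.C.Ld
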