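import Vale.Agent.P014Y.C.Ld.St2
import Vale.Agent.P004C.Ld.Hyp

/-! # P014Y C, the leading term: row HYP -/

set_option autoImplicit false
set_option linter.all false

open NumberField Module IsDedekindDomain
open scoped Classical

noncomputable section

namespace Vale.Agent.P014Y.C.Ld

open As Al.Gx

open P004C.Ld.Hy P004C.As.Vx in
theorem hyp : HYP := by
  intro K _ _ ι J M _ _ _ P C m ρ t h2 hm ρ0 t0
  obtain ⟨p, t₀, h, hp, pP, ht, hh⟩ := ex_h P.isMaximal
  have p0 : (p : M) ≠ 0 := Nat.cast_ne_zero.2 hp.ne_zero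
  obtain ⟨k₃, y₃, k0, e₃⟩ := ex_int ρ⁻¹
  obtain ⟨θ, θ1, θ2⟩ := ex_θ P (k := k₃ * p ^ C)
    (mul_ne_zero (Int.cast_ne_zero.2 k0) (pow_ne_zero _ (Nat.cast_ne_zero.2 hp.ne_zero)))
  have θ0 : (θ : M) ≠ 0 := fun e => P.isPrime.ne_top ((Ideal.eq_top_iff_one _).2 (by
    simpa [show θ = 0 from RingOfIntegers.coe_injective (by simpa using e)] using θ1))
  obtain ⟨e₁, k₁, y₁, n1, f1⟩ := ex_den (t₀ * (θ / ρ) / t - 1) Nat.prime_three
  obtain ⟨e₂, k₂, y₂, n2, f2⟩ := ex_den (t₀ - t / (θ / ρ)) hp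
  obtain ⟨α, β, ab⟩ : IsCoprime ((3 : ℤ) ^ (m + e₁)) ((p : ℤ) ^ (e₂ + 1)) :=
    (Nat.isCoprime_iff_coprime.2 ((Nat.coprime_primes Nat.prime_three hp).2 fun e =>
      h2 (by simpa [← e] using pP))).pow
  have ab' : (α : M) * 3 ^ (m + e₁) + β * p ^ (e₂ + 1) = 1 := by
    exact_mod_cast congrArg (Int.cast : ℤ → M) ab
  have v : V1 ι J m (1 + α * 3 ^ (m + e₁) * (t₀ * (θ / ρ) / t - 1)) := by
    refine ⟨k₁, not_vv.1 fun q => ?_, ?_⟩
    · obtain ⟨u, v, uv⟩ := (Int.prime_three.coprime_iff_not_dvd.2 n1)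
      refine (vv_prime (ι := ι) (J := J)).ne_top ((Ideal.eq_top_iff_one _).2 ?_)
      rw [← Int.cast_one, ← uv]
      push_cast
      exact add_mem (Ideal.mul_mem_left _ _ two_vv) (Ideal.mul_mem_left _ _ q)
    · convert (α * y₁ : 𝓞 M).isIntegral_coe using 1
      simp only [RingOfIntegers.coe_eq_algebraMap, map_mul, map_intCast] at f1 ⊢
      rw [f1]
      push_cast
      field_simp
      ring
  refine ⟨⟨Units.mk0 _ (v1_unit hm v).1, v, v1_inv hm v⟩, fun x a b z => ?_⟩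
  have c1 : P.valuation M (θ * (x / ρ) - 1) < 1 := by
    rw [show θ * (x / ρ) - 1 = θ * (x / ρ - 1) + (θ - 1 : 𝓞 M) by simp; ring]
    exact Valuation.map_add_lt _ (by
      rw [map_mul]
      exact (mul_le_of_le_one_left' (P.valuation_le_one θ)).trans_lt a) ((P.valuation_lt_one_iff_mem _).2 θ1)
  obtain ⟨N, y, nN, ey⟩ := loc (x := θ * (x / ρ)) hp fun Q m => by
    obtain rfl | n := eq_or_ne Q P
    · simpa using Valuation.map_add_le _ c1.le (map_one (Q.valuation M)).le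
    have k1 : Q.valuation M (k₃ : 𝓞 M) ≠ 0 := (Valuation.ne_zero_iff _).2 (by simpa using k0)
    have c2 : Q.valuation M (p ^ C : 𝓞 M) ≤ WithZero.exp (-C : ℤ) :=
      (Q.valuation_of_algebraMap _).trans_le ((Q.intValuation_le_pow_iff_mem _ C).2
        (Ideal.pow_mem_pow m C))
    have c3 := θ2 Q n
    rw [RingOfIntegers.coe_eq_algebraMap (k₃ * p ^ C), map_mul, map_mul] at c3
    refine le_of_mul_le_mul_left (a := Q.valuation M (k₃ : 𝓞 M)) ?_ (zero_lt_iff.2 k1)
    rw [← map_mul, show ((k₃ : 𝓞 M) : M) * (θ * (x / ρ)) = θ * x * y₃ by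
      rw [e₃, div_eq_mul_inv]; simp; ring, map_mul, map_mul]
    refine (mul_le_mul' (mul_le_mul' (c3.trans (mul_le_mul_right c2 _))
      (b Q n ((under hp m).trans (under hp pP).symm))) (Q.valuation_le_one y₃)).trans_eq ?_
    rw [mul_one, mul_one, mul_assoc, ← WithZero.exp_add, neg_add_cancel, WithZero.exp_zero,
      mul_one]
  refine nN (hh y N ((P.valuation_lt_one_iff_mem (K := M) _).1 ?_) ?_)
  · show P.valuation M ((y - N : 𝓞 M) : M) < 1
    rw [show ((y - N : 𝓞 M) : M) = (N : 𝓞 M) * (θ * (x / ρ) - 1) by simp [ey]; ring, map_mul]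
    exact (mul_le_of_le_one_left' (P.valuation_le_one _)).trans_lt c1
  · have : FiniteDimensional K M := Module.Finite.of_restrictScalars_finite ℚ K M
    have z' := congrArg (Algebra.trace ℚ K) z
    rw [Algebra.trace_trace, map_zero] at z'
    have e : k₂ • (t₀ * y) = (N * k₂) • (t * (1 + α * 3 ^ (m + e₁) *
        (t₀ * (θ / ρ) / t - 1)) * x) + (β * p : ℤ) • ((y₂ * y : 𝓞 M) : M) := by
      simp only [zsmul_eq_mul, RingOfIntegers.coe_eq_algebraMap, map_mul] at f2 ey θ0 ⊢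
      rw [f2, ey, eq_sub_of_add_eq ab']
      push_cast
      field_simp
      ring
    have e' := congrArg (Algebra.trace ℚ M) e
    rw [map_add, map_zsmul, map_zsmul, map_zsmul, ht, ← Algebra.coe_trace_int] at e'
    erw [z'] at e'
    rw [smul_zero, zero_add, zsmul_eq_mul, zsmul_eq_mul, ← Int.cast_mul, ← Int.cast_mul,
      Int.cast_inj] at e'
    exact ((Nat.prime_iff_prime_int.1 hp).dvd_or_dvd
      (e' ▸ (dvd_mul_left _ β).mul_right _)).resolve_left n2

end Vale.Agent.P014Y.C.Ld
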