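import Vale.Agent.P014Y.C.Ld.St3

/-!
# P014Y C, the leading term: interpolation for the pieces
-/

set_option autoImplicit false
set_option linter.unusedSectionVars false

open NumberField Module IsDedekindDomain Finset Filter
open scoped Classical

noncomputable section

namespace Vale.Agent.P014Y.C.Ld

open P004C.An As Al.Gx

namespace Iw

theorem mp_cyc {G H : Type} [CommGroup G] [CommGroup H] (f : G →* H) (L : List G) :
    mp f (cyc L) = cyc (L.map f) := by
  induction L with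
  | nil => simp [cyc]
  | cons e L ih =>
    rw [List.map_cons, cyc, cyc, ← ih, mp_pr, pr_mp]
    exact congrArg (pr f · (cyc L)) (funext (map_mul f e))

variable {K : Type} [Field K] [NumberField K] {ι : ℂ →+* ℂ_[3]} {J : K →+* ℂ}
  {M : Type} [Field M] [NumberField M] [Algebra K M] {π : 𝓞 K} {τ : ℕ → K} {ψ : K → ℂ} {m : ℕ}
  {x y z : M}

theorem ps_norm (h : Ms.Ar ι J π τ ψ) (x : K) : ‖ψ x‖ = 1 := by
  have s : ∀ n : ℕ, ψ (n * x) = ψ x ^ n := fun n => by
    induction n with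
    | zero => simpa using (h.ker 0).2 (by simp)
    | succ n ih => rw [Nat.cast_succ, add_mul, one_mul, h.add, ih, pow_succ]
  obtain ⟨a, ha⟩ := pow_unbounded_of_one_lt ‖ι (J x)‖ (by norm_num : (1 : ℝ) < 3)
  refine Complex.norm_eq_one_of_pow_eq_one (n := 3 ^ a) ((s _).symm.trans ((h.ker _).2 ?_))
    (by positivity)
  rw [map_mul, map_mul, norm_mul, Nat.cast_pow, map_pow, map_pow, norm_pow, map_natCast,
    map_natCast, Nat.cast_ofNat, nm_two, one_div, inv_pow]
  exact inv_mul_le_one_of_le₀ ha.le (by positivity)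

theorem ee_le (h : Ms.Ar ι J π τ ψ) : ‖Ms.EE ι J ψ m y x‖ ≤ 1 := by
  rw [Ms.EE]
  split_ifs
  · exact (ps_norm h _).le
  · simp

theorem ee_add (h : Ms.Ar ι J π τ ψ) (hy : Ms.Fd ι J 0 y) (hz : Vi ι J z) :
    Ms.EE ι J ψ m y (x + z) = Ms.EE ι J ψ m y x := by
  have e : Vi ι J (3 ^ m * (x + z)) ↔ Vi ι J (3 ^ m * x) := by
    rw [mul_add]
    exact (Ov ι J M).toAddSubgroup.add_mem_cancel_right
      ((Ov ι J M).mul_mem (pow_mem (ofNat_mem _ 3) m) hz)
  rw [Ms.EE, Ms.EE, add_mul, map_add, neg_add, h.add, (h.ker (-Algebra.trace K M (z * y))).2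
    (by simpa using hy z hz), mul_one]
  exact if_congr e rfl rfl

theorem ee_mul (h : Ms.Ar ι J π τ ψ) (hy : Ms.Fd ι J 0 y) (e : Gv M ι J m) :
    Ms.EE ι J ψ m y (vl e * x) = Ms.EE ι J ψ m y x := by
  by_cases p : Vi ι J (3 ^ m * x)
  · rw [show vl e * x = x + (vl e - 1) / 3 ^ m * (3 ^ m * x) by field_simp; ring]
    exact ee_add h hy ((Ov ι J M).mul_mem e.2.1 p)
  · rw [Ms.EE, Ms.EE, if_neg p, if_neg fun k => p ?_]
    have := (Ov ι J M).mul_mem (v1_mem e.2.2) k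
    rwa [mul_left_comm, Units.inv_mul_cancel_left] at this

theorem od_le {P : Pl M} {n : ℕ} (h0 : x ≠ 0) (h : od P x = n) : P.valuation M x ≤ 1 := by
  rw [Rh.val_od P h0, h, ← WithZero.exp_zero, WithZero.exp_le_exp]
  omega

variable {r A : ℕ} {w : Fin (r + 1) → Pl M} {φ : Fin (r + 1) → M → ZMod (3 ^ A)} {c : Pl M} {l : ℕ}
  {I : Ideal (𝓞 M)} {q : Pc M r A}

theorem gz_ne (h : (gz w ι J c l φ I q x : ℂ) ≠ 0) : Iv w ι J I x ∧
    (∀ i, (w i).valuation M x ≤ 1) ∧ (w 0).valuation M (x / q.2.2 - 1) < 1 := by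
  rw [Int.cast_ne_zero, gz, mul_ne_zero_iff, bs, pc, ite_ne_right_iff, ite_ne_right_iff] at h
  exact ⟨h.1.1, fun i => od_le h.2.1.1 (h.2.1.2.1 i), h.2.1.2.2.2⟩

theorem gz_le : ‖(gz w ι J c l φ I q x : ℂ)‖ ≤ 1 + l := by
  rw [gz, bs, pc]
  split_ifs <;> simp
  · simpa using norm_sub_le (1 : ℂ) l
  all_goals positivity

theorem int_of (h : Iv w ι J I x) (k : ∀ i, (w i).valuation M x ≤ 1) (v : Vi ι J (3 ^ m * x)) :
    IsIntegral ℤ (((3 ^ m * Ideal.absNorm I : ℕ) : M) * x) := by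
  obtain ⟨a, e⟩ := HeightOneSpectrum.mem_integers_of_valuation_le_one M
    (((3 ^ m * Ideal.absNorm I : ℕ) : M) * x) fun P => by
      have n : ∀ n : ℕ, P.valuation M (n : M) ≤ 1 := fun n => by
        simpa using P.valuation_le_one (K := M) (n : 𝓞 M)
      by_cases p : Av ι J P.asIdeal
      · obtain ⟨s, s1, s2⟩ := v
        have t := P.valuation_le_one (K := M) ⟨_, s2⟩
        have u : P.valuation M (algebraMap K M s) = 1 :=
          (P.valuation_eq_one_iff_notMem (K := M) (r := algebraMap (𝓞 K) (𝓞 M) s)).2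
            fun z => p.2 ⟨s, s1, z⟩
        change P.valuation M (algebraMap K M s * (3 ^ m * x)) ≤ 1 at t
        rw [map_mul, u, one_mul] at t
        rw [Nat.cast_mul, Nat.cast_pow, Nat.cast_ofNat, mul_right_comm, map_mul]
        exact mul_le_one' t (n _)
      by_cases p' : ∀ i, P ≠ w i
      · rw [Nat.cast_mul, mul_assoc, map_mul, mul_comm _ x]
        exact mul_le_one' (n _) (by simpa using h P p p' _ (Ideal.absNorm_mem I))
      · obtain ⟨i, rfl⟩ : ∃ i, P = w i := by simpa using p'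
        rw [map_mul]
        exact mul_le_one' (n _) (k i)
  exact e ▸ a.isIntegral_coe

end Iw

open Iw

theorem ipw (hI : IPM) (hP : PCS) (hT : TFB) (hG : GOO) (hF : FND) (hL : LOC) : IPW := by
  intro K _ _ ι J Ω hB π τ ψ ar M _ _ _ p σ sg c l sm m r A w Φ φ hm ax π' h u d Rho D ϖ k fr dm
    pw hk
  obtain ⟨-, f2, -, f4, -⟩ := (hF K ι J Ω hB M _ σ sg m hm).2.2 r A _ w Φ φ (dvd_mul_right _ _) ax
  obtain ⟨p1, p2, p3, -⟩ := hP K ι J M m r A p w φ ax.loc f2
  obtain ⟨-, t2, t3⟩ := hT K ι J π τ ψ ar M c l sm r w ax.cop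
  obtain ⟨η, V, hη, hV⟩ := hI K ι J Ω hB M p σ sg (Ew w ι J m) (Subgroup.subtype _) (Uw w ι J m)
    (fun i => u i ^ d i) k Subtype.val_injective fr.mem fr.bas (fun x hx => by
      obtain ⟨a, ⟨b, e⟩, -⟩ := f4 x x.2 hx.1
      exact ⟨a, e ▸ (b : 𝓞 M).isIntegral_coe⟩) hk
  refine ⟨η, hη, fun t I t0 I0 cop z hz => ?_⟩
  have tf : Ms.Tf ι π c.asIdeal l fun x => gz w ι J c l φ I z x := t3 I _ I0 cop (p3 (fun i =>
    (hL M A (w i) (φ i) 0 ⊤ ⊤ ⊤ (ax.loc i) (ax.tam i) fun _ => ⟨trivial, trivial⟩).1) z)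
  obtain ⟨s, hs⟩ := hG K ι J π τ ψ ar M c l sm r w ax.cop m I z.2.2 t (by omega) I0
    (fr.ne _ (mem_product.1 (mem_product.1 hz).2).2) t0
  have gd : ∀ (B : ℕ) (a : Fin (p + 1) → Gv M ι J m),
      (∀ j, ∃ e ∈ Uw w ι J m, a j = s * inc w ι J m e) →
      Ms.Good π l (fun j => t * vl (ϖ ^ B * a j)) fun x => gz w ι J c l φ I z x := fun B a ha => by
    choose e he ea using ha
    have := hs _ (fun j => vl (ϖ ^ B * inc w ι J m (e j))) _ (fun j => ⟨(Rh.U1 (w 0)).mul_mem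
      (pow_mem (show (ϖ : Mˣ) ∈ Rh.U1 (w 0) from pw.1) B) (he j).2, fun Q hQ => ?_⟩)
      fun x => gz_ne (w := w) (ι := ι) (J := J) (c := c) (l := l) (φ := φ) (I := I) (q := z)
    · simp only [ea, mul_left_comm (ϖ ^ B) s]
      exact this
    · change Q.valuation M (((ϖ ^ B : Gv M ι J m) : Mˣ) * ((e j : Mˣ) : M)) = 1
      rw [map_mul, SubmonoidClass.coe_pow, Units.val_pow_eq_pow_val, map_pow, pw.2.1 Q hQ, one_pow,
        one_mul]
      by_cases k : ∀ i, Q ≠ w i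
      · exact (e j).2.2 Q k
      · obtain ⟨i, rfl⟩ : ∃ i, Q = w i := by simpa using k
        rw [Rh.val_od _ (e j : Mˣ).ne_zero, (he j).1, neg_zero, WithZero.exp_zero]
  refine ⟨tf, s, gd, fun y hy => ?_⟩
  have ev : ∀ᶠ B : ℕ in atTop, ∃ S, Hs ι J ψ m k D (gz w ι J c l φ I z) y S ∧
      Reg (fun x => gz w ι J c l φ I z x * Ms.EE ι J ψ m y x *
        co (fun a : Fin (p + 1) → Gv M ι J m =>
          ck k (fun j i => σ i (t * vl (ϖ ^ B * a j))) fun i => σ i x) (cy u d s)) (η * S) := by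
    filter_upwards [(eventually_all_finset (Fintype.piFinset fun _ : Fin p => V)).2 fun a _ =>
      pw.2.2 (Fin.cons 1 fun i => t * vl s * ((a i : Mˣ) : M)) 1 (Nat.coprime_one_left l)] with B b
    refine (hV (fun x => gz w ι J c l φ I z x * Ms.EE ι J ψ m y x) D
      (t * vl (ϖ ^ B * s)) ⟨3 ^ m * Ideal.absNorm I, mul_ne_zero (by positivity)
        (mt Ideal.absNorm_eq_zero_iff.1 I0), fun x n => int_of (gz_ne (left_ne_zero_of_mul n)).1
          (gz_ne (left_ne_zero_of_mul n)).2.1 (ite_ne_right_iff.1 (right_ne_zero_of_mul n)).1⟩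
      ⟨1 + l, fun x => (norm_mul _ _).trans_le
        ((mul_le_of_le_one_right (norm_nonneg _) (ee_le ar)).trans gz_le)⟩
      (fun e he x => congrArg₂ (· * ·) (congrArg _ (congrArg₂ (· * ·) (p1 c l I e x t2)
        (p2 z e he x))) (ee_mul ar hy (inc w ι J m e))) dm.1 dm.2 (fun x n k => ?_)
      fun a ha => ?_).imp fun S h => ⟨h.1, h.2.congr (fun x => congrArg _ ?_) rfl⟩
    rotate_right
    · have e := mp_cyc (inc w ι J m) (List.ofFn fun i => u i ^ d i)
      rw [List.map_ofFn] at e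
      refine (congrArg (fun c => co _ (tr s c)) e.symm).trans ?_
      rw [mp_mp, co_mp]
      refine congrArg (co · _) (funext fun a => congrArg (ck k · _) (funext fun j => funext fun i =>
        congrArg _ ?_))
      rw [Function.comp_apply, Function.comp_apply, ← mul_assoc (ϖ ^ B), mul_assoc t]
      rfl
    · obtain ⟨N, -, g⟩ := gd B (fun _ => s) fun _ => ⟨1, one_mem _, by simp⟩
      exact g 0 x (left_ne_zero_of_mul n) ⟨0, by simpa [k] using isIntegral_zero⟩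
    · obtain ⟨e, -, e1, e2⟩ := b a (Fintype.mem_piFinset.2 ha) 0
      obtain ⟨N, -, -, -, g⟩ := tf.lev
      refine ⟨N * e, l, ⟨sm.1.pos, fun x => ?_⟩, fun i => ?_⟩
      · have := congrArg (· * Ms.EE ι J ψ m y x) (g x e e1)
        rw [zero_mul, sum_mul] at this
        refine (sum_congr rfl fun a _ => ?_).trans this
        beta_reduce
        rw [ee_add ar hy (nsmul_mem (int_Ov ((N : 𝓞 M) * e)) a), nsmul_eq_mul, mul_assoc (a : M)]
        rfl
      · have := e2 i.succ (Fin.succ_ne_zero i)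
        rw [Fin.cons_succ] at this
        refine (congrArg _ ?_).trans ((map_nsmul _ N _).trans (by rw [this, nsmul_zero]))
        change t * (((ϖ : Mˣ) ^ B * s : Mˣ) : M) * (a i : Mˣ) * (N * e) = _
        rw [nsmul_eq_mul, Units.val_mul, Units.val_pow_eq_pow_val]
        ring
  obtain ⟨B, S, h1, -⟩ := ev.exists
  exact ⟨S, h1, ev.mono fun B ⟨S', a, b⟩ => h1.unique a ▸ b⟩

end Vale.Agent.P014Y.C.Ld
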