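import Vale.Agent.P014Y.C.Ld.St2
import Vale.Agent.P014Y.C.Al.Cmb2
import Vale.Agent.P014Y.C.Al.Hc

/-!
# P014 Y, C, the leading term: row KV
-/

set_option linter.unusedSectionVars false

open NumberField Module

noncomputable section

namespace Vale.Agent.P014Y.C.Ld

open Al.Gx

namespace Kw

variable {K : Type} [Field K] [NumberField K] {ι : ℂ →+* ℂ_[3]} {J : K →+* ℂ} {Ω : ℝ}
  {M : Type} [Field M] [NumberField M] [Algebra K M]

/-- the norm of a unit at `v` is a quotient of two units -/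
theorem nm_unit {y : M} (y0 : y ≠ 0) (h : Vi ι J y) (k : Vi ι J y⁻¹) : ∃ p s : 𝓞 K,
    ‖ι (J p)‖ = 1 ∧ ‖ι (J s)‖ = 1 ∧ s * Algebra.norm K y = p := by
  obtain ⟨s, a, b⟩ := h
  obtain ⟨t, c, d⟩ := k
  have n : ∀ (u : 𝓞 K) (x : M) (h : IsIntegral ℤ (algebraMap K M u * x)),
      ((RingOfIntegers.norm K (⟨_, h⟩ : 𝓞 M) : 𝓞 K) : K) =
        u ^ finrank K M * Algebra.norm K x := fun u x h =>
    (RingOfIntegers.coe_norm K _).trans (by
      rw [← Algebra.norm_algebraMap (S := M), ← map_mul]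
      rfl)
  refine ⟨RingOfIntegers.norm K (⟨_, b⟩ : 𝓞 M), s ^ finrank K M, ?_, by simp [a],
    by rw [n]; simp⟩
  refine (nm_le _).antisymm (le_of_mul_le_mul_right ?_ one_pos |>.trans
    (mul_le_of_le_one_right (norm_nonneg _)
      (nm_le (ι := ι) (J := J) (RingOfIntegers.norm K (⟨_, d⟩ : 𝓞 M)))))
  rw [← norm_mul, ← map_mul, ← map_mul, n, n, mul_mul_mul_comm, ← map_mul, mul_inv_cancel₀ y0]
  simp [a, c]

theorem nm_one (B : Base ι J Ω) {y : M} (y0 : y ≠ 0) (h : Vi ι J y) (k : Vi ι J y⁻¹) :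
    ‖ι (J (Algebra.norm K y)) ^ 2 - 1‖ ≤ 1 / 3 := by
  obtain ⟨p, s, a, b, e⟩ := nm_unit y0 h k
  have : ι (J s) ^ 2 * (ι (J (Algebra.norm K y)) ^ 2 - 1) =
      ι (J p) ^ 2 - 1 + -(ι (J s) ^ 2 - 1) := by
    rw [← e, map_mul, map_mul]; ring
  have k := congrArg norm this
  rw [norm_mul, norm_pow, b, one_pow, one_mul] at k
  exact k ▸ Cm.add_le (Cm.un_le B a) (by rw [norm_neg]; exact Cm.un_le B b)

end Kw

theorem kv : KV := by
  intro K _ _ ι J Ω B M _ _ _ h e lam a h0 e1 L ha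
  obtain rfl := funext ha
  have H := Cm.la_hc (M := M) B L
  have k3 : 3 ≤ 2 * h * 3 ^ e := by
    have := Nat.pow_le_pow_right three_pos e1
    nlinarith
  have w : ((1 : ℝ) / 3) ^ (e + 1) ≤ (1 / 3) ^ e :=
    pow_le_pow_of_le_one (by norm_num) (by norm_num) (Nat.le_add_right e 1)
  refine ⟨H.mul, fun y => ?_, H.sum B.two B.im k3, fun I hI => (Cm.la_one B L (pv_two hI)).trans
    w, fun y y0 a b => ?_⟩
  · by_cases y0 : y = 0
    · have := Module.Finite.of_restrictScalars_finite ℚ K M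
      rw [y0, Ideal.span_singleton_zero, ha, Ideal.relNorm_bot, L.1]
      simp [zero_pow (show 2 * h * 3 ^ e ≠ 0 by omega)]
    · exact H.prn y y0 trivial
  · have := Kw.nm_one B (pow_ne_zero h y0) (mem_Ov.1 (pow_mem (mem_Ov.2 a) _))
      (by rw [← inv_pow]; exact mem_Ov.1 (pow_mem (mem_Ov.2 b) _))
    rw [map_pow, map_pow, map_pow, ← pow_mul, mul_comm h] at this
    rw [pow_mul]
    exact (Cm.pow_le this e).trans w

end Vale.Agent.P014Y.C.Ld
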