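import Vale.Agent.P014Y.C.Ld.St2

/-!
# P014 Y, C, the leading term: row `LOC`
-/

set_option autoImplicit false
set_option linter.unusedSectionVars false

open NumberField IsDedekindDomain WithZero TrivSqZeroExt
open scoped Classical

noncomputable section

namespace Vale.Agent.P014Y.C.Ld

namespace Lo

variable {M : Type} [Field M] [NumberField M] {P : Pl M} {R : Type} [CommRing R]

theorem le_iff {y : M} (h : y ≠ 0) (n : ℤ) : P.valuation M y ≤ exp n ↔ -n ≤ od P y := by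
  rw [← log_le_iff_le_exp ((Valuation.ne_zero_iff _).2 h), od, neg_le_neg_iff]

theorem od_mul {x y : M} (hx : x ≠ 0) (hy : y ≠ 0) : od P (x * y) = od P x + od P y := by
  rw [od, map_mul, log_mul ((Valuation.ne_zero_iff _).2 hx) ((Valuation.ne_zero_iff _).2 hy),
    neg_add]; rfl

theorem od_inv (x : M) : od P x⁻¹ = -od P x := by rw [od, map_inv₀, log_inv]; rfl

theorem tame {B : Type} [AddCommGroup B] {f : M → B}
    (h : ∀ x y, x ≠ 0 → y ≠ 0 → f (x * y) = f x + f y) (h1 : ∀ x : 𝓞 M, x - 1 ∈ P.asIdeal → f x = 0)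
    {x : M} (hx : P.valuation M (x - 1) < 1) : f x = 0 := by
  have v : P.valuation M x = 1 := by
    rw [← sub_add_cancel x 1, add_comm]; exact Valuation.map_one_add_of_lt _ hx
  obtain ⟨n, d, e⟩ := P.exists_primeCompl_mul_eq_of_integer x v.le
  obtain ⟨y, z, hz, k⟩ := P.isMaximal.exists_inv d.2
  have k1 : y * d - 1 ∈ P.asIdeal := by rw [← k]; simpa using hz
  have e' : x * (y * d : 𝓞 M) = (y * n : 𝓞 M) := by
    push_cast; rw [mul_left_comm]; exact congrArg _ e
  have := h x (y * d : 𝓞 M) (fun c => by simp [c] at v) fun c => P.isPrime.ne_top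
    ((Ideal.eq_top_iff_one _).2 (by simpa [RingOfIntegers.coe_eq_zero_iff.1 c] using k1))
  rw [e', h1 _ k1, add_zero, h1] at this
  · exact this.symm
  rw [← P.valuation_lt_one_iff_mem (K := M)] at k1 ⊢
  exact (congrArg _ (show ((y * n - 1 : 𝓞 M) : M) = (x - 1) * (y * d : 𝓞 M) + (y * d - 1 : 𝓞 M) by
    push_cast at e' ⊢; linear_combination -e')).trans_lt (Valuation.map_add_lt _
      ((map_mul _ _ _).trans_lt (mul_lt_one_of_lt_of_le hx (P.valuation_le_one _))) k1)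

variable (P) in
/-- locally constant functions with compact support -/
def Al (F : M → R) : Prop := ∃ N : ℕ, (∀ x, F x ≠ 0 → P.valuation M x ≤ exp (N : ℤ)) ∧
  ∀ x z, P.valuation M z ≤ exp (-N : ℤ) → F (x + z) = F x

theorem Al.tw {F : M → R} (h : Al P F) (a : R) (x : Mˣ) : Al P fun y => a * F (x⁻¹ • y) := by
  obtain ⟨N, h1, h2⟩ := h
  have k (y : M) (n : ℤ) : P.valuation M (x⁻¹ • y) ≤ exp n ↔
      P.valuation M y ≤ exp (n - od P (x : M)) := by
    rcases eq_or_ne y 0 with rfl | c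
    · simp
    rw [Units.smul_def, smul_eq_mul, le_iff c, le_iff (mul_ne_zero (Units.ne_zero _) c),
      od_mul (Units.ne_zero _) c, Units.val_inv_eq_inv_val, od_inv]
    omega
  exact ⟨N + (od P (x : M)).natAbs, fun y c => ((k _ _).1 (h1 _ (right_ne_zero_of_mul c))).trans
    (exp_le_exp.2 (by omega)), fun y z c => by
      simp only [smul_add, h2 _ _ ((k _ _).2 (c.trans (exp_le_exp.2 (by omega))))]⟩

theorem Al.sub {F G : M → R} (h : Al P F) (h' : Al P G) : Al P (F - G) := by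
  obtain ⟨N, h1, h2⟩ := h
  obtain ⟨N', k1, k2⟩ := h'
  refine ⟨N + N', fun y c => ?_, fun y z c => by
    rw [Pi.sub_apply, h2 _ _ (c.trans (exp_le_exp.2 (by omega))),
      k2 _ _ (c.trans (exp_le_exp.2 (by omega))), Pi.sub_apply]⟩
  by_cases e : F y = 0
  · exact (k1 y fun e' => c (by simp [e, e'])).trans (exp_le_exp.2 (by omega))
  · exact (h1 y e).trans (exp_le_exp.2 (by omega))

theorem Al.mem {F : M → R} {T : Set R} (h : Al P F) (f : (Set.range F).Finite) (t : ∀ y, F y ∈ T) :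
    F ∈ Lc P T := by
  obtain ⟨N, h1, h2⟩ := h
  rw [show F = ∑ a ∈ f.toFinset, fun y => a * ((if F y = a ∧ a ≠ 0 then 1 else 0 : ℤ) : R) from
    funext fun y => by
      rw [Finset.sum_apply, Finset.sum_eq_single (F y) (fun a _ c => by simp [c.symm]) (by simp)]
      by_cases c : F y = 0 <;> simp [c]]
  refine sum_mem fun a ha => AddSubgroup.subset_closure ⟨a, ?_, _, ⟨N, fun y c => h1 y ?_,
    fun y z c => by rw [h2 y z c]⟩, rfl⟩
  · obtain ⟨y, rfl⟩ := f.mem_toFinset.1 ha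
    exact t y
  · rintro e
    simp [e, eq_comm] at c

theorem tw_mem {E : Subgroup Mˣ} {T : Set R} {κ : E → R} {x : E} (h : ∀ a ∈ T, κ x * a ∈ T) :
    ∀ F ∈ Lc P T, tw κ x F ∈ Lc P T := fun F hF =>
  (AddSubgroup.closure_le ((Lc P T).comap (.mk' (tw κ x) fun _ _ => funext fun _ =>
    mul_add _ _ _))).2 (by
      rintro _ ⟨a, ha, g, hg, rfl⟩
      exact AddSubgroup.subset_closure ⟨_, h a ha, _, Al.tw hg 1 x, funext fun y => by
        simp [tw, mul_assoc, Subgroup.smul_def]⟩) hF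

variable (P R) in
/-- the characteristic function of the integers -/
def bb (y : M) : R := if P.valuation M y ≤ 1 then 1 else 0

theorem bb_al : Al P (bb P R) := ⟨0, fun y c => by simpa [bb] using (ite_ne_right_iff.1 c).1,
  fun y z c => if_congr ⟨fun e => by
    simpa using (P.valuation M).map_sub_le e c, fun e => (P.valuation M).map_add_le e c⟩ rfl rfl⟩

theorem bb_eq {y : M} (h : y ≠ 0) (x : Mˣ) :
    bb P R (x⁻¹ • y) = if od P (x : M) ≤ od P y then 1 else 0 := by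
  refine if_congr ?_ rfl rfl
  rw [Units.smul_def, smul_eq_mul, ← exp_zero, le_iff (mul_ne_zero (Units.ne_zero _) h),
    od_mul (Units.ne_zero _) h, Units.val_inv_eq_inv_val, od_inv]
  omega

theorem bb_eq' {y : M} (h : y ≠ 0) : bb P R y = if 0 ≤ od P y then 1 else 0 :=
  if_congr (le_iff h 0) rfl rfl

theorem fb (k : M → M) (s : R) : (Set.range fun y => s * bb P R (k y)).Finite :=
  (Set.toFinite {s, 0}).subset (by rintro _ ⟨y, rfl⟩; simp only [bb]; split_ifs <;> simp)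

theorem fb' : (Set.range (bb P R)).Finite := by simpa using fb (P := P) id (1 : R)

omit [Field M] [NumberField M] in
theorem fs {F G : M → R} (c : (Set.range F).Finite) (c' : (Set.range G).Finite) :
    (Set.range (F - G)).Finite := (c.image2 (· - ·) c').subset (by
  rintro _ ⟨y, rfl⟩; exact ⟨_, ⟨y, rfl⟩, _, ⟨y, rfl⟩, rfl⟩)

theorem cs {x : Mˣ} {y : M} (k : bb P R (x⁻¹ • y) - bb P R y ≠ 0) : y ≠ 0 ∧
    -((od P (x : M)).natAbs : ℤ) ≤ od P y ∧ od P y < (od P (x : M)).natAbs := by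
  have hy : y ≠ 0 := fun e => k (by simp [e])
  rw [bb_eq hy, bb_eq' hy] at k
  refine ⟨hy, ?_⟩
  split_ifs at k <;> first | omega | simp at k

variable {A : ℕ} {f : M → ZMod (3 ^ A)} {a : ℂ_[3]}

variable (P f a) in
/-- the cocycle -/
def cc (x : Mˣ) (y : M) : DualNumber (Gr A) := Xw P f a y * (bb P _ (x⁻¹ • y) - bb P _ y)

theorem c0 (x : Mˣ) : cc P f a x 0 = 0 := by simp [cc]

theorem cl (x : Mˣ) (n : ℕ) (e : od P (x : M) = n) (y : M) :
    cc P f a x y = if y ≠ 0 ∧ 0 ≤ od P y ∧ od P y < n then -Xw P f a y else 0 := by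
  by_cases hy : y = 0
  · simp [hy, c0]
  rw [cc, bb_eq hy, bb_eq' hy, e, if_congr (and_iff_right hy) rfl rfl]
  split_ifs <;> first | omega | simp

theorem Xf (y : M) : (Xw P f a y).fst = gr (-f y) := by simp [Xw]

theorem cr (x : Mˣ) : (Set.range (cc P f a x)).Finite := by
  refine ((((Set.finite_univ.prod (Set.finite_Icc (-((od P (x : M)).natAbs : ℤ))
    (od P (x : M)).natAbs)).image fun p : ZMod (3 ^ A) × ℤ =>
      inl (gr (-p.1)) * (1 + inr (algebraMap ℂ_[3] (Gr A) (a * p.2)))).image2 (· * ·)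
        (fs (fb (P := P) (x⁻¹ • ·) 1) (fb' (P := P)))).insert 0).subset ?_
  rintro _ ⟨y, rfl⟩
  by_cases e : bb P (DualNumber (Gr A)) (x⁻¹ • y) - bb P _ y = 0
  · exact .inl (by rw [cc, e, mul_zero])
  exact .inr ⟨_, ⟨(f y, od P y), ⟨trivial, (cs e).2.1, (cs e).2.2.le⟩, rfl⟩, _, ⟨y, rfl⟩,
    by rw [Pi.sub_apply, one_mul]; rfl⟩

variable (h : ∀ x y, x ≠ 0 → y ≠ 0 → f (x * y) = f x + f y)
include h

theorem Xm {x y : M} (hx : x ≠ 0) (hy : y ≠ 0) : Xw P f a (x * y) = Xw P f a x * Xw P f a y := by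
  have g (x y : ZMod (3 ^ A)) : gr (x + y) = gr x * gr y := by
    simp [gr, AddMonoidAlgebra.single_mul_single]
  simp only [Xw, h x y hx hy, od_mul hx hy, neg_add, g, Int.cast_add, mul_add a, map_add]
  ext1 <;> simp [-AddMonoidAlgebra.coe_algebraMap]
  ring

theorem Xt (x : Mˣ) {y : M} (hy : y ≠ 0) : Xw P f a x * Xw P f a (x⁻¹ • y) = Xw P f a y := by
  rw [← Xm h x.ne_zero (y := x⁻¹ • y) (mul_ne_zero (Units.ne_zero _) hy)]
  exact congrArg _ (smul_inv_smul x y)

theorem sy (x y : Mˣ) (z : M) : cc P f a x z + Xw P f a x * cc P f a y (x⁻¹ • z) =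
    cc P f a y z + Xw P f a y * cc P f a x (y⁻¹ • z) := by
  by_cases hz : z = 0
  · simp [hz, c0]
  simp only [cc, ← mul_assoc, Xt h _ hz, smul_comm x⁻¹ y⁻¹ z]
  ring

variable (h1 : ∀ x : 𝓞 M, x - 1 ∈ P.asIdeal → f x = 0)
include h1

theorem X1 {x : M} (c : P.valuation M (x - 1) < 1) : Xw P f a x = 1 := by
  have v : P.valuation M x = 1 := by
    rw [← sub_add_cancel x 1, add_comm]; exact Valuation.map_one_add_of_lt _ c
  simp [Xw, tame h h1 c, od, v, gr, ← AddMonoidAlgebra.one_def]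

theorem ca (x : Mˣ) : Al P (cc P f a x) := by
  obtain ⟨N, -, k⟩ := (bb_al.tw (P := P) (1 : DualNumber (Gr A)) x).sub (bb_al (P := P))
  simp only [Pi.sub_apply, one_mul] at k
  refine ⟨N + (od P (x : M)).natAbs, fun y e => ?_, fun y z e => ?_⟩
  · have := cs (right_ne_zero_of_mul e)
    exact (le_iff this.1 _).2 (by omega)
  rw [cc, cc, k y z (e.trans (exp_le_exp.2 (by omega)))]
  by_cases e' : bb P (DualNumber (Gr A)) (x⁻¹ • y) - bb P _ y = 0
  · rw [e', mul_zero, mul_zero]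
  obtain ⟨y0, -, l⟩ := cs e'
  have v : P.valuation M (z / y) < 1 := by
    rw [map_div₀, div_lt_one₀ (zero_lt_iff.2 ((Valuation.ne_zero_iff _).2 y0))]
    exact e.trans_lt (not_le.1 fun c => by rw [le_iff y0] at c; omega)
  rw [show y + z = y * (1 + z / y) by field_simp, Xm h y0 fun e => by
    simpa [e] using Valuation.map_one_add_of_lt _ v, X1 h h1 (x := 1 + _) (by simpa using v), mul_one]

end Lo

open Lo in
theorem loc : LOC := by
  intro M _ _ A P f a E S0 J h h1 hJ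
  let χ : E →* DualNumber (Gr A) := ⟨⟨fun x => Xw P f a ((x : Mˣ) : M), X1 h h1 (by simp)⟩,
    fun x y => Xm h x.1.ne_zero y.1.ne_zero⟩
  refine ⟨fun x => tame h h1, χ, fun x => cc P f a x,
    fun x => cc P f a x - ((fun y => Xw P f a x.1 * bb P _ (x.1⁻¹ • y)) - bb P _), bb P _,
    fun _ => rfl, ⟨?_, fun κ x k => ⟨tw_mem fun _ _ => trivial, tw_mem ?_⟩, fun x => ⟨?_, ?_⟩,
      bb_al.mem fb' fun _ => trivial, fun x => ?_, fun x y => ?_, fun x => ?_⟩,
    fun x e => funext fun y => (cl x.1 0 (by simpa using e) y).trans (if_neg (by omega)),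
    fun x n e y => (cl x.1 n e y).trans (if_congr Iff.rfl rfl rfl)⟩
  · exact AddSubgroup.closure_mono fun F ⟨s, _, k⟩ => ⟨s, trivial, k⟩
  · exact fun s ⟨y, hy, e⟩ => ⟨⟨_, k⟩ * y, J.mul_mem_left _ hy, by rw [fst_mul, e]; rfl⟩
  · exact (ca h h1 x.1).mem (cr x.1) fun _ => trivial
  · refine ((ca h h1 x.1).sub ((bb_al.tw _ x.1).sub bb_al)).mem
      (fs (cr x.1) (fs (fb _ _) fb')) fun y => ?_
    obtain ⟨s, hs⟩ := hJ (-f y)
    obtain ⟨t, ht⟩ := hJ (-f (x : Mˣ))
    have m (z) : (bb P (DualNumber (Gr A)) z).fst ∈ S0 := by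
      simp only [bb]; split_ifs
      exacts [one_mem _, zero_mem _]
    refine ⟨_, sub_mem (J.mul_mem_right (⟨_, m (x.1⁻¹ • y)⟩ - ⟨_, m y⟩) hs)
      (J.mul_mem_right ⟨_, m (x.1⁻¹ • y)⟩ ht), ?_⟩
    simp [cc, Xf]
    ring
  · exact sub_sub_cancel _ _
  · exact funext (sy h x.1 y.1)
  · simp [c0, bb, χ]

end Vale.Agent.P014Y.C.Ld
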