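import Vale.Agent.P014Y.C.Ld.St3

/-!
# P014Y C, the leading term: bookkeeping of the pieces (row PCS)
-/

set_option autoImplicit false
set_option linter.unusedSectionVars false

open NumberField IsDedekindDomain Finset WithZero
open scoped Classical

noncomputable section

namespace Vale.Agent.P014Y.C.Ld

open P004C.An Rh

namespace Pcs

variable {M : Type} [Field M] [NumberField M] {r A : ℕ} {w : Fin (r + 1) → Pl M}
  {φ : Fin (r + 1) → M → ZMod (3 ^ A)} {t y : M}

theorem near {P : Pl M} (h : P.valuation M (t - 1) < 1) (k : P.valuation M (y - 1) < 1) :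
    P.valuation M (t * y - 1) < 1 := by
  rw [show t * y - 1 = t * (y - 1) + (t - 1) by ring]
  exact Valuation.map_add_lt _ (by rwa [map_mul, val_one P h, one_mul]) h

theorem near_iff {P : Pl M} (h : P.valuation M (t - 1) < 1) :
    P.valuation M (t * y - 1) < 1 ↔ P.valuation M (y - 1) < 1 := by
  refine ⟨fun k => ?_, near h⟩
  have := Valuation.map_sub_lt _ k h
  rwa [show t * y - 1 - (t - 1) = t * (y - 1) by ring, map_mul, val_one P h, one_mul] at this

/-- the orders and the character do not change -/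
theorem cond (ad : ∀ i x y, x ≠ 0 → y ≠ 0 → φ i (x * y) = φ i x + φ i y) (t0 : t ≠ 0)
    (o : ∀ i, od (w i) t = 0) (s : ∑ i, φ i t = 0) (z : Pc M r A) :
    pc w φ z (t * y) = if y ≠ 0 ∧ (∀ i, od (w i) y = z.1 i) ∧ ∑ i, φ i y = z.2.1 then
      if (w 0).valuation M (t * y / z.2.2 - 1) < 1 then 1 else 0 else 0 := by
  by_cases y0 : y = 0
  · simp [pc, y0]
  · simp only [pc, od_mul _ t0 y0, o, zero_add, ad _ _ _ t0 y0, sum_add_distrib, s, ne_eq,
      mul_eq_zero, t0, y0, or_self, not_false_eq_true, true_and, ← ite_and, and_assoc]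

theorem pc_eq (z : Pc M r A) : pc w φ z y =
    if y ≠ 0 ∧ (∀ i, od (w i) y = z.1 i) ∧ ∑ i, φ i y = z.2.1 then
      if (w 0).valuation M (y / z.2.2 - 1) < 1 then 1 else 0 else 0 := by
  simp only [pc, ← ite_and, and_assoc]

theorem pc_mul (ad : ∀ i x y, x ≠ 0 → y ≠ 0 → φ i (x * y) = φ i x + φ i y) (t0 : t ≠ 0)
    (o : ∀ i, od (w i) t = 0) (s : ∑ i, φ i t = 0) (n : (w 0).valuation M (t - 1) < 1)
    (z : Pc M r A) : pc w φ z (t * y) = pc w φ z y := by
  simp only [cond ad t0 o s, pc_eq z, mul_div_assoc, near_iff n]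

theorem aw_pc (ad : ∀ i x y, x ≠ 0 → y ≠ 0 → φ i (x * y) = φ i x + φ i y)
    (tm : ∀ i x, (w i).valuation M (x - 1) < 1 → φ i x = 0) (z : Pc M r A) : Aw w (pc w φ z) := by
  have c : ∀ x, pc w φ z x ≠ 0 → x ≠ 0 ∧ ∀ i, (w i).valuation M x = exp (-(z.1 i : ℤ)) :=
    fun x h => by
      obtain ⟨a, b, -⟩ := (ite_ne_right_iff.1 h).1
      exact ⟨a, fun i => by rw [val_od _ a, b]⟩
  have k : ∀ x v, (∀ i, (w i).valuation M v ≤ exp (-(univ.sup z.1 + 1 : ℕ) : ℤ)) →
      pc w φ z x ≠ 0 → pc w φ z (x + v) = pc w φ z x := fun x v hv h => by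
    obtain ⟨x0, e⟩ := c x h
    have n : ∀ i, (w i).valuation M (1 + v / x - 1) < 1 := fun i => by
      have := le_sup (f := z.1) (mem_univ i)
      rw [add_sub_cancel_left, map_div₀, e, div_lt_one₀ (zero_lt_iff.2 exp_ne_zero)]
      exact (hv i).trans_lt (exp_lt_exp.2 (by omega))
    rw [show x + v = (1 + v / x) * x by field_simp]
    exact pc_mul ad (fun j => by simpa [j] using n 0) (fun i => by simp [od, val_one _ (n i)])
      (sum_eq_zero fun i _ => tm i _ (n i)) (n 0) z
  refine ⟨univ.sup z.1 + 1, fun x h i => ((c x h).2 i).trans_le (exp_le_exp.2 (by omega)),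
    fun x v hv => ?_⟩
  by_cases a : pc w φ z x = 0
  · by_contra b
    have := k (x + v) (-v) (by simpa only [Valuation.map_neg] using hv) (a ▸ b)
    rw [add_neg_cancel_right] at this
    exact b this.symm
  · exact k x v hv a

theorem aw_prod {f : Fin (r + 1) → M → ℤ} (h : ∀ i, At (w i) (f i)) : Aw w (∏ i, f i) := by
  choose N a b using h
  have l : ∀ i, (N i : ℤ) ≤ (univ.sup N : ℕ) := fun i => by exact_mod_cast le_sup (mem_univ i)
  refine ⟨univ.sup N, fun x k i => (a i x ?_).trans (exp_le_exp.2 (l i)), fun x v k => ?_⟩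
  · rw [prod_apply] at k
    exact prod_ne_zero_iff.1 k i (mem_univ i)
  · simp only [prod_apply]
    exact prod_congr rfl fun i _ => b i x v ((k i).trans (exp_le_exp.2 (neg_le_neg (l i))))

/-- the sum over the labels -/
theorem lab {R : Type} [CommRing R] (F : (Fin (r + 1) → ℕ) → ZMod (3 ^ A) → R) (n : M → R)
    (h : Fin (r + 1) → ℕ) (Rho : Finset M) (g : ZMod (3 ^ A)) :
    ∑ z ∈ ix A h Rho, F z.1 z.2.1 *
      (if y ≠ 0 ∧ (∀ i, od (w i) y = z.1 i) ∧ g = z.2.1 then n z.2.2 else 0) =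
      if Bx w h y then F (fun i => (od (w i) y).toNat) g * ∑ ρ ∈ Rho, n ρ else 0 := by
  split_ifs with b
  · have e : ∀ i, od (w i) y = (od (w i) y).toNat := fun i => (Int.toNat_of_nonneg (b.2 i).1).symm
    rw [ix, sum_product, sum_eq_single_of_mem (fun i => (od (w i) y).toNat)
      (Fintype.mem_piFinset.2 fun i => mem_range.2 (by have := b.2 i; omega)), sum_product,
      sum_eq_single_of_mem g (mem_univ _), mul_sum]
    · exact sum_congr rfl fun ρ _ => by rw [if_pos ⟨b.1, e, rfl⟩]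
    · exact fun g' _ k => sum_eq_zero fun ρ _ => by rw [if_neg fun j => k j.2.2.symm, mul_zero]
    · exact fun a _ k => sum_eq_zero fun ρ _ => by
        rw [if_neg fun j => k (funext fun i => by rw [j.2.1 i, Int.toNat_natCast]), mul_zero]
  · refine sum_eq_zero fun z hz => ?_
    rw [if_neg fun j => b ⟨j.1, fun i => ?_⟩, mul_zero]
    have := mem_range.1 (Fintype.mem_piFinset.1 (mem_product.1 hz).1 i)
    rw [j.2.1 i]
    omega

end Pcs

open Pcs

theorem pcs : PCS := fun K _ _ ι J M _ _ _ m r A p w φ ad hE => by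
  refine ⟨fun c l I e y hc => ?_, fun z e he y => pc_mul ad (e : Mˣ).ne_zero he.1 (hE _ e.2) he.2 z,
    aw_pc ad, fun f => aw_prod, fun π h u d Rho fr => ⟨fun s => ?_, fun R _ F y => ⟨?_, ?_⟩⟩⟩
  · have v : ∀ P : Pl M, (∀ i, P ≠ w i) → ∀ x, P.valuation M (((e : Mˣ) : M) * x) =
        P.valuation M x := fun P k x => by rw [map_mul, e.2.2 P k, one_mul]
    have i : Iv w ι J I (((e : Mˣ) : M) * y) ↔ Iv w ι J I y :=
      forall₃_congr fun P _ k => by simp only [mul_assoc, v P k]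
    show bs w ι J c l I (((e : Mˣ) : M) * y) = _
    simp only [bs, i, v c hc]
  · have := cyc_sp ((Uw w ι J m).map (inc w ι J m)).toSubmonoid
      (L := List.ofFn fun k => inc w ι J m (u k ^ d k))
      (List.forall_mem_ofFn_iff.2 fun k => ⟨_, fr.mem k, rfl⟩)
    rw [List.length_ofFn] at this
    exact mp_sp (fun a k => let ⟨e, he, j⟩ := Subgroup.mem_map.1 k; ⟨e, he, j ▸ rfl⟩) this
  · have o : ∀ (e : Fin p → ℕ) i, od (w i) ((((∏ k, u k ^ e k)⁻¹ : Ew w ι J m) : Mˣ) : M) = 0 :=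
      fun e i => by
        rw [Subgroup.coe_inv, Units.val_inv_eq_inv_val, od_inv, neg_eq_zero]
        refine prod_induction _ (fun x : Ew w ι J m => od (w i) ((x : Mˣ) : M) = 0)
          (fun a b ha hb => (od_mul _ (a : Mˣ).ne_zero (b : Mˣ).ne_zero).trans (by
            rw [ha, hb, add_zero])) (od_one _) fun k _ => ?_
        induction e k with
        | zero => exact pow_zero (u k) ▸ od_one _
        | succ n ih =>
          exact pow_succ (u k) n ▸ (od_mul _ (u k ^ n : Ew w ι J m).1.ne_zero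
            (u k : Mˣ).ne_zero).trans (by rw [ih, fr.uu, add_zero])
    rw [sum_congr rfl fun z _ => (show _ = F z.1 z.2.1 * if y ≠ 0 ∧ (∀ i, od (w i) y = z.1 i) ∧
      ∑ i, φ i y = z.2.1 then ∑ e ∈ Fintype.piFinset fun k => range (d k),
        if (w 0).valuation M ((∏ k, u k ^ e k)⁻¹ • y / z.2.2 - 1) < 1 then (1 : R) else 0 else 0 by
      refine congrArg _ ((sum_congr rfl fun e _ => congrArg Int.cast
        (cond ad (Units.ne_zero _) (o e) (hE _ (Subtype.prop _)) z)).trans ?_)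
      split_ifs with k
      · exact sum_congr rfl fun e _ => by
          rw [apply_ite (Int.cast : ℤ → R), Int.cast_one, Int.cast_zero]; rfl
      · simp), lab F fun ρ => ∑ e ∈ Fintype.piFinset fun k => range (d k),
        if (w 0).valuation M ((∏ k, u k ^ e k)⁻¹ • y / ρ - 1) < 1 then (1 : R) else 0]
    split_ifs with b
    · obtain ⟨z, ⟨⟨a1, a2⟩, a3⟩, un⟩ := fr.rho y b.1 (b.2 0).1 (b.2 0).2
      rw [← sum_product', sum_eq_single_of_mem z (mem_product.2
        ⟨a1, Fintype.mem_piFinset.2 fun j => mem_range.2 (a2 j)⟩), if_pos a3, mul_one]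
      exact fun z' k n => if_neg fun j => n (un z' ⟨⟨(mem_product.1 k).1, fun i =>
        mem_range.1 (Fintype.mem_piFinset.1 (mem_product.1 k).2 i)⟩, j⟩)
    · rfl
  · rw [sum_congr rfl fun z _ => (show _ = F z.1 z.2.1 * if y ≠ 0 ∧ (∀ i, od (w i) y = z.1 i) ∧
      ∑ i, φ i y = z.2.1 then if (w 0).valuation M (y / z.2.2 - 1) < 1 then (1 : R) else 0 else 0 by
      rw [pc_eq]; split_ifs <;> simp),
      lab F fun ρ => if (w 0).valuation M (y / ρ - 1) < 1 then (1 : R) else 0]
    by_cases b : Bx w h y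
    · by_cases k : ∃ ρ ∈ Rho, (w 0).valuation M (y / ρ - 1) < 1
      · obtain ⟨z, -, un⟩ := fr.rho y b.1 (b.2 0).1 (b.2 0).2
        rw [if_pos b, if_pos ⟨b, k⟩]
        obtain ⟨ρ, h1, h2⟩ := k
        have q : ∀ ρ ∈ Rho, (w 0).valuation M (y / ρ - 1) < 1 → (ρ, 0) = z := fun ρ a c =>
          un _ ⟨⟨a, fr.pos⟩, by simpa using c⟩
        rw [sum_eq_single_of_mem ρ h1 fun ρ' a n => if_neg fun c =>
          n (Prod.mk.inj ((q _ a c).trans (q _ h1 h2).symm)).1, if_pos h2, mul_one]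
      · rw [if_pos b, if_neg fun j => k j.2, sum_eq_zero fun ρ a => if_neg fun c => k ⟨ρ, a, c⟩,
          mul_zero]
    · rw [if_neg b, if_neg fun j => b j.1]

end Vale.Agent.P014Y.C.Ld
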