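import Vale.Agent.P014Y.C.Ld.St3

/-!
# P014Y C, the leading term: row PIY
-/

set_option autoImplicit false

open NumberField Module IsDedekindDomain Finset Filter TrivSqZeroExt
open scoped Classical

noncomputable section

namespace Vale.Agent.P014Y.C.Ld

open P004C.An As

namespace Py0

variable {A : ℕ}

theorem gr_add (a b : ZMod (3 ^ A)) : gr (a + b) = gr a * gr b := by
  simp [gr, AddMonoidAlgebra.single_mul_single]

theorem gr_sum {ι : Type} (s : Finset ι) (f : ι → ZMod (3 ^ A)) :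
    gr (∑ i ∈ s, f i) = ∏ i ∈ s, gr (f i) := by
  induction s using Finset.induction_on with
  | empty => rfl
  | insert a s h k => rw [sum_insert h, prod_insert h, gr_add, k]

theorem inr_prod {ι R : Type} [CommRing R] (s : Finset ι) (f : ι → R) :
    ∏ i ∈ s, (1 + inr (f i) : DualNumber R) = 1 + inr (∑ i ∈ s, f i) := by
  induction s using Finset.induction_on with
  | empty => simp
  | insert a s h k =>
    rw [sum_insert h, prod_insert h, k, inr_add, add_mul, mul_add, mul_add, inr_mul_inr]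
    ring

variable {M : Type} [Field M] [NumberField M] {r : ℕ}

theorem xw_fst (P : Pl M) (f : M → ZMod (3 ^ A)) (a : ℂ_[3]) (x : M) :
    (Xw P f a x).fst = gr (-f x) := by simp [Xw]

theorem xw_prod (w : Fin r → Pl M) (f : Fin r → M → ZMod (3 ^ A)) (a : Fin r → ℂ_[3]) (x : M) :
    ∏ i, Xw (w i) (f i) (a i) x = inl (gr (-∑ i, f i x)) *
      (1 + inr (algebraMap ℂ_[3] (Gr A) (∑ i, a i * od (w i) x))) := by
  simp only [Xw]
  rw [prod_mul_distrib, inr_prod, map_sum, ← sum_neg_distrib, gr_sum]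
  exact congrArg (· * _) (map_prod (inlHom (Gr A) (Gr A)) _ _).symm

theorem snd_le {G : Type} {n : ℕ} {ψ : ℕ → (Fin n → G) → Dn} {C : ℝ} (h0 : 0 ≤ C)
    (h : ∀ t, ∀ᶠ B in atTop, ‖(ψ B t).snd‖ ≤ C) (z : Ch G) :
    ∀ᶠ B in atTop, ‖(co (ψ B) z).snd‖ ≤ C := by
  induction z using FreeAbelianGroup.induction_on with
  | zero => exact .of_forall fun B => by simpa using h0
  | of L =>
    by_cases k : L.length = n
    · obtain ⟨a, rfl⟩ := ex_ofFn k
      simpa only [co_ofFn] using h a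
    · exact .of_forall fun B => by simpa [co_ne _ k] using h0
  | neg L k => simpa only [map_neg, snd_neg, norm_neg] using k
  | add x y k k' =>
    filter_upwards [k, k'] with B a b
    rw [map_add, snd_add]
    exact (IsUltrametricDist.norm_add_le_max _ _).trans (max_le a b)

theorem lg_le (hL : LG) {m : ℕ} (hm : 2 ≤ m) {x : ℂ_[3]} (h : ‖x - 1‖ ≤ (1 / 3) ^ m) :
    ‖lg x / 3 ^ m‖ ≤ 1 := by
  have h4 : ‖x - 1‖ ≤ 1 / 9 := h.trans ((pow_le_pow_of_le_one (by norm_num) (by norm_num) hm).trans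
    (by norm_num))
  have e : ‖lg x‖ ≤ (1 / 3) ^ m := by
    rw [← sub_add_cancel (lg x) (x - 1)]
    refine (IsUltrametricDist.norm_add_le_max _ _).trans (max_le ((hL x h4).2.2.1.trans ?_) h)
    nlinarith [norm_nonneg (x - 1)]
  rwa [norm_div, norm_pow, Al.Gx.nm_two, div_le_one (by positivity)]

theorem det_sc {R : Type} [CommRing R] {n : ℕ} (c : R) (x : Fin n ⊕ Fin r → Fin n → R)
    (y : Fin n ⊕ Fin r → Fin r → R) :
    (Matrix.of fun j j' => Sum.elim (fun i => c * x j i) (y j) j').det =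
      c ^ n * (Matrix.of fun j j' => Sum.elim (x j) (y j) j').det := by
  have := Matrix.det_mul_row (Sum.elim (fun _ : Fin n => c) fun _ : Fin r => 1)
    (Matrix.of fun j j' => Sum.elim (x j) (y j) j')
  rw [Fintype.prod_sum_type] at this
  simp only [Sum.elim_inl, Sum.elim_inr, prod_const, card_univ, Fintype.card_fin, one_pow,
    mul_one] at this
  rw [← this]
  congr 1
  ext j j'
  rcases j' with i | i <;> simp

theorem fin_est {S X t t' u e D : ℂ_[3]} {δ δ' c : ℝ} (hu : u * u = 1) (he : ‖e‖ = 1)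
    (h : ‖u * S - e * X * D * t‖ ≤ δ) (h' : ‖t - t'‖ ≤ δ') (hX : ‖X‖ ≤ 1) (hD : ‖D‖ = c) :
    ‖S - u * e * X * D * t'‖ ≤ δ + c * δ' := by
  have n : ‖u‖ = 1 := by
    have := congrArg norm hu
    rw [norm_mul, norm_one] at this
    nlinarith [norm_nonneg u]
  rw [show S - u * e * X * D * t' = u * (u * S - e * X * D * t) + u * e * X * (D * (t - t')) by
    linear_combination -S * hu]
  refine (norm_add_le _ _).trans (add_le_add (by rwa [norm_mul, n, one_mul]) ?_)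
  rw [norm_mul, norm_mul, norm_mul, n, he, norm_mul, hD, one_mul, one_mul]
  exact (mul_le_of_le_one_left (by rw [← hD]; positivity) hX).trans
    (mul_le_mul_of_nonneg_left h' (hD ▸ norm_nonneg _))

theorem om_cyc {G : Type} {n : ℕ} (F : (Fin n → G) → ℂ_[3]) (z : Ch G) {a x e D : ℂ_[3]}
    (h0 : a ≠ 0) (h : a * co F z = e * D) : co (fun t => x * F t) z = x * e / a * D := by
  rw [div_mul_eq_mul_div, eq_div_iff h0, mul_assoc x, ← h, mul_comm a, ← mul_assoc]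
  exact congrArg (· * a) (map_co F (AddMonoidHom.mulLeft x) z).symm

/-- the coordinates as a homomorphism -/
def sG {K : Type} [Field K] [NumberField K] {ι : ℂ →+* ℂ_[3]} {J : K →+* ℂ} [Algebra K M]
    {n m : ℕ} (σ : Fin n → M →+* ℂ) : Gv M ι J m →* (Fin n → ℂ_[3]) :=
  ⟨⟨fun x => Ms.sv ι σ (vl x), funext fun i => by simp [Ms.sv, vl]⟩,
    fun x y => funext fun i => by simp [Ms.sv, vl]⟩

end Py0

open Py0

/-- **row PIY** -/
theorem piy (hP : PS) (hL : LG) (hT : TAU) (hO : LOC) (hF : FND) (hA : ADM) (hD : DSC) (hC : PCS)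
    (hB : TFB) (hG : PGA) (hV : VLY) (hM : Ms.LMS) (hE : Ms.EMB) (hI : Ms.DIF) : PIY := by
  intro K _ _ ι J Ω B π τ ψ ω O M _ _ _ p b hb σ hσ c l hc r q m hm
  obtain ⟨C0, Ps, κ, iv, hz, η0, hη0, hom⟩ := hP p m hm
  obtain ⟨s, hs, hD⟩ := hD p r q
  have d0 : 0 ≤ √(dv ι J b) * (dv ι J b)⁻¹ := mul_nonneg (Real.sqrt_nonneg _)
    (inv_nonneg.2 (norm_nonneg _))
  refine ⟨(|C0| + √(dv ι J b) * (dv ι J b)⁻¹) * 3 ^ r + 1, by positivity,
    fun A w Φ φ ha π' h u d Rho D k hf hd hk => ?_⟩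
  obtain ⟨S0, Jd, τ', t1, -, t3, t4, t5⟩ := hT A
  obtain ⟨-, g2, -, -, a, g5⟩ := (hF K ι J Ω B M _ σ hσ m (by omega)).2.2 r A (3 * l) w Φ φ
    (dvd_mul_right _ _) ha
  obtain ⟨ϖ, hϖ⟩ := hA K ι J M (p + 1) hσ.rk c (w 0) l m hc
    (fun e => ha.cop 0 (Ideal.mul_mem_left _ _ e)) (by omega)
  obtain ⟨η1, hη1, hV⟩ := hV K ι J Ω B π τ ψ ω O M p b σ hσ c l hc m r A w Φ φ (by omega) ha
    π' h u d Rho D ϖ k hf hd hϖ hk
  choose tam χ cc cc' bb hχ hLw hc0 hc1 using fun i =>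
    hO M A (w i) (φ i) (a i) (Ew w ι J m) S0 Jd (ha.loc i) (ha.tam i) t3
  obtain ⟨c1, c2, c3, c4, c5⟩ := hC K ι J M m r A p w φ ha.loc g2
  obtain ⟨-, b2, b3⟩ := hB K ι J π τ ψ O.toAr M c l hc r w ha.cop
  have u2 : ((-1) ^ (r + 1) * ι η1) * ((-1) ^ (r + 1) * ι η1) = 1 := by
    rw [mul_mul_mul_comm, ← mul_pow]
    rcases hη1 with e | e <;> simp [e]
  have n1 : ‖ι η1‖ = 1 := by rcases hη1 with e | e <;> simp [e]
  have n2 : ‖(s : ℂ_[3]) * η0‖ = 1 := by rcases hs with e | e <;> simp [e, hη0]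
  have nk : ‖(k : ℂ_[3])‖ ≤ 1 := IsUltrametricDist.norm_natCast_le_one _ _
  refine ⟨(-1) ^ (r + 1) * ι η1 * (s * η0), by rw [norm_mul, n2]; simp [n1],
    fun t0 I ht hI0 hI1 => ?_⟩
  obtain ⟨nu, hnu⟩ := hM K ι J Ω π τ ψ ω O M _ b hb σ (em_of hσ) _ l hc m t0 (by omega) ht
  obtain ⟨p1, -, T, hT, hPg⟩ := hG K ι J π τ ψ ω O.toAr M _ b σ hσ c (w 0) l hc m r w ha.cop
    C0 Ps κ iv t0 nu ϖ hz hnu hϖ
  choose! S s' hS hev using hV C0 Ps κ iv t0 nu I hz ht hnu hI0 hI1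
  have gT : ∀ z, gz w ι J c l φ I z ∈ T := fun z => (hT _).2 (b3 I _ hI0 hI1 (c3 tam z))
  have r1 : (1 : ℝ) ≤ 3 ^ r := one_le_pow₀ (by norm_num)
  refine ⟨S, fun z hz' => ⟨hS z hz', ?_⟩, fun g0 i hi => ?_⟩
  · obtain ⟨B', ⟨-, e1⟩, e2⟩ := ((hev z hz').and (snd_le (abs_nonneg C0) (fun t =>
      (hPg.res t _ (gT z)).mono fun _ e => e.2.trans (le_abs_self _)) (cy u d (s' z)))).exists
    have e3 := (norm_sub_le _ _).trans (add_le_add e2 e1)
    rw [sub_sub_cancel, map_mul, mul_left_comm, norm_mul, n1, one_mul] at e3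
    nlinarith [abs_nonneg C0]
  have p0 : ((p : ℂ_[3]) + 1) * 3 ^ (m * (p + 1)) ≠ 0 :=
    mul_ne_zero (Nat.cast_add_one_ne_zero p) (pow_ne_zero _ three_ne_zero)
  have tz : ∀ g, (τ' i ∘ₗ LinearMap.mulLeft ℂ_[3] (gr g0)) ((-1) ^ (r + 1) * gr (-g)) =
      (-1) ^ (r + 1) * ((g0 - g).val.choose i : ℂ_[3]) := fun g => by
    rw [LinearMap.comp_apply, LinearMap.mulLeft_apply, mul_left_comm, ← gr_add, ← sub_eq_add_neg,
      ← t1, ← smul_eq_mul ((-1 : ℂ_[3]) ^ _), ← map_smul, Algebra.smul_def, map_pow, map_neg,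
      map_one]
  have key := hD A S0 Jd (τ' i ∘ₗ LinearMap.mulLeft ℂ_[3] (gr g0)) _ _ M (inc w ι J m) 0 T
    (fun e i => lg (ι (σ i (e : Mˣ)))) _ (ι (Ms.kp b σ) * ι (J (Algebra.norm K t0)) * η0 /
      (((p : ℂ_[3]) + 1) * 3 ^ (m * (p + 1)))) C0 (|C0| * (3 ^ r * (1 / 3) ^ A) + ‖(k : ℂ_[3])‖) _
    (bs w ι J c l I) (fun i => {g | At (w i) g}) χ cc cc' bb π' u d _ (ix A h Rho)
    (fun z => (-1) ^ (r + 1) * (inl (gr (-z.2.1)) *
      (1 + inr (algebraMap ℂ_[3] (Gr A) (∑ i, a i * z.1 i))))) (gz w ι J c l φ I) s'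
    (fun z => nm ι J b σ ω m k t0 * ι (η1 * S z)) hPg (fun _ _ => rfl) (fun e => smul_zero e)
    (fun e y => c1 c l I e y b2) (fun v => om_cyc _ _ p0 (hom _ (sG σ) (fun k => inc w ι J m (v k)) p1))
    (fun f hf => (hT _).2 (b3 I _ hI0 hI1 (c4 f hf)))
    (fun i x => by rw [hχ, xw_fst]; exact (t3 _).1) hLw
    (fun i k e => hc0 i _ ((hf.pi i).2 k e)) (fun i k => hc0 i _ (hf.uu k i))
    (fun x => by
      simp only [hχ]
      rw [xw_prod, g2 _ x.2, g5 _ x.2, neg_zero, map_neg, inr_neg, ← sub_eq_add_neg]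
      exact one_mul _)
    (fun k => by simpa [hf.uu k] using (g5 _ (u k).2).symm) (by positivity)
    (fun z hz => by
      have e := (t4 i (r + 1) _ (by omega) (Ideal.mul_mem_left _ ⟨gr g0, (t3 g0).1⟩ hz)).trans
        (mul_le_mul_of_nonneg_right (pow_le_pow_right₀ (by norm_num : (1 : ℝ) ≤ 3) hi) (by positivity))
      refine le_add_of_le_of_nonneg ?_ (norm_nonneg _)
      rw [mul_comm]
      exact mul_le_mul (le_abs_self _) e (norm_nonneg _) (abs_nonneg _))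
    (fun y => by
      have e := (c5 π' h u d Rho hf).2 (DualNumber (Gr A)) (fun e g => (-1) ^ (r + 1) *
        (inl (gr (-g)) * (1 + inr (algebraMap ℂ_[3] (Gr A) (∑ i, a i * e i))))) y
      simp only [gz, c1 c l I _ y b2, ← mul_sum, Int.cast_mul, Int.cast_sum,
        mul_left_comm _ (bs w ι J c l I y : DualNumber (Gr A))]
      rw [e.1]
      simp only [fun i => hc1 i _ _ (hf.pi i).1 y]
      congr 1
      by_cases k : Bx w h y
      · rw [if_pos k, prod_congr rfl fun i _ => if_pos ⟨k.1, k.2 i⟩, prod_neg, xw_prod, card_univ,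
          Fintype.card_fin]
        simp only [fun i => show (((od (w i) y).toNat : ℕ) : ℂ_[3]) = od (w i) y by
          rw [← Int.cast_natCast, Int.toNat_of_nonneg (k.2 i).1]]
      · rw [if_neg k]
        by_contra e'
        have := fun i => by_contra fun (n : ¬ (y ≠ 0 ∧ 0 ≤ od (w i) y ∧ od (w i) y < h i)) =>
          e' (prod_eq_zero (mem_univ i) (if_neg n))
        exact k ⟨(this 0).1, fun i => (this i).2⟩)
    (fun z hz' => ⟨gT z, fun k y => by
      simp only [gz, c1 c l I _ y b2, c2 z _ (hf.mem k) y], by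
      simp only [fst_mul, fst_pow, fst_neg, fst_one, fst_inl, fst_add, fst_inr, add_zero, mul_one]
      rw [tz, norm_mul, norm_pow, norm_neg, norm_one, one_pow, one_mul]
      exact IsUltrametricDist.norm_natCast_le_one _ _,
      (hev z hz').mono fun B e => ⟨e.1, e.2.trans (le_add_of_nonneg_left (by positivity))⟩⟩)
  have t6 := t5 (p + 1) r (fun j i => lg (ι (σ i ((Sum.elim π' u (q j) : Ew w ι J m) : Mˣ))) / 3 ^ m)
    (fun j i => ∑ i' ∈ Iic i, -φ i'.castSucc ((Sum.elim π' u (q j) : Ew w ι J m) : Mˣ))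
    (fun j i => φ i.succ ((Sum.elim π' u (q j) : Ew w ι J m) : Mˣ)) g0 i
    (fun j i => lg_le hL (by omega) (p1 (inc w ι J m _) i)) hi
  simp only [fst_mul, fst_pow, fst_neg, fst_one, fst_inl, fst_add, fst_inr, add_zero, mul_one, tz,
    hχ, xw_fst, ← gr_sum] at key
  have e2 : ∀ x : ℂ_[3], algebraMap ℂ_[3] (Gr A) x =
      algebraMap ℂ_[3] (Gr A) (3 ^ m) * algebraMap ℂ_[3] (Gr A) (x / 3 ^ m) := fun x => by
    rw [← map_mul, mul_div_cancel₀ _ (pow_ne_zero _ three_ne_zero)]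
  rw [show bs w ι J c l I 0 = 1 - l by simp [bs, Iv]] at key
  simp_rw [e2 (lg _)] at key
  rw [det_sc, ← map_pow, ← Algebra.smul_def, map_smul, smul_eq_mul] at key
  have nX : ‖(1 - l : ℂ_[3])‖ ≤ 1 := by
    exact_mod_cast IsUltrametricDist.norm_intCast_le_one ℂ_[3] (1 - l)
  have nD : ‖ι (Ms.kp b σ) * ι (J (Algebra.norm K t0))‖ = √(dv ι J b) * (dv ι J b)⁻¹ := by
    rw [norm_mul, ((hE K ι J M _ b).2 σ (em_of hσ)).2.1,
      eq_inv_of_mul_eq_one_left ((hI K ι J π τ ψ O.toAr M _ b hb).2 t0 ht).1]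
  have fin := fin_est (S := ∑ z ∈ ix A h Rho, ((g0 - z.2.1).val.choose i : ℂ_[3]) *
    (nm ι J b σ ω m k t0 * ι (S z))) u2 n2 (by
      convert key using 2
      congr 1
      · rw [mul_sum]
        exact sum_congr rfl fun z _ => by rw [map_mul]; ring
      · rw [LinearMap.comp_apply, LinearMap.mulLeft_apply]
        push_cast
        field_simp
        ring) t6 nX nD
  rw [mul_ite, mul_zero] at fin
  refine fin.trans ?_
  have : (0 : ℝ) ≤ (1 / 3) ^ A := by positivity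
  nlinarith [abs_nonneg C0, norm_nonneg (k : ℂ_[3]), mul_nonneg (mul_nonneg (add_nonneg
    (abs_nonneg C0) d0) (zero_le_one.trans r1)) (norm_nonneg (k : ℂ_[3]))]

end Vale.Agent.P014Y.C.Ld
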