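import Vale.Agent.P014Y.C.Ld.Inv0

/-!
# P014Y C, the leading term: invariance of the functional under the torus
-/

set_option autoImplicit false

open Finset Filter Topology MvPowerSeries DualNumber

noncomputable section

namespace Vale.Agent.P014Y.C.Ld

namespace Iv

variable {p : ℕ} {B r : ℝ} {F x y α β : Qs p} {e e' η : Fin (p + 1) → ℂ_[3]}

theorem nr3 (h : Nr 7 e) : Nr 3 e := fun i => (h i).trans (by norm_num)

theorem nr_mul (h : Nr 7 e) (k : Nr 7 e') : Nr 7 (e * e') := fun i => by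
  have a : (e * e') i - 1 = (e i - 1) * (e' i - 1) + ((e i - 1) + (e' i - 1)) := by
    rw [Pi.mul_apply]
    ring
  rw [a]
  refine (IsUltrametricDist.norm_add_le_max _ _).trans (max_le ?_
    ((IsUltrametricDist.norm_add_le_max _ _).trans (max_le (h i) (k i))))
  rw [norm_mul]
  exact (mul_le_mul (h i) (k i) (norm_nonneg _) (by norm_num)).trans (by norm_num)

theorem bd_mul (h1 : S1 p) (h : Bd 1 x) (k : Bd B F) : Bd B (x * F) := by
  simpa using h1.mul _ _ _ _ h k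

theorem bd_pow (h1 : S1 p) (h : Bd 1 x) (k : ℕ) : Bd 1 (x ^ k) := by
  induction k with
  | zero => simpa using bd_one
  | succ k ih => exact pow_succ x k ▸ bd_mul h1 ih h

theorem bd_ge (h1 : S1 p) (he : Nr 7 e) : Bd 1 (ge e) :=
  bd_mul h1 (h1.ex _ he) (by rw [map_pow]; exact bd_pow h1 (h1.inv e (nr3 he)).2.2 _)

/-- the constant -/
def cc (e : Fin (p + 1) → ℂ_[3]) : Dn := Lt (ge e) * (Lt (1 : Qs p))⁻¹

theorem L1 (h2 : S2 p) : (Lt (1 : Qs p))⁻¹ * Lt (1 : Qs p) = 1 :=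
  TrivSqZeroExt.inv_mul_cancel (by
    rw [h2.one.1]
    exact inv_ne_zero (Nat.cast_ne_zero.2 (Nat.factorial_ne_zero _)))

theorem aux {Q : Type} [CommRing Q] [Algebra ℂ_[3] Q] {D : Derivation ℂ_[3] Q Q} {l μ u : Q}
    {a : ℂ_[3]} (h : l * μ = 1) (k : D l = a • u - u * l) : D μ = (u - a • (μ * u)) * μ := by
  have := congrArg D h
  rw [Derivation.leibniz, k, D.map_one_eq_zero] at this
  simp only [smul_eq_mul, Algebra.smul_def] at this ⊢
  linear_combination μ * this - (D μ - u * μ) * h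

theorem aux_pow {Q : Type} [CommRing Q] [Algebra ℂ_[3] Q] {D : Derivation ℂ_[3] Q Q} {μ u : Q}
    (h : D μ = u * μ) (k : ℕ) : D (μ ^ k) = k * u * μ ^ k := by
  induction k with
  | zero => simp
  | succ d ih =>
    rw [pow_succ, Derivation.leibniz, ih, h, smul_eq_mul, smul_eq_mul]
    push_cast
    ring

theorem Se_U (h1 : S1 p) (he : Nr 7 e) (j : Fin (p + 1)) :
    Se e (U j) = e j • (PowerSeries.C (lu e)⁻¹ * U j) := by
  have a := (h1.se e (nr3 he)).1 (Pi.single j 1)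
  rw [← Pi.single_mul_right, mul_one, lu_single j (e j), lu_one'] at a
  rw [U, Se_C, ← CC, ← map_mul, ← map_mul]
  congr 1
  linear_combination (lu e)⁻¹ * a - se e (uu j) * (h1.inv e (nr3 he)).1

/-- the two solutions of the recurrences -/
theorem two (h1 : S1 p) (h2 : S2 p) : ∃ L : Qs p →ₗ[ℂ_[3]] Dn, (∀ F ∈ BB h1, L F = Lt F) ∧
    (∀ i, (1 + eps) * L 1 = L (sg * U i) + ((p : Dn) + 1) * L (U i)) ∧
    (Rc fun d m => L (1 * sg ^ d * (m.map U).prod)) ∧ ∀ e, Nr 7 e →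
      Rc fun d m => L (ge e * Se e sg ^ d * (m.map fun j => Se e (U j)).prod) := by
  obtain ⟨L, hL⟩ := ex_L h1 h2
  obtain ⟨D, hD⟩ := h2.kil
  have m0 : sg ∈ BB h1 := ⟨_, bd_sg⟩
  have m1 := U_mem h1
  have hk : ∀ i, ∀ F ∈ BB h1, D i F ∈ BB h1 → L (D i F) + (1 + eps) * L F =
      L (sg * U i * F) + ((p : Dn) + 1) * L (U i * F) := fun i F a b => by
    rw [hL _ a, hL _ b, hL _ (mul_mem (mul_mem m0 (m1 i)) a), hL _ (mul_mem (m1 i) a)]
    obtain ⟨B, a⟩ := a
    exact (hD i).2.2.2 B F a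
  have sU : ∑ i, (U i : Qs p) = 1 := by simp only [U, ← map_sum, sum_uu, map_one]
  have d0 : ∀ i, D i sg = U i * sg := fun i => (hD i).1.trans (mul_comm _ _)
  have d1 : ∀ i η, D i (PowerSeries.C (lu η)) = η i • U i - U i * PowerSeries.C (lu η) :=
    fun i η => by rw [(hD i).2.1, mul_sub, map_sub, map_mul, map_mul, mul_comm, CC]; rfl
  have d2 : ∀ i j, D i (U j) = ((if i = j then 1 else 0) - U i) * U j := fun i j => by
    have := d1 i (Pi.single j 1)
    rw [lu_one'] at this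
    rw [U, this, sub_mul]
    by_cases k : i = j <;> simp [k, U]
  refine ⟨L, hL, fun i => ?_, frame hk m0 m1 (one_mem _) m0 m1 sU d0 d2 fun i => by simp,
    fun e he => ?_⟩
  · simpa using hk i 1 (one_mem _) (by simp)
  have mS : ∀ F ∈ BB h1, Se e F ∈ BB h1 := fun F ⟨B, a⟩ => ⟨B, (h1.se e (nr3 he)).2.2 B F a⟩
  have lm : PowerSeries.C (lu e) * PowerSeries.C (lu e)⁻¹ = 1 := by
    rw [← map_mul, (h1.inv e (nr3 he)).1, map_one]
  have d3 := fun i => aux lm (d1 i e)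
  refine frame hk m0 m1 ⟨_, bd_ge h1 he⟩ (mS _ m0) (fun i => mS _ (m1 i))
    (by rw [← map_sum, sU, map_one]) (fun i => ?_) (fun i j => ?_) fun i => ?_
  · rw [Se_sg, Se_U h1 he, Derivation.leibniz, d0, d1]
    simp only [smul_eq_mul, Algebra.smul_def]
    linear_combination -(algebraMap _ _ (e i) * U i * sg) * lm
  · rw [Se_U h1 he, Se_U h1 he, Derivation.map_smul, Derivation.leibniz, d2, d3]
    simp only [smul_eq_mul, Algebra.smul_def]
    ring
  · rw [Se_sg, Se_U h1 he, ge, map_pow, Derivation.leibniz, aux_pow (d3 i), (hD i).2.2.1,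
      Pi.sub_apply, Pi.one_apply, sub_smul, one_smul, ← U]
    simp only [smul_eq_mul, Algebra.smul_def]
    push_cast
    linear_combination (algebraMap _ _ (e i) * U i * sg * Ex (e - 1) *
      PowerSeries.C (lu e)⁻¹ ^ (p + 1)) * lm

theorem mo_eq (x : ℕ × (Fin p →₀ ℕ)) :
    ∃ (a : ℂ_[3]) (d : ℕ) (m : Multiset (Fin (p + 1))), mo x = a • (sg ^ d * (m.map U).prod) := by
  let S : Submonoid (Qs p) :=
    { carrier := {F | ∃ (a : ℂ_[3]) (d : ℕ) (m : Multiset (Fin (p + 1))),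
        F = a • (sg ^ d * (m.map U).prod)}
      one_mem' := ⟨1, 0, 0, by simp⟩
      mul_mem' := by
        rintro _ _ ⟨a, d, m, rfl⟩ ⟨a', d', m', rfl⟩
        refine ⟨a * a', d + d', m + m', ?_⟩
        rw [smul_mul_smul_comm, Multiset.map_add, Multiset.prod_add, pow_add, mul_mul_mul_comm] }
  have a : PowerSeries.X ∈ S := ⟨27, 1, 0, by simp [sg_eq, smul_smul]⟩
  have b : ∀ i, PowerSeries.C (X i) ∈ S := fun i => ⟨27, 0, {i.succ}, by
    simp [U, uu, CC, smul_smul]⟩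
  have c : mo x = (∏ i, PowerSeries.C (X i) ^ x.2 i) * PowerSeries.X ^ x.1 := by
    rw [mo, PowerSeries.monomial_eq_C_mul_X_pow, monomial_one_eq,
      Finsupp.prod_fintype _ _ fun _ => pow_zero _, map_prod]
    simp only [map_pow]
  exact c ▸ S.mul_mem (S.prod_mem fun i _ => S.pow_mem (b i) _) (S.pow_mem a _)

/-- the transformed functional is a multiple of the functional -/
theorem key (h1 : S1 p) (h2 : S2 p) (he : Nr 7 e) (hF : Bd B F) :
    Lt (ge e * Se e F) = cc e * Lt F := by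
  obtain ⟨L, hL, -, r0, r1⟩ := two h1 h2
  have hg := bd_ge h1 he
  have hS := (h1.se e (nr3 he)).2.2
  have z := ((r1 e he).sub r0 (cc e)).zero p.succ_pos (by
    simp only [pow_zero, Multiset.map_zero, Multiset.prod_zero, mul_one]
    rw [hL _ ⟨_, hg⟩, hL _ (one_mem _), cc, mul_assoc, L1 h2, mul_one, sub_self])
  have bm : ∀ x, Bd B (cf F x • mo x) := fun x =>
    bd_le (bd_smul _ (bd_mo x)) (by simpa using hF x)
  have k : ∀ x, Lt (ge e * (cf F x • Se e (mo x))) = cc e * (cf F x • wt p x) := fun x => by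
    have w : Lt (mo x) = wt p x := (h2.has _ _ (bd_mo x)).unique (by
      convert hasSum_single (f := fun y => cf (mo x) y • wt p y) x fun y k => by simp [cf_mo, k]
      simp [cf_mo])
    rw [← Se_smul, ← hL _ ⟨_, bd_mul h1 hg (hS _ _ (bm x))⟩, ← w, ← hL _ ⟨_, bd_mo x⟩, Se_smul]
    obtain ⟨a, d, m, k⟩ := mo_eq x
    have := sub_eq_zero.1 (z d m)
    rw [one_mul] at this
    rw [k, Se_smul, map_mul (Se e), map_pow, map_multiset_prod, Multiset.map_map]
    simp only [mul_smul_comm, map_smul, ← this, mul_assoc, Function.comp_def]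
  have := h2.dom _ B _ _ (fun x => bd_mul h1 hg (Se_smul e _ _ ▸ hS _ _ (bm x)))
    ((hs_Se e F).mul (ge e))
  exact this.unique (by simpa only [k] using (h2.has _ _ hF).mul_left (cc e))

theorem cc_mul (h1 : S1 p) (h2 : S2 p) (he : Nr 7 e) (he' : Nr 7 e') :
    cc (e * e') = cc e * cc e' := by
  obtain ⟨a, b, -⟩ := h1.se e (nr3 he)
  have c : (lu (e * e'))⁻¹ = (lu e)⁻¹ * se e (lu e')⁻¹ := by
    have k := congrArg (se e) (h1.inv e' (nr3 he')).1
    rw [map_mul, map_one] at k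
    linear_combination (-(lu (e * e'))⁻¹ * se e (lu e') * se e (lu e')⁻¹) * (h1.inv e (nr3 he)).1 -
      (lu (e * e'))⁻¹ * k + ((lu (e * e'))⁻¹ * (lu e)⁻¹ * se e (lu e')⁻¹) * a e' +
      ((lu e)⁻¹ * se e (lu e')⁻¹) * (h1.inv _ (nr3 (nr_mul he he'))).1
  have d : ge (e * e') = ge e * Se e (ge e') := by
    rw [ge, ge, ge, map_mul, b, Se_C, mul_mul_mul_comm, ← h1.exa, ← map_mul, c, mul_pow, map_pow]
    congr 2
    ring
  rw [cc, d, key h1 h2 he (bd_ge h1 he'), mul_assoc]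
  rfl

theorem co_Ex (η : Fin (p + 1) → ℂ_[3]) (d : ℕ) : PowerSeries.coeff d (Ex η) =
    C ((d.factorial : ℂ_[3])⁻¹) * (-(C 27⁻¹ * lu η)) ^ d := by
  rw [Ex, PowerSeries.coeff_rescale, PowerSeries.coeff_exp, MvPowerSeries.algebraMap_apply,
    mul_comm]
  simp

theorem sg_C (l : Tt p) : sg * PowerSeries.C l = PowerSeries.monomial 1 (C 27⁻¹ * l) := by
  rw [PowerSeries.monomial_eq_C_mul_X_pow, sg, map_mul, pow_one, mul_right_comm]

/-- the first component for one variable -/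
theorem fst_single (h1 : S1 p) (h2 : S2 p) (i : Fin (p + 1)) {a : ℂ_[3]}
    (he : Nr 7 (Pi.mulSingle i a : Fin (p + 1) → ℂ_[3])) : a * (cc (Pi.mulSingle i a)).fst = 1 := by
  obtain ⟨L, hL, -, r0, -⟩ := two h1 h2
  have m0 : sg ∈ BB h1 := ⟨_, bd_sg⟩
  obtain ⟨B, hB⟩ := pow_mem m0 (p + 1)
  have ha : ‖1 - a‖ < 1 := by
    have := he i
    rw [Pi.mulSingle_eq_same, norm_sub_rev] at this
    exact this.trans_lt (by norm_num)
  have e1 : (Pi.mulSingle i a : Fin (p + 1) → ℂ_[3]) - 1 = Pi.single i (a - 1) := by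
    funext j
    by_cases k : j = i <;> simp [k]
  have k := key h1 h2 he hB
  rw [h2.one.2, ge, map_pow (Se _), Se_sg, mul_pow, ← map_pow, mul_assoc,
    ← mul_assoc (PowerSeries.C _), ← map_mul, ← mul_pow, mul_comm _⁻¹, (h1.inv _ (nr3 he)).1,
    one_pow, map_one, one_mul, mul_comm, e1] at k
  have bE : Bd 1 (Ex (Pi.single i (a - 1))) := e1 ▸ h1.ex _ he
  have A : ∀ d : ℕ, L (1 * sg ^ (p + 1 + d) * ((Multiset.replicate d i).map U).prod) =
      (d.factorial : Dn) * eps := fun d => by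
    induction d with
    | zero => simpa [hL _ (pow_mem m0 _)] using h2.one.2
    | succ d ih =>
      have := (r0 (p + 1 + d) (.replicate d i)).2 i
      simp only [ih, Multiset.count_replicate_self, Multiset.card_replicate] at this
      rw [Multiset.replicate_succ, ← add_assoc, ← this, Nat.factorial_succ]
      push_cast
      linear_combination (d.factorial : Dn) * eps_mul_eps (R := ℂ_[3])
  have T : ∀ d, PowerSeries.monomial d (PowerSeries.coeff d (Ex (Pi.single i (a - 1)))) =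
      ((d.factorial : ℂ_[3])⁻¹ * (1 - a) ^ d) • (sg * U i) ^ d := fun d => by
    have : -(C 27⁻¹ * (C (a - 1) * uu i)) = C (1 - a) * (C 27⁻¹ * uu i : Tt p) := by
      simp only [map_sub, map_one]
      ring
    rw [co_Ex, U, sg_C, PowerSeries.monomial_pow, ← CC, lu_single, mul_one, this, mul_pow,
      ← map_pow, ← mul_assoc, ← map_mul, PowerSeries.monomial_eq_C_mul_X_pow,
      PowerSeries.monomial_eq_C_mul_X_pow, ← mul_assoc, ← map_mul]
  have c : ∀ (F : Qs p) d y, cf (PowerSeries.monomial d (PowerSeries.coeff d F)) y =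
      if y.1 = d then cf F y else 0 := fun F d y => by
    rw [cf, PowerSeries.coeff_monomial]
    split_ifs with k
    · rw [cf, k]
    · rfl
  have bT : ∀ d, Bd 1 (PowerSeries.monomial d (PowerSeries.coeff d (Ex (Pi.single i (a - 1))))) :=
    fun d y => by
      rw [c]
      split_ifs
      exacts [bE y, by simp]
  have s0 : ∀ F : Qs p, HS (fun d => PowerSeries.monomial d (PowerSeries.coeff d F)) F :=
    fun F y => by
      simpa only [c, if_true] using hasSum_single (f := fun d =>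
        cf (PowerSeries.monomial d (PowerSeries.coeff d F)) y) y.1 fun d k => by
          rw [c, if_neg k.symm]
  have s := h2.dom _ _ _ _ (fun d => h1.mul _ _ _ _ hB (bT d)) ((s0 _).mul (sg ^ (p + 1)))
  have v : ∀ d, (Lt (sg ^ (p + 1) * PowerSeries.monomial d
      (PowerSeries.coeff d (Ex (Pi.single i (a - 1)))))).snd = (1 - a) ^ d := fun d => by
    have := A d
    rw [Multiset.map_replicate, Multiset.prod_replicate, one_mul, pow_add, mul_assoc,
      ← mul_pow] at this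
    rw [← hL _ ⟨_, h1.mul _ _ _ _ hB (bT d)⟩, T, mul_smul_comm, map_smul, this]
    have : (d.factorial : ℂ_[3]) ≠ 0 := Nat.cast_ne_zero.2 d.factorial_ne_zero
    simp
    field_simp
  have w := TrivSqZeroExt.hasSum_snd _ s
  simp only [v, k] at w
  have z := w.unique (hasSum_geometric_of_norm_lt_one ha)
  have a0 : a ≠ 0 := fun k => by simp [k] at ha
  simp only [DualNumber.snd_mul, snd_eps, fst_eps, mul_one, mul_zero, add_zero, sub_sub_cancel] at z
  rw [z, mul_inv_cancel₀ a0]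

theorem fst_cc (h1 : S1 p) (h2 : S2 p) (he : Nr 7 e) : (∏ i, e i) * (cc e).fst = 1 := by
  have a : ∀ (i : Fin (p + 1)) (a : ℂ_[3]), ‖a - 1‖ ≤ (1 / 3) ^ 7 →
      Nr 7 (Pi.mulSingle i a : Fin (p + 1) → ℂ_[3]) ∧
      (∏ j, (Pi.mulSingle i a : Fin (p + 1) → ℂ_[3]) j) * (cc (Pi.mulSingle i a)).fst = 1 :=
    fun i a k => by
      have n : Nr 7 (Pi.mulSingle i a : Fin (p + 1) → ℂ_[3]) := fun j => by
        by_cases c : j = i
        · rwa [c, Pi.mulSingle_eq_same]
        · simp [c]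
      exact ⟨n, by rw [Fintype.prod_pi_mulSingle']; exact fst_single h1 h2 i n⟩
  have := prod_induction (s := univ) (fun i => (Pi.mulSingle i (e i) : Fin (p + 1) → ℂ_[3]))
    (fun e => Nr 7 e ∧ (∏ i, e i) * (cc e).fst = 1) (fun u v hu hv => ⟨nr_mul hu.1 hv.1, by
      rw [cc_mul h1 h2 hu.1 hv.1, TrivSqZeroExt.fst_mul]
      simp only [Pi.mul_apply, prod_mul_distrib]
      rw [mul_mul_mul_comm, hu.2, hv.2, mul_one]⟩)
    (by simpa only [Pi.mulSingle_one] using a 0 1 (by simp)) fun i _ => a i _ (he i)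
  rw [univ_prod_mulSingle] at this
  exact this.2

/-- first order expansions -/
def Ap (r : ℝ) (x α : Qs p) : Prop := Bd r α ∧ Bd (r ^ 2) (x - 1 + α)

theorem Ap.mul (h1 : S1 p) (hr : r ≤ 1) (h : Ap r x α) (k : Ap r y β) : Ap r (x * y) (α + β) := by
  have r0 := bd_nn h.1
  have a : Bd 1 y := by
    have := bd_add (bd_sub (bd_le k.2 (pow_le_one₀ r0 hr)) (bd_le k.1 hr)) bd_one
    simpa using this
  have := bd_add (bd_sub (bd_add k.2 (sq r ▸ h1.mul _ _ _ _ h.1 k.1))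
    (bd_mul h1 (bd_le h.1 hr) k.2)) (bd_mul h1 a h.2)
  exact ⟨bd_add h.1 k.1, by convert this using 1; ring⟩

theorem Ap.pow (h1 : S1 p) (hr : r ≤ 1) (h : Ap r x α) (k : ℕ) : Ap r (x ^ k) (k • α) := by
  have r0 := bd_nn h.1
  induction k with
  | zero => exact ⟨fun x => by simpa [cf] using r0, fun x => by simpa [cf] using sq_nonneg r⟩
  | succ k ih => simpa only [pow_succ, succ_nsmul] using ih.mul h1 hr h

theorem ap_ge (h1 : S1 p) {a : ℂ_[3]} (ha : ‖a‖ ≤ 1) (hη : ∀ i, ‖η i‖ ≤ (1 / 3) ^ 7) :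
    Ap ‖a‖ (ge (1 + a • η))
      (sg * PowerSeries.C (lu (a • η)) + (p + 1) • PowerSeries.C (lu (a • η))) := by
  have n : ∀ i, ‖(a • η) i‖ ≤ ‖a‖ * (1 / 3) ^ 7 := fun i => by
    rw [Pi.smul_apply, norm_smul]
    exact mul_le_mul_of_nonneg_left (hη i) (norm_nonneg _)
  have a0 := norm_nonneg a
  have l := h1.lu _ _ n
  have l' : Bd ‖a‖ (PowerSeries.C (lu (a • η))) := bd_le l (by linarith)
  obtain ⟨i1, -, i2⟩ := h1.inv (1 + a • η) fun i => by
    simpa using (n i).trans (by linarith : _ ≤ (1 / 3 : ℝ) ^ 3)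
  rw [ge, add_sub_cancel_left, map_pow]
  refine Ap.mul h1 ha ⟨bd_le (h1.mul _ _ _ _ bd_sg l) (by linarith), fun y => ?_⟩
    (Ap.pow h1 ha ⟨l', ?_⟩ _)
  · obtain ⟨d, b⟩ := y
    rw [cf, sg_C, map_add, map_sub, co_Ex, PowerSeries.coeff_one, PowerSeries.coeff_monomial]
    rcases d with _ | _ | d
    · simp
    · simp
    have k := h1.ex η hη (d + 2, b)
    rw [cf, co_Ex] at k
    rw [if_neg (by omega), if_neg (by omega), sub_zero, add_zero, lu_smul, mul_left_comm (C _),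
      ← mul_neg, mul_pow, mul_left_comm, ← map_pow, coeff_C_mul, norm_mul, norm_pow]
    exact (mul_le_of_le_one_right (by positivity) k).trans
      (pow_le_pow_of_le_one a0 ha (by omega))
  · have k := bd_mul h1 i2 (sq ‖a‖ ▸ h1.mul _ _ _ _ l' l')
    have c := congrArg PowerSeries.C i1
    rw [map_mul, map_one, lu_add, lu_one, map_add, map_one] at c
    rw [lu_add, lu_one] at k ⊢
    convert k using 1
    linear_combination (1 - PowerSeries.C (lu (a • η))) * c

theorem snd_cc (h1 : S1 p) (h2 : S2 p) : ∃ K : ℝ, ∀ (a : ℂ_[3]) (η : Fin (p + 1) → ℂ_[3]),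
    ‖a‖ ≤ 1 → (∀ i, ‖η i‖ ≤ (1 / 3) ^ 7) →
    ‖(cc (1 + a • η)).snd + a * ∑ i, η i‖ ≤ K * ‖a‖ ^ 2 := by
  obtain ⟨L, hL, r0, -⟩ := two h1 h2
  obtain ⟨C0, -, hC⟩ := h2.nrm
  refine ⟨C0 * ‖(Lt (1 : Qs p))⁻¹.snd‖ + C0 * ‖(Lt (1 : Qs p))⁻¹.fst‖, fun a η ha hη => ?_⟩
  obtain ⟨k1, k⟩ := ap_ge h1 ha hη
  obtain ⟨c1, c2⟩ := hC _ _ k
  have l : PowerSeries.C (lu (a • η)) = ∑ i, (a * η i) • U i := by
    simp only [lu, map_sum, map_mul (PowerSeries.C), CC, U, Pi.smul_apply, smul_eq_mul]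
  have g : ge (1 + a • η) ∈ BB h1 := by
    have := (BB h1).add_mem ((BB h1).sub_mem ⟨_, k⟩ ⟨_, k1⟩) (one_mem _)
    simpa using this
  have w : L (sg * PowerSeries.C (lu (a • η)) + (p + 1) • PowerSeries.C (lu (a • η))) =
      (a * ∑ i, η i) • ((1 + eps) * L 1) := by
    rw [l, mul_sum, smul_sum, ← sum_add_distrib, map_sum, mul_sum, sum_smul]
    refine sum_congr rfl fun i _ => ?_
    rw [r0 i, map_add, mul_smul_comm, map_smul, map_nsmul, map_smul, smul_add, smul_comm,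
      nsmul_eq_mul, Nat.cast_succ]
  have z : cc (1 + a • η) - 1 + (a * ∑ i, η i) • (1 + eps : Dn) = Lt (ge (1 + a • η) - 1 +
      (sg * PowerSeries.C (lu (a • η)) + (p + 1) • PowerSeries.C (lu (a • η)))) *
      (Lt (1 : Qs p))⁻¹ := by
    rw [← hL _ ⟨_, k⟩, map_add, map_sub, w, hL _ g, hL _ (one_mem _), cc, add_mul, sub_mul,
      smul_mul_assoc, mul_assoc, mul_comm (Lt 1), L1 h2, mul_one]
  have z' := congrArg TrivSqZeroExt.snd z
  rw [DualNumber.snd_mul] at z'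
  simp only [TrivSqZeroExt.snd_add, TrivSqZeroExt.snd_sub, TrivSqZeroExt.snd_one, sub_zero,
    TrivSqZeroExt.snd_smul, snd_eps, zero_add, smul_eq_mul, mul_one] at z'
  rw [z', add_mul, mul_right_comm, mul_right_comm C0 ‖TrivSqZeroExt.fst _‖]
  refine (norm_add_le _ _).trans (add_le_add ?_ ?_) <;> rw [norm_mul] <;> gcongr

end Iv

open Iv in
/-- **INV** -/
theorem inv (p : ℕ) (hl : LG) (h1 : S1 p) (h2 : S2 p) : INV p := by
  intro e B F he hF
  obtain ⟨K, hK⟩ := snd_cc h1 h2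
  have f := fst_cc h1 h2 he
  have l := fun i => hl (e i) ((he i).trans (by norm_num))
  have n2 : ∀ k : ℕ, ‖(3 : ℂ_[3]) ^ k‖ = (1 / 3) ^ k := fun k => by rw [norm_pow, n2, one_div]
  have pw : ∀ k : ℕ, Nr 7 (e ^ 3 ^ k) ∧ cc (e ^ 3 ^ k) = cc e ^ 3 ^ k := fun k => by
    induction k with
    | zero => simpa using he
    | succ k ih => simp only [pow_succ, pow_mul, pow_zero, one_mul, cc_mul h1 h2 ih.1 ih.1,
        cc_mul h1 h2 (nr_mul ih.1 ih.1) ih.1, nr_mul (nr_mul ih.1 ih.1) ih.1, ih.2, true_and]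
  have t0 : Tendsto (fun k : ℕ => (1 / 3 : ℝ) ^ k) atTop (𝓝 0) :=
    tendsto_pow_atTop_nhds_zero_of_lt_one (by norm_num) (by norm_num)
  have t1 : ∀ i, Tendsto (fun k : ℕ => e i ^ 3 ^ k) atTop (𝓝 1) := fun i =>
    tendsto_iff_norm_sub_tendsto_zero.2 (squeeze_zero (fun _ => norm_nonneg _) (l i).2.1
      (by simpa only [mul_zero] using t0.const_mul _))
  have t2 : Tendsto (fun k : ℕ => (∏ i, e i ^ 3 ^ k)⁻¹ * ((∏ i, e i) * (cc e).snd) +
      ∑ i, (e i ^ 3 ^ k - 1) / 3 ^ k) atTop (𝓝 ((∏ i, e i) * (cc e).snd + ∑ i, lg (e i))) := by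
    have := (((tendsto_finsetProd univ fun i _ => t1 i).inv₀ (by simp)).mul_const
      ((∏ i, e i) * (cc e).snd)).add (tendsto_finsetSum univ fun i _ => (l i).1)
    simpa only [prod_const_one, inv_one, one_mul] using this
  have t3 : Tendsto (fun k : ℕ => (∏ i, e i ^ 3 ^ k)⁻¹ * ((∏ i, e i) * (cc e).snd) +
      ∑ i, (e i ^ 3 ^ k - 1) / 3 ^ k) atTop (𝓝 0) := by
    refine squeeze_zero_norm (a := fun k => K * (1 / 3) ^ k) (fun k => ?_)
      (by simpa only [mul_zero] using t0.const_mul _)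
    have p0 : (0 : ℝ) < (1 / 3) ^ k := by positivity
    have q0 : (3 : ℂ_[3]) ^ k ≠ 0 := pow_ne_zero _ three_ne_zero
    have a := hK (3 ^ k) (fun i => (e i ^ 3 ^ k - 1) / 3 ^ k)
      (by rw [n2]; exact pow_le_one₀ (by norm_num) (by norm_num)) fun i => by
        rw [norm_div, n2, div_le_iff₀ p0]
        exact ((l i).2.1 k).trans (mul_le_mul_of_nonneg_right (he i) p0.le)
    have b : (1 + (3 : ℂ_[3]) ^ k • fun i => (e i ^ 3 ^ k - 1) / 3 ^ k) = e ^ 3 ^ k := by
      funext i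
      simp [mul_div_cancel₀ _ q0]
    have c : (∏ i, e i ^ 3 ^ k)⁻¹ * ∏ i, e i = (cc e).fst ^ (3 ^ k).pred := by
      rw [prod_pow, ← inv_pow, ← eq_inv_of_mul_eq_one_right f]
      conv_lhs => rw [← Nat.succ_pred_eq_of_pos (pow_pos three_pos k), pow_succ]
      rw [mul_assoc, mul_comm (cc e).fst, f, mul_one]
    rw [b, (pw k).2, TrivSqZeroExt.snd_pow, nsmul_eq_mul, smul_eq_mul, Nat.cast_pow,
      Nat.cast_ofNat, ← mul_add, norm_mul, n2, sq, mul_left_comm] at a
    rw [← mul_assoc, c]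
    exact le_of_mul_le_mul_left a p0
  rw [key h1 h2 he hF, ← smul_mul_assoc]
  congr 1
  ext
  · simpa using f
  · simpa using eq_neg_of_add_eq_zero_left (tendsto_nhds_unique t2 t3)

end Vale.Agent.P014Y.C.Ld
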