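import Vale.Agent.P014Y.C.Ld.Defs

/-!
# P014Y C, the leading term: row `MOM`
-/

set_option autoImplicit false

open Finset Filter Topology

noncomputable section

namespace Vale.Agent.P014Y.C.Ld

namespace Mo

open MvPowerSeries IsUltrametricDist

theorem nn {n : ℕ} (h : n ≠ 0) : ‖(n : ℂ_[3])⁻¹‖ = 3 ^ padicValNat 3 n := by
  rw [norm_inv, ← map_natCast (algebraMap ℚ_[3] ℂ_[3]), norm_algebraMap',
    Padic.norm_eq_zpow_neg_valuation (Nat.cast_ne_zero.2 h), Padic.valuation_natCast]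
  simp

theorem nf (d : ℕ) : ‖(d.factorial : ℂ_[3])⁻¹‖ ≤ 3 ^ d := by
  rw [nn d.factorial_ne_zero]
  have := sub_one_mul_padicValNat_factorial (p := 3) d
  exact pow_le_pow_right₀ (by norm_num : (1 : ℝ) ≤ 3) (by omega)

theorem nc (k j : ℕ) : ‖(k.choose j : ℂ_[3]) - (-1) ^ j‖ ≤ ‖((k + 1 : ℕ) : ℂ_[3])‖ * 3 ^ j := by
  induction j with
  | zero => simp
  | succ j ih =>
    have e : (k.choose (j + 1) : ℂ_[3]) - (-1) ^ (j + 1) = ((k + 1 : ℕ) : ℂ_[3]) *
        ((j + 1).factorial : ℂ_[3])⁻¹ * (k.choose j * j.factorial : ℕ) + -(k.choose j - (-1) ^ j) := by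
      have := congrArg (Nat.cast : ℕ → ℂ_[3]) (Nat.add_one_mul_choose_eq k j)
      have a : (j.factorial : ℂ_[3]) ≠ 0 := Nat.cast_ne_zero.2 j.factorial_ne_zero
      have b : (j : ℂ_[3]) + 1 ≠ 0 := Nat.cast_add_one_ne_zero j
      rw [Nat.choose_succ_succ'] at this
      rw [Nat.factorial_succ]
      push_cast at this ⊢
      field_simp
      linear_combination -this
    rw [e]
    refine (norm_add_le_max _ _).trans (max_le ?_ ((norm_neg _).trans_le (ih.trans ?_)))
    · rw [norm_mul, norm_mul]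
      exact (mul_le_of_le_one_right (by positivity) (norm_natCast_le_one _ _)).trans
        (mul_le_mul_of_nonneg_left (nf _) (norm_nonneg _))
    · gcongr <;> simp

theorem np {ι : Type} {x y : ι → ℂ_[3]} {r : ℝ} (r0 : 0 ≤ r) (hx : ∀ i, ‖x i‖ ≤ 1)
    (hy : ∀ i, ‖y i‖ ≤ 1) (h : ∀ i, ‖x i - y i‖ ≤ r) (s : Finset ι) :
    ‖∏ i ∈ s, x i - ∏ i ∈ s, y i‖ ≤ r := by
  induction s using Finset.cons_induction with
  | empty => simpa
  | cons a s _ ih =>
    rw [prod_cons, prod_cons, show ∀ a b c d : ℂ_[3], a * b - c * d = a * (b - d) + (a - c) * d from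
      fun _ _ _ _ => by ring]
    refine (norm_add_le_max _ _).trans (max_le ?_ ?_) <;> rw [norm_mul]
    · exact (mul_le_of_le_one_left (norm_nonneg _) (hx a)).trans ih
    · exact (mul_le_of_le_one_right (norm_nonneg _) ((norm_prod _ _).trans_le
        (prod_le_one (fun _ _ => norm_nonneg _) fun i _ => hy i))).trans (h a)

theorem ind {n : ℕ} {P : (Fin n → ℕ) → Prop} (h0 : P 0) (h : ∀ b i, P b → P (b + Pi.single i 1))
    (b : Fin n → ℕ) : P b := by
  induction e : ∑ i, b i generalizing b with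
  | zero => rwa [funext fun i => sum_eq_zero_iff.1 e i (mem_univ i)]
  | succ d ih =>
    obtain ⟨i, -, c⟩ := exists_ne_zero_of_sum_ne_zero (e.trans_ne d.succ_ne_zero)
    obtain ⟨a, rfl⟩ : ∃ a, b = a + Pi.single i 1 := ⟨b - Pi.single i 1, funext fun j => by
      rcases eq_or_ne j i with rfl | c' <;> simp [*, Nat.sub_add_cancel (Nat.pos_of_ne_zero c)]⟩
    exact h a i (ih a (by simpa [sum_add_distrib] using e))

variable {p : ℕ}

/-- the monomials -/
def mn (b : Fin (p + 1) → ℕ) : Qs p := ∏ i, (sg * PowerSeries.C (uu i)) ^ b i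

theorem mn_succ (b : Fin (p + 1) → ℕ) (i) :
    mn (b + Pi.single i 1) = sg * PowerSeries.C (uu i) * mn b := by
  simp only [mn, Pi.add_apply, pow_add, prod_mul_distrib]
  simp [Pi.single_apply, mul_comm]

theorem mn_cf (b : Fin (p + 1) → ℕ) (d : ℕ) : PowerSeries.coeff d (mn b) =
    if d = ∑ i, b i then ∏ i, (C 27⁻¹ * uu i) ^ b i else 0 := by
  have : mn b = PowerSeries.C (∏ i, (C 27⁻¹ * uu i) ^ b i) * PowerSeries.X ^ ∑ i, b i := by
    simp only [mn, sg, map_prod, map_pow, map_mul, ← prod_pow_eq_pow_sum, ← prod_mul_distrib]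
    exact prod_congr rfl fun i _ => by ring
  rw [this, PowerSeries.coeff_C_mul, PowerSeries.coeff_X_pow, mul_ite, mul_one, mul_zero]

theorem lu_s (i : Fin (p + 1)) : lu (Pi.single i 1) = uu i := by
  simp [lu, Pi.single_apply, apply_ite C]

theorem bd_one : Bd 1 (1 : Qs p) := fun x => by
  simp only [cf, PowerSeries.coeff_one, apply_ite (coeff x.2), coeff_one, map_zero]
  split_ifs <;> simp

theorem bd_sg : Bd 27 (sg : Qs p) := fun x => by
  have : ‖(27 : ℂ_[3])⁻¹‖ = 27 := by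
    have := nn (pow_ne_zero 3 three_ne_zero)
    rw [padicValNat.prime_pow] at this
    norm_num at this ⊢
    exact this
  simp only [cf, sg, PowerSeries.coeff_C_mul, PowerSeries.coeff_X, mul_ite, mul_one, mul_zero,
    apply_ite (coeff x.2), coeff_C, map_zero]
  split_ifs <;> simp [-norm_inv, this]

theorem cs {F G : Qs p} {n : ℕ} {x : ℕ × (Fin p →₀ ℕ)}
    (h : PowerSeries.coeff (x.1 - n) F = PowerSeries.coeff (x.1 - n) G) :
    cf (sg ^ n * F) x = cf (sg ^ n * G) x := by
  simp only [cf, sg, mul_pow, ← map_pow, mul_assoc, PowerSeries.coeff_C_mul,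
    PowerSeries.coeff_X_pow_mul', h]

theorem nT_map (μ : Fn (p + 1)) (q : Py (p + 1)) : nT μ (q.map C) = C (μ q) := by
  induction q using MvPolynomial.induction_on' with
  | monomial b c =>
    have := (MvPolynomial.basisMonomials _ (Tt p)).constr_basis (Tt p)
      (fun b => (C (μ (MvPolynomial.monomial b 1)) : Tt p)) b
    rw [MvPolynomial.coe_basisMonomials] at this
    rw [MvPolynomial.map_monomial, ← mul_one (C c), ← smul_eq_mul, ← MvPolynomial.smul_monomial,
      map_smul, nT, this, smul_eq_mul, ← map_mul, ← smul_eq_mul, ← map_smul,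
      MvPolynomial.smul_monomial, smul_eq_mul, mul_one]
  | add _ _ a b => simp only [map_add, a, b]

/-- the coefficients of the Laplace transform -/
def cc (μ : Fn (p + 1)) (b : Fin (p + 1) → ℕ) : ℂ_[3] :=
  (∏ i, ((b i).factorial : ℂ_[3])⁻¹) * (∏ i, (-1) ^ b i) * μ (∏ i, (MvPolynomial.X i - 1) ^ b i)

theorem gm_cf (μ : Fn (p + 1)) (d : ℕ) : PowerSeries.coeff d (Gm μ) =
    PowerSeries.coeff d (∑ b ∈ piAntidiag univ d, cc μ b • mn b) := by
  rw [Gm, PowerSeries.coeff_mk, PowerSeries.coeff_rescale, PowerSeries.coeff_exp,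
    ← sum_neg_distrib, sum_pow_eq_sum_piAntidiag, sum_mul, map_sum, map_sum]
  refine sum_congr rfl fun b hb => ?_
  obtain rfl := (mem_piAntidiag.1 hb).1
  have := congrArg (Nat.cast : ℕ → ℂ_[3]) (Nat.multinomial_spec univ b)
  have e : (Nat.multinomial univ b : ℂ_[3]) * algebraMap ℚ _ (1 / (∑ i, b i).factorial) =
      ∏ i, ((b i).factorial : ℂ_[3])⁻¹ := by
    have a : ((∑ i, b i).factorial : ℂ_[3]) ≠ 0 := Nat.cast_ne_zero.2 (Nat.factorial_ne_zero _)
    have a' : ∏ i, ((b i).factorial : ℂ_[3]) ≠ 0 :=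
      prod_ne_zero_iff.2 fun i _ => Nat.cast_ne_zero.2 (Nat.factorial_ne_zero _)
    push_cast at this
    rw [prod_inv_distrib, eq_ratCast]
    push_cast
    field_simp
    linear_combination this
  rw [PowerSeries.coeff_smul, mn_cf, if_pos rfl, cc, ← e, mul_smul, mul_smul, mul_smul,
    smul_eq_C_mul _ (μ _), ← nT_map, mul_comm (nT _ _), ← smul_eq_mul (∏ i, _), ← map_smul,
    ← LinearMap.map_smul_of_tower, ← LinearMap.map_smul_of_tower, ← LinearMap.map_smul_of_tower,
    IsScalarTower.algebraMap_apply ℚ ℂ_[3], mul_right_comm]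
  congr 1
  simp only [Algebra.smul_def, map_prod, map_pow, map_sub, map_one, map_neg, map_natCast,
    MvPolynomial.map_X, MvPolynomial.algebraMap_eq, mul_assoc, ← prod_mul_distrib]
  congr 2
  exact prod_congr rfl fun i _ => by rw [← mul_pow, ← mul_pow]; congr 1; ring

variable (h1 : S1 p) (h2 : S2 p)
include h1

theorem bd_pow {C : ℝ} {F : Qs p} (h : Bd C F) (n : ℕ) : Bd (C ^ n) (F ^ n) := by
  induction n with
  | zero => exact bd_one
  | succ n ih => rw [pow_succ, pow_succ]; exact h1.mul _ _ _ _ ih h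

theorem bd_uu (i : Fin (p + 1)) : Bd (27 * 1) (PowerSeries.C (uu i)) :=
  lu_s i ▸ h1.lu 1 _ fun j => by rw [Pi.single_apply]; split_ifs <;> simp

theorem bd_mn (b : Fin (p + 1) → ℕ) :
    Bd (27 ^ (p + 1) * ∏ i, (27 * (27 * 1)) ^ b i) (sg ^ (p + 1) * mn b) :=
  h1.mul _ _ _ _ (bd_pow h1 bd_sg _) (prod_hom_rel (r := Bd) bd_one fun i _ _ =>
    h1.mul _ _ _ _ (bd_pow h1 (h1.mul _ _ _ _ bd_sg (bd_uu h1 i)) _))

include h2

omit h1 in
theorem lin {C C' : ℝ} {F G : Qs p} (hF : Bd C F) (hG : Bd C' G) (a b : ℂ_[3]) :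
    Lt (a • F + b • G) = a • Lt F + b • Lt G :=
  ((((h2.has _ _ hF).const_smul a).add ((h2.has _ _ hG).const_smul b)).congr_fun fun x => by
    simp [cf, add_smul, mul_smul]).tsum_eq

theorem lt_mn (b : Fin (p + 1) → ℕ) :
    Lt (sg ^ (p + 1) * mn b) = (∏ i, ((b i).factorial : ℂ_[3])) • DualNumber.eps := by
  obtain ⟨D, hD⟩ := h2.kil
  have d (i b) : D i (sg ^ (p + 1) * mn b) = ((p : ℂ_[3]) + 1) •
      (PowerSeries.C (uu i) * (sg ^ (p + 1) * mn b)) + (b i : ℂ_[3]) • (sg ^ (p + 1) * mn b) := by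
    induction b using ind with
    | h0 =>
      simp only [mn, Pi.zero_apply, pow_zero, prod_const_one, mul_one, Derivation.leibniz_pow,
        (hD i).1, Algebra.smul_def, map_add, map_natCast, map_one, Nat.cast_zero, map_zero,
        Nat.add_sub_cancel, Algebra.algebraMap_self, RingHom.id_apply]
      ring
    | h b j ih =>
      have := (hD i).2.1 (Pi.single j 1)
      rw [lu_s] at this
      rw [mn_succ, mul_left_comm, Derivation.leibniz, ih, Derivation.leibniz, this, (hD i).1]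
      rcases eq_or_ne i j with rfl | c
      · simp [Algebra.smul_def]; ring
      · simp [Algebra.smul_def, c]; ring
  induction b using ind with
  | h0 => simp [mn, h2.one.2]
  | h b i ih =>
    have := (hD i).2.2.2 _ _ (bd_mn h1 b)
    rw [d, lin h2 (h1.mul _ _ _ _ (bd_uu h1 i) (bd_mn h1 b)) (bd_mn h1 b), ih] at this
    rw [mn_succ, mul_left_comm, ← mul_prod_erase _ _ (mem_univ i), prod_congr rfl fun j hj => by
      rw [Pi.add_apply, Pi.single_eq_of_ne (ne_of_mem_erase hj), add_zero], Pi.add_apply,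
      Pi.single_eq_same, Nat.factorial_succ, Nat.cast_mul, mul_assoc (_ : ℂ_[3]),
      mul_prod_erase _ (fun j => ((b j).factorial : ℂ_[3])) (mem_univ i)]
    simp only [Algebra.smul_def, map_add, map_natCast, map_one, map_mul, Nat.cast_add,
      Nat.cast_one] at this ⊢
    linear_combination -this +
      algebraMap _ Dn (∏ j, ((b j).factorial : ℂ_[3])) * DualNumber.eps_mul_eps (R := ℂ_[3])

end Mo

open Mo in
theorem mom {p : ℕ} (h1 : S1 p) (h2 : S2 p) : MOM p := by
  intro m C μ k hm hμ hk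
  obtain ⟨k, rfl⟩ : ∃ j, k = j + 1 := ⟨k - 1, by omega⟩
  have C0 : 0 ≤ C := (norm_nonneg _).trans ((hμ 0).trans_eq (by simp))
  have b1 (b : Fin (p + 1) → ℕ) : 2187 ^ (∑ i, b i) * ‖μ (∏ i, (MvPolynomial.X i - 1) ^ b i)‖ ≤ C := by
    refine (mul_le_mul_of_nonneg_left (hμ b) (by positivity)).trans ?_
    rw [mul_left_comm, pow_mul, ← mul_pow]
    exact mul_le_of_le_one_right C0 (pow_le_one₀ (by positivity) ((mul_le_mul_of_nonneg_left
      (pow_le_pow_of_le_one (by norm_num) (by norm_num) hm) (by norm_num)).trans (by norm_num)))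
  have s := h2.dom _ (27 ^ (p + 1) * C) (fun b => sg ^ (p + 1) * cc μ b • mn b) (sg ^ (p + 1) * Gm μ)
    (fun b x => ?_) fun x => ?_
  rotate_left
  · have : ‖cc μ b‖ ≤ 3 ^ (∑ i, b i) * ‖μ (∏ i, (MvPolynomial.X i - 1) ^ b i)‖ := by
      rw [cc, norm_mul, norm_mul, norm_prod, norm_prod, ← prod_pow_eq_pow_sum]
      simp only [norm_pow, norm_neg, norm_one, one_pow, prod_const_one, mul_one]
      gcongr
      exact nf _
    rw [mul_smul_comm, show cf (cc μ b • (sg ^ (p + 1) * mn b)) x =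
      cc μ b * cf (sg ^ (p + 1) * mn b) x by simp [cf], norm_mul]
    refine (mul_le_mul this (bd_mn h1 b x) (norm_nonneg _) (by positivity)).trans ?_
    rw [prod_pow_eq_pow_sum, mul_left_comm, mul_right_comm, ← mul_pow]
    norm_num
    exact b1 b
  · rw [cs (gm_cf μ _), mul_sum, cf, map_sum, map_sum]
    refine hasSum_sum_of_ne_finset_zero fun b hb => (cs (G := 0) ?_).trans (by simp [cf])
    rw [PowerSeries.coeff_smul, mn_cf, if_neg fun e => hb (by simp [e]), smul_zero, map_zero]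
  have e (b : Fin (p + 1) → ℕ) : Lt (sg ^ (p + 1) * cc μ b • mn b) =
      (0, (∏ i, (-1) ^ b i) * μ (∏ i, (MvPolynomial.X i - 1) ^ b i)) := by
    have := lin h2 (bd_mn h1 b) (bd_mn h1 b) (cc μ b) 0
    rw [zero_smul, zero_smul, add_zero, add_zero, lt_mn h1 h2, smul_smul] at this
    rw [mul_smul_comm, this, cc, mul_assoc (∏ i, _), mul_right_comm, ← prod_mul_distrib,
      prod_eq_one fun i _ => inv_mul_cancel₀ (Nat.cast_ne_zero.2 (Nat.factorial_ne_zero _))]
    ext <;> simp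
  simp only [e] at s
  refine ⟨(TrivSqZeroExt.hasSum_fst _ s).unique hasSum_zero, ?_⟩
  have t : HasSum (fun b : Fin (p + 1) → ℕ => (∏ i, (k.choose (b i) : ℂ_[3])) *
      μ (∏ i, (MvPolynomial.X i - 1) ^ b i)) (μ (∏ i, MvPolynomial.X i ^ k)) := by
    have : ∏ i, MvPolynomial.X i ^ k = ∑ b ∈ Fintype.piFinset fun _ => range (k + 1),
        (∏ i, (k.choose (b i) : ℂ_[3])) • ∏ i, (MvPolynomial.X i - 1 : Py (p + 1)) ^ b i := by
      simp only [Algebra.smul_def, map_prod, map_natCast, ← prod_mul_distrib]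
      rw [← prod_univ_sum _ fun i j => (k.choose j : Py (p + 1)) * (MvPolynomial.X i - 1) ^ j]
      refine prod_congr rfl fun i _ => ?_
      conv_lhs => rw [← sub_add_cancel (MvPolynomial.X i) 1, add_pow]
      simp [mul_comm]
    simp only [this, map_sum, map_smul, smul_eq_mul]
    refine hasSum_sum_of_ne_finset_zero fun b hb => ?_
    obtain ⟨i, c⟩ := not_forall.1 (mt Fintype.mem_piFinset.2 hb)
    rw [prod_eq_zero (mem_univ i) (Nat.cast_eq_zero.2 (Nat.choose_eq_zero_of_lt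
      (by simpa using c))), zero_mul]
  rw [Nat.add_sub_cancel, ← (t.sub (TrivSqZeroExt.hasSum_snd _ s)).tsum_eq]
  refine IsUltrametricDist.norm_tsum_le_of_forall_le fun b => ?_
  rw [TrivSqZeroExt.snd_mk, ← sub_mul, norm_mul]
  refine (mul_le_mul_of_nonneg_right (np (r := ‖((k + 1 : ℕ) : ℂ_[3])‖ * 2187 ^ ∑ i, b i)
    (by positivity) (fun i => IsUltrametricDist.norm_natCast_le_one _ _) (by simp)
    (fun i => (nc k _).trans ?_) _) (norm_nonneg _)).trans ?_
  · gcongr
    exact (pow_le_pow_left₀ zero_le_three (by norm_num) _).trans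
      (pow_le_pow_right₀ (by norm_num) (single_le_sum (fun _ _ => Nat.zero_le _) (mem_univ i)))
  · rw [mul_assoc]
    exact mul_le_mul_of_nonneg_left (b1 b) (norm_nonneg _)

end Vale.Agent.P014Y.C.Ld
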