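import Vale.Agent.P014Y.C.Ld.Ps
import Vale.Agent.P014Y.C.Ld.S1
import Vale.Agent.P014Y.C.Ld.S2
import Vale.Agent.P014Y.C.Ld.Lg
import Vale.Agent.P014Y.C.Ld.Inv
import Vale.Agent.P014Y.C.Ld.Mom
import Vale.Agent.P014Y.C.Ld.Om

/-!
# P014Y C, the leading term: the series block without hypothesis
-/

namespace Vale.Agent.P014Y.C.Ld

/-- **the series block** -/
theorem ps_all : PS := ps fun p =>
  ⟨s1 p, s2 p, inv p lg_row (s1 p) (s2 p), gam (s1 p), mom (s1 p) (s2 p),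
    om lg_row (s1 p) (s2 p) (inv p lg_row (s1 p) (s2 p))⟩

end Vale.Agent.P014Y.C.Ld
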