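import Vale.Agent.P014Y.C.Ld.St1

/-!
# P014Y C, the leading term: coefficients of `T ^ i` in the group ring
-/

set_option autoImplicit false
set_option linter.all false

open Finset Polynomial

noncomputable section

namespace Vale.Agent.P014Y.C.Ld

namespace Ta

theorem dvd_ch (A : ℕ) {b : ℕ} (h : b ≠ 0) : 3 ^ (A - b) ∣ (3 ^ A).choose b := by
  obtain ⟨s, o, ho, rfl⟩ := Nat.exists_eq_pow_mul_and_not_dvd h 3 (by norm_num)
  obtain ⟨n, hn⟩ := Nat.exists_eq_succ_of_ne_zero (pow_ne_zero A (three_ne_zero (α := ℕ)))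
  obtain ⟨k, hk⟩ := Nat.exists_eq_succ_of_ne_zero h
  have e := Nat.add_one_mul_choose_eq n k
  rw [← Nat.succ_eq_add_one, ← Nat.succ_eq_add_one, ← hn, ← hk] at e
  have l : s ≤ 3 ^ s * o := (Nat.lt_pow_self (by norm_num)).le.trans
    (Nat.le_mul_of_pos_right _ (Nat.pos_of_ne_zero fun e => ho (e ▸ dvd_zero 3)))
  rcases le_total A s with j | j
  · rw [Nat.sub_eq_zero_of_le (j.trans l), pow_zero]
    exact one_dvd _
  · refine (pow_dvd_pow 3 (Nat.sub_le_sub_left l A)).trans ?_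
    refine (Nat.Coprime.pow_left _ ((Nat.Prime.coprime_iff_not_dvd Nat.prime_three).2 ho)).dvd_of_dvd_mul_right
      (Nat.dvd_of_mul_dvd_mul_left (pow_pos three_pos s) ⟨n.choose k, ?_⟩)
    rw [← pow_add, Nat.add_sub_cancel' j, e]
    ring

theorem ch_add (A m i : ℕ) : (m + 3 ^ A).choose i ≡ m.choose i [MOD 3 ^ (A - i)] := by
  rw [add_comm, Nat.add_choose_eq, Nat.sum_antidiagonal_eq_sum_range_succ_mk, sum_range_succ']
  simp only [Nat.choose_zero_right, one_mul, Nat.sub_zero]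
  refine (Nat.ModEq.add_right _ ((Nat.modEq_zero_iff_dvd).2 (dvd_sum fun k hk => ?_))).trans
    (by rw [zero_add])
  exact ((pow_dvd_pow 3 (Nat.sub_le_sub_left (mem_range.1 hk) A)).trans
    (dvd_ch A k.succ_ne_zero)).mul_right _

theorem ch_mod (A m i : ℕ) : (m % 3 ^ A).choose i ≡ m.choose i [MOD 3 ^ (A - i)] := by
  conv_rhs => rw [← Nat.mod_add_div m (3 ^ A)]
  induction m / 3 ^ A with
  | zero => rfl
  | succ k ih => exact ih.trans (by rw [mul_add, mul_one, ← add_assoc]; exact (ch_add A _ i).symm)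

theorem two : ‖(3 : ℂ_[3])‖ = 1 / 3 := by
  have := (norm_algebraMap' ℂ_[3] ((3 : ℕ) : ℚ_[3])).trans Padic.norm_p
  simpa [map_ofNat] using this

theorem nm_ch (A m i : ℕ) :
    ‖((m % 3 ^ A).choose i : ℂ_[3]) - m.choose i‖ ≤ 3 ^ i * (1 / 3) ^ A := by
  obtain ⟨c, e⟩ := (ch_mod A m i).symm.dvd
  have e := congrArg (Int.cast (R := ℂ_[3])) e
  push_cast at e
  rw [e, norm_mul, norm_pow, two]
  refine (mul_le_of_le_one_right (by positivity) (IsUltrametricDist.norm_intCast_le_one _ c)).trans ?_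
  rcases le_total A i with j | j
  · rw [Nat.sub_eq_zero_of_le j, pow_zero, one_div, inv_pow, ← div_eq_mul_inv,
      one_le_div (by positivity)]
    exact pow_le_pow_right₀ (by norm_num : (1 : ℝ) ≤ 3) j
  · obtain ⟨k, rfl⟩ := Nat.exists_eq_add_of_le j
    rw [Nat.add_sub_cancel_left, pow_add, ← mul_assoc, ← mul_pow]
    norm_num

/-- the integers -/
def Oc : Subring ℂ_[3] where
  carrier := {x | ‖x‖ ≤ 1}
  mul_mem' a b := (norm_mul_le _ _).trans (mul_le_one₀ a (norm_nonneg _) b)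
  one_mem' := norm_one.le
  add_mem' a b := (IsUltrametricDist.norm_add_le_max _ _).trans (max_le a b)
  zero_mem' := norm_zero.le.trans zero_le_one
  neg_mem' a := (norm_neg _).le.trans a

variable {A : ℕ}

theorem gr_add (g h : ZMod (3 ^ A)) : gr (g + h) = gr g * gr h := by
  simp [gr, AddMonoidAlgebra.single_mul_single]

theorem gr_zero : gr (0 : ZMod (3 ^ A)) = 1 := rfl

theorem gr_nat (n : ℕ) : gr (n : ZMod (3 ^ A)) = gr 1 ^ n := by
  simp [gr, AddMonoidAlgebra.single_pow]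

/-- the functionals -/
def ta (A i : ℕ) : Gr A →ₗ[ℂ_[3]] ℂ_[3] :=
  (AddMonoidAlgebra.basis (ZMod (3 ^ A)) ℂ_[3]).constr ℂ_[3] fun g => (g.val.choose i : ℂ_[3])

theorem ta_gr (i : ℕ) (g : ZMod (3 ^ A)) : ta A i (gr g) = (g.val.choose i : ℂ_[3]) :=
  Module.Basis.constr_basis (AddMonoidAlgebra.basis (ZMod (3 ^ A)) ℂ_[3]) _ _ g

/-- polynomials in `T` -/
def ro (A : ℕ) : Oc[X] →+* Gr A :=
  eval₂RingHom ((algebraMap ℂ_[3] (Gr A)).comp Oc.subtype) (gr 1 - 1)

theorem ro_C (a : Oc) : ro A (C a) = algebraMap ℂ_[3] (Gr A) a := eval₂_C _ _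

theorem ro_X : ro A X = gr 1 - 1 := eval₂_X _ _

theorem ro_pow (n : ℕ) : ro A ((X + 1) ^ n) = gr (n : ZMod (3 ^ A)) := by
  rw [map_pow, map_add, ro_X, map_one, sub_add_cancel, gr_nat]

theorem ro_val (g : ZMod (3 ^ A)) : ro A ((X + 1) ^ g.val) = gr g := by
  rw [ro_pow, ZMod.natCast_zmod_val]

theorem key (i : ℕ) (q : Oc[X]) : ‖ta A i (ro A q) - q.coeff i‖ ≤ 3 ^ i * (1 / 3) ^ A := by
  obtain ⟨p, rfl⟩ : ∃ p, taylor 1 p = q := ⟨taylor (-1) q, by simp [taylor_taylor]⟩
  induction p using Polynomial.induction_on' with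
  | add p p' h h' =>
    rw [map_add, map_add, map_add, coeff_add, Subring.coe_add, add_sub_add_comm]
    exact (IsUltrametricDist.norm_add_le_max _ _).trans (max_le h h')
  | monomial n a =>
    rw [taylor_monomial, map_one, map_mul, ro_C, ro_pow, ← Algebra.smul_def, map_smul, ta_gr,
      coeff_C_mul, coeff_X_add_one_pow, ZMod.val_natCast, smul_eq_mul, Subring.coe_mul,
      Subring.coe_natCast, ← mul_sub, norm_mul]
    exact (mul_le_of_le_one_left (norm_nonneg _) a.2).trans (nm_ch A n i)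

/-- `((1 + X) ^ n - 1) / X` -/
def ww (n : ℕ) : Oc[X] := ∑ a ∈ range n, (X + 1) ^ a

theorem X_ww (n : ℕ) : X * ww n = (X + 1) ^ n - 1 := by
  have := mul_geom_sum (X + 1 : Oc[X]) n
  rwa [add_sub_cancel_right] at this

theorem ww_zero (n : ℕ) : (ww n).eval 0 = n := by simp [ww, eval_finset_sum]

end Ta

open Ta

theorem tau : TAU := fun A => by
  let T : (ro A).range := (ro A).rangeRestrict X
  refine ⟨(ro A).range, Ideal.span {T}, ta A, ta_gr, fun a h => ⟨C ⟨a, h⟩, ro_C _⟩,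
    fun g => ⟨⟨_, ro_val g⟩, Ideal.mem_span_singleton.2 ⟨(ro A).rangeRestrict (ww g.val),
      Subtype.ext ?_⟩⟩, fun i j z l h => ?_, fun n r x g f g0 i hx l => ?_⟩
  · change gr g - 1 = ro A X * ro A _
    rw [← map_mul, X_ww, map_sub, ro_val, map_one]
  · rw [Ideal.span_singleton_pow, Ideal.mem_span_singleton] at h
    obtain ⟨⟨_, q, rfl⟩, rfl⟩ := h
    have := key (A := A) i (X ^ j * q)
    rw [coeff_X_pow_mul', if_neg l.not_ge, map_mul, map_pow] at this
    simpa [T] using this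
  · let N : Matrix (Fin n ⊕ Fin r) (Fin n ⊕ Fin r) Oc[X] := .of fun j j' =>
      Sum.elim (fun k => C ⟨x j k, hx j k⟩) (fun k => (X + 1) ^ (g j k - f j k).val * ww (f j k).val) j'
    let v : Fin n ⊕ Fin r → Oc[X] := Sum.elim 1 fun _ => X
    have e1 : (Matrix.of fun j j' => Sum.elim (fun k => algebraMap _ _ (x j k))
        (fun k => gr (g j k) * (1 - gr (-f j k))) j') =
        (ro A).mapMatrix (Matrix.of fun j j' => v j' * N j j') := by
      ext1 j j'
      rcases j' with k | k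
      · simp [v, N, ro_C]
      · change _ = ro A (X * ((X + 1) ^ _ * ww _))
        rw [mul_left_comm, X_ww, map_mul, map_sub, ro_val, ro_val, map_one, mul_sub, ← gr_add,
          sub_add_cancel, mul_one, sub_eq_add_neg (g j k), gr_add, ← mul_one_sub]
        rfl
    have e2 : (Matrix.of fun j j' => Sum.elim (x j) (fun k => ((f j k).val : ℂ_[3])) j') =
        (Oc.subtype.comp (evalRingHom 0)).mapMatrix N := by
      ext j j'
      rcases j' with k | k <;> simp [N, ww_zero, -ZMod.natCast_val]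
    have := key (A := A) i (X ^ r * ((X + 1) ^ g0.val * N.det))
    rw [e1, e2, ← RingHom.map_det, ← RingHom.map_det, Matrix.det_mul_row, ← ro_val g0, ← map_mul,
      show ∏ j, v j = X ^ r by simp [v], mul_left_comm]
    refine le_trans (le_of_eq ?_) (this.trans (mul_le_mul_of_nonneg_right
      (pow_le_pow_right₀ (by norm_num : (1 : ℝ) ≤ 3) l) (by positivity)))
    rw [coeff_X_pow_mul']
    by_cases k : i = r
    · simp [k, coeff_zero_eq_eval_zero]
    · rw [if_neg k, if_neg fun j => k (le_antisymm l j), Subring.coe_zero]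

end Vale.Agent.P014Y.C.Ld
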