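import Vale.Agent.P014Y.C.Ld.St3

/-!
# P014Y C, the leading term: the values on all discs (row VLZ)
-/

set_option autoImplicit false
set_option linter.all false

open NumberField Module IsDedekindDomain Finset Filter
open scoped Classical

noncomputable section

namespace Vale.Agent.P014Y.C.Ld

open P004C.An As

namespace Vz

theorem cy_sp {K : Type} [Field K] [NumberField K] {ι : ℂ →+* ℂ_[3]} {J : K →+* ℂ} {M : Type}
    [Field M] [NumberField M] [Algebra K M] {m r p : ℕ} {w : Fin (r + 1) → Pl M}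
    {u : Fin p → Ew w ι J m} {d : Fin p → ℕ} (h : ∀ j, u j ^ d j ∈ Uw w ι J m) (s : Gv M ι J m) :
    cy u d s ∈ sp (Vx {a | ∃ e ∈ Uw w ι J m, a = s * inc w ι J m e} (p + 1)) := by
  have := cyc_sp ((Uw w ι J m).map (inc w ι J m)).toSubmonoid
    (L := List.ofFn fun k => inc w ι J m (u k ^ d k))
    (List.forall_mem_ofFn_iff.2 fun k => ⟨_, h k, rfl⟩)
  rw [List.length_ofFn] at this
  exact mp_sp (by rintro _ ⟨e, a, rfl⟩; exact ⟨e, a, rfl⟩) this

/-- bounds pass from simplices to chains -/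
theorem ch_bd {V X : Type} [AddCommGroup X] {n : ℕ} (S : Set V) (g : X → ℂ)
    (F : ℕ → X → (Fin n → V) → ℂ) (N : ℂ →+ ℂ_[3]) {δ : ℝ} (hδ : 0 ≤ δ)
    (h : ∀ a : Fin n → V, (∀ j, a j ∈ S) → ∀ᶠ B in atTop, ∃ s,
      Reg (fun x => g x * F B x a) s ∧ ‖N s‖ ≤ δ) {z : Ch V} (hz : z ∈ sp (Vx S n)) :
    ∀ᶠ B in atTop, ∃ s, Reg (fun x => g x * co (F B x) z) s ∧ ‖N s‖ ≤ δ := by
  let G : AddSubgroup (Ch V) :=
    { carrier := {z | ∀ᶠ B in atTop, ∃ s, Reg (fun x => g x * co (F B x) z) s ∧ ‖N s‖ ≤ δ}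
      zero_mem' := .of_forall fun B => ⟨0, Reg.zero.congr (fun x => by simp) rfl, by simpa⟩
      add_mem' := fun a b => (a.and b).mono fun B ⟨⟨s, a1, a2⟩, s', b1, b2⟩ =>
        ⟨s + s', (a1.add b1).congr (fun x => by rw [map_add, mul_add]) rfl, by
          rw [map_add]
          exact (IsUltrametricDist.norm_add_le_max _ _).trans (max_le a2 b2)⟩
      neg_mem' := fun a => a.mono fun B ⟨s, a1, a2⟩ =>
        ⟨-s, a1.neg.congr (fun x => by rw [map_neg, mul_neg]) rfl, by rwa [map_neg, norm_neg]⟩ }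
  refine sp_map (.id _) G (fun L k => ?_) hz
  obtain ⟨a, rfl⟩ := ex_ofFn k.1
  exact (h a (List.forall_mem_ofFn_iff.1 k.2)).mono fun B ⟨s, a1, a2⟩ =>
    ⟨s, a1.congr (fun x => by rw [AddMonoidHom.id_apply, co_ofFn]) rfl, a2⟩

end Vz

/-- row VLZ -/
theorem vlz (hI : IPW) (hA : ADM) (hM : Ms.MSR) : VLZ := by
  intro K _ _ ι J Ω hB π τ ψ ω h1 M _ _ _ p b hb c l hc m r A w Φ φ hm aux π' h u d Rho D k fr dm
    hk I I0 Ic z hz y δ hy hδ
  have hn : finrank K M = p + 1 := by simpa using finrank_eq_card_basis b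
  obtain ⟨σ, hσ⟩ := ex_sg J hn
  obtain ⟨ϖ, hϖ⟩ := hA K ι J M _ hn c (w 0) l m hc
    (fun e => aux.cop 0 (Ideal.mul_mem_left _ _ e)) (by omega)
  obtain ⟨η, hη, H⟩ := hI K ι J Ω hB π τ ψ h1.toAr M p σ hσ c l hc m r A w Φ φ hm aux π' h u d Rho
    D ϖ k fr dm hϖ hk
  obtain ⟨tf, s, gd, H⟩ := H 1 I one_ne_zero I0 Ic z hz
  obtain ⟨S, hS, ev⟩ := H y hy
  refine ⟨S, hS, ?_⟩
  let N : ℂ →+ ℂ_[3] := .mk' (fun s => ((k - 1).factorial : ℂ_[3]) ^ (p + 1) * ι s /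
    (ι ω ^ ((p + 1) * k) * 3 ^ (m * (p + 1)))) fun a b => by rw [map_add, mul_add, add_div]
  have d0 : 0 ≤ δ := (norm_nonneg _).trans (hδ y fun x _ => by simp)
  have key := Vz.ch_bd _ (fun x => gz w ι J c l φ I z x * Ms.EE ι J ψ m y x)
    (fun B x (a : Fin (p + 1) → Gv M ι J m) =>
      ck k (fun j i => σ i (1 * vl (ϖ ^ B * a j))) fun i => σ i x) N
    (div_nonneg d0 (Real.sqrt_nonneg (dv ι J b))) (fun a ha =>
      (hϖ.2.2 (fun j => vl (a j)) 1 (Nat.coprime_one_left l)).mono fun B hB' => by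
        obtain ⟨s', r1, r2⟩ := hM K ι J Ω π τ ψ ω h1 M _ b hb σ (em_of hσ) c.asIdeal l hc
          (fun j => 1 * vl (ϖ ^ B * a j)) _ 1 tf (.inr fun j => (hB' j).imp fun d e =>
            ⟨e.2.1, fun i hi => by simpa [vl] using e.2.2 i hi⟩) (gd B a ha)
          (fun x => by rw [map_intCast]; exact IsUltrametricDist.norm_intCast_le_one _ _) m y hy
        refine ⟨s' k, r1 k (by omega), ?_⟩
        simpa [N] using r2 {k} 1 δ (by simp; omega) (by simpa using hδ)) (Vz.cy_sp fr.mem s)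
  obtain ⟨B, ⟨s', r1, r2⟩, r3⟩ := (key.and ev).exists
  rw [r1.uniq r3] at r2
  rcases hη with rfl | rfl
  · rwa [one_mul] at r2
  · rwa [neg_one_mul, map_neg, norm_neg] at r2

end Vale.Agent.P014Y.C.Ld
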