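import Vale.Agent.P014Y.C.Ld.Fin
import Vale.Agent.P014Y.C.Ld.Piy
import Vale.Agent.P014Y.C.Ld.Ser
import Vale.Agent.P014Y.C.Ld.Tau
import Vale.Agent.P014Y.C.Ld.Loc
import Vale.Agent.P014Y.C.Ld.Adm
import Vale.Agent.P014Y.C.Ld.Dsc
import Vale.Agent.P014Y.C.Ld.Pcs
import Vale.Agent.P014Y.C.Ld.Tfb
import Vale.Agent.P014Y.C.Ld.Pga
import Vale.Agent.P014Y.C.Ld.Vly
import Vale.Agent.P014Y.C.Ld.Vlz
import Vale.Agent.P014Y.C.Ld.Ipw
import Vale.Agent.P014Y.C.Ld.Ipm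
import Vale.Agent.P014Y.C.Ld.Goo
import Vale.Agent.P014Y.C.Ld.Hyp
import Vale.Agent.P014Y.C.Ld.Frm
import Vale.Agent.P014Y.C.Ld.Sum
import Vale.Agent.P014Y.C.Ld.Cnt
import Vale.Agent.P014Y.C.Ld.Kv
import Vale.Agent.P014Y.C.Ld.Fov
import Vale.Agent.P014Y.C.As.Val
import Vale.Agent.P014Y.C.Ms.Emb
import Vale.Agent.P014Y.C.Ms.Tfc

/-!
# P014 Y, C, the leading term from the measures
-/

namespace Vale.Agent.P014Y.C.Ld

theorem x_ipw : IPW := ipw ipm pcs tfb (goo hyp) fnd loc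

theorem x_piy (hL : Ms.LMS) : PIY :=
  piy ps_all lg_row tau loc fnd adm dsc pcs tfb (pga Ms.emb Ms.tfc tfb) (vly x_ipw) hL Ms.emb Ms.dif

/-- the leading term from the three exports of the measures -/
theorem lead0 (hA : Ms.BAS) (hM : Ms.MSR) (hL : Ms.LMS) : LEAD :=
  fin hA Ms.emb Ms.dif (x_piy hL) (vlz x_ipw adm hM)
    (sum_row (cnt As.val) kv (fov As.val) pcs fnd) frm (coo lg_row) kv

end Vale.Agent.P014Y.C.Ld
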