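import Vale.Agent.P014Y.C.Ld.St2
import Vale.Agent.P004C.Ld.Cnt0

/-!
# P014Y C, the leading term: orders of ideals and of elements
-/

set_option autoImplicit false
set_option linter.unusedSectionVars false

open NumberField IsDedekindDomain Finset Filter FractionalIdeal
open scoped Classical nonZeroDivisors

noncomputable section

namespace Vale.Agent.P014Y.C.Ld.Cn

open As Al.Gx

variable {M : Type} [Field M] [NumberField M] {P : Pl M} {I I' : Ideal (𝓞 M)} {x y : M}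

export Vale.Agent.P004C.Ld.Cn (cn cn_mul cn_nn cn_ext cn_mono cn_pow prod_ne cn_prod sp_ne
  cn_span le_pow cn_zero val_ne od_mul od_inv od_div od_nn od_pos od_zero coe_ne le_iff ex_div
  strip sup_iff sup_pl cn_w cn_w' split)

variable {r : ℕ} {w : Fin (r + 1) → Pl M}

variable {K : Type} [Field K] [NumberField K] {ι : ℂ →+* ℂ_[3]} {J : K →+* ℂ} [Algebra K M] {m : ℕ}

theorem ev_iff (hw : Function.Injective w) (h : I ≠ ⊥) (h' : I' ≠ ⊥) (hx : x ≠ 0) :
    Ev ι J (fun i => (w i).asIdeal) m I I' x ↔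
      V1 ι J m x ∧ ∀ P, (∀ i, P ≠ w i) → cn P I = od P x + cn P I' := by
  refine and_congr_right' ⟨fun ⟨y, z, e, e', y0, z0, a, b⟩ P k => ?_, fun k => ?_⟩
  · have := congrArg (cn P) b
    rw [cn_mul (mul_ne_zero (sp_ne z0) h) (prod_ne _ _ _), cn_mul (sp_ne z0) h,
      cn_mul (mul_ne_zero (sp_ne y0) h') (prod_ne _ _ _), cn_mul (sp_ne y0) h', cn_w' _ k,
      cn_w' _ k, cn_span y0, cn_span z0, ← a, od_mul hx (coe_ne z0)] at this
    omega
  · obtain ⟨y, z, y0, z0, a⟩ := ex_div hx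
    have n := mul_ne_zero (sp_ne z0) h
    have n' := mul_ne_zero (sp_ne y0) h'
    refine ⟨y, z, fun i => (cn (w i) (Ideal.span {y} * I')).toNat,
      fun i => (cn (w i) (Ideal.span {z} * I)).toNat, y0, z0, a,
      cn_ext (mul_ne_zero n (prod_ne _ _ _)) (mul_ne_zero n' (prod_ne _ _ _)) fun P => ?_⟩
    rw [cn_mul n (prod_ne _ _ _), cn_mul n' (prod_ne _ _ _)]
    by_cases b : ∃ i, P = w i
    · obtain ⟨i, rfl⟩ := b
      rw [cn_w hw, cn_w hw, Int.toNat_of_nonneg (cn_nn _ _), Int.toNat_of_nonneg (cn_nn _ _),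
        add_comm]
    · rw [cn_w' _ (not_exists.1 b), cn_w' _ (not_exists.1 b), cn_mul (sp_ne z0) h,
        cn_mul (sp_ne y0) h', cn_span y0, cn_span z0, ← a, od_mul hx (coe_ne z0),
        k P (not_exists.1 b)]
      ring

theorem av_of {Q : Ideal (𝓞 M)} (a : Q.IsPrime)
    (c : Q.comap (algebraMap (𝓞 K) (𝓞 M)) = vv ι J) : ∃ P : Pl M, P.asIdeal = Q ∧ Av ι J Q :=
  have n : Q ≠ ⊥ := fun e => (by norm_num : (3 : 𝓞 M) ≠ 0) (Ideal.mem_bot.1 (e.le
    (map_ofNat (algebraMap (𝓞 K) (𝓞 M)) 3 ▸ c.ge two_vv)))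
  ⟨⟨Q, a, n⟩, rfl, a.isMaximal n, fun ⟨_, h1, h2⟩ => not_vv.2 h1 (c.le h2)⟩

theorem two_av (h : Av ι J P.asIdeal) : 3 ∈ P.asIdeal := by_contra fun n =>
  h.2 (pv_two (P.isMaximal.out.2 _ (left_lt_sup.2 (mt (Ideal.span_singleton_le_iff_mem _).1 n))))

/-- integrality above `v` by valuations -/
theorem vi_iff : Vi ι J x ↔ ∀ P : Pl M, Av ι J P.asIdeal → P.valuation M x ≤ 1 := by
  refine ⟨fun ⟨s, a, b⟩ P h => ?_, fun k => ?_⟩
  · have := P.valuation_le_one (K := M) ⟨_, b⟩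
    change P.valuation M (algebraMap (𝓞 K) (𝓞 M) s * x) ≤ 1 at this
    rwa [map_mul, (P.valuation_eq_one_iff_notMem (K := M)).2 fun e => h.2 ⟨s, a, e⟩, one_mul] at this
  · obtain ⟨s, a, b⟩ := pv_of (ι := ι) (J := J) (f := ((Submodule.span (𝓞 M) {1}).comap
      (LinearMap.toSpanSingleton (𝓞 M) M x))) fun Q a b c => by
        obtain ⟨P, rfl, d⟩ := av_of a c
        obtain ⟨n, ⟨e, he⟩, f⟩ := P.exists_primeCompl_mul_eq_of_integer x (k P d)
        exact he (b (Submodule.mem_span_singleton.2 ⟨n, by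
          rw [LinearMap.toSpanSingleton_apply, Algebra.smul_def, Algebra.smul_def, mul_one, ← f,
            mul_comm]⟩))
    obtain ⟨n, c⟩ := Submodule.mem_span_singleton.1 b
    rw [LinearMap.toSpanSingleton_apply, Algebra.smul_def, Algebra.smul_def, mul_one] at c
    exact ⟨s, a, (c ▸ n.isIntegral_coe :)⟩

end Vale.Agent.P014Y.C.Ld.Cn
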