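import Vale.Agent.P014Y.C.Ld.St2
import Vale.Agent.P014Y.C.Ld.Bd
import Vale.Agent.P014Y.C.Ld.Om
import Vale.Agent.P014Y.C.As.Emb

/-!
# P014 Y, C, the leading term: coordinates and logarithms
-/

set_option autoImplicit false
set_option linter.unusedSectionVars false

open NumberField Module Finset
open scoped Classical

noncomputable section

namespace Vale.Agent.P014Y.C.Ld.Cd

open As Al.Gx Oc

theorem nm_det1 {κ : Type} [Fintype κ] [DecidableEq κ] {A B : Matrix κ κ ℂ_[3]} {δ : ℝ}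
    (hδ : 0 ≤ δ) (hA : ∀ i j, ‖A i j‖ ≤ 1) (hB : ∀ i j, ‖B i j‖ ≤ 1)
    (h : ∀ i j, ‖A i j - B i j‖ ≤ δ) : ‖A.det‖ ≤ 1 ∧ ‖A.det - B.det‖ ≤ δ := by
  have := nm_det (A := A.submatrix (Fintype.equivFin κ).symm (Fintype.equivFin κ).symm)
    (B := B.submatrix (Fintype.equivFin κ).symm (Fintype.equivFin κ).symm) (ρ := fun _ => 1) hδ
    (fun _ _ => hA _ _) (fun _ _ => hB _ _) fun _ _ => by simpa using h _ _
  simpa using this

theorem add_prod {G A κ : Type} [CommGroup G] [AddCommGroup A] [Fintype κ] (S : Subgroup G)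
    {l : G → A} (h : ∀ x ∈ S, ∀ y ∈ S, l (x * y) = l x + l y) {γ : κ → G} (hγ : ∀ i, γ i ∈ S)
    (P : κ → ℤ) : l (∏ i, γ i ^ P i) = ∑ i, P i • l (γ i) := by
  let φ : S →* Multiplicative A := MonoidHom.mk' (fun x => Multiplicative.ofAdd (l x))
    fun x y => congrArg Multiplicative.ofAdd (h x x.2 y y.2)
  have h1 := map_prod φ (fun i => (⟨γ i, hγ i⟩ : S) ^ P i) univ
  simp only [map_zpow] at h1
  have h2 := congrArg Multiplicative.toAdd h1
  rw [toAdd_prod] at h2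
  have h3 : ((∏ i, (⟨γ i, hγ i⟩ : S) ^ P i : S) : G) = ∏ i, γ i ^ P i := by simp
  rw [← h3]
  exact h2

theorem nm_z (k : ℤ) : ‖(k : ℂ_[3])‖ ≤ 1 := IsUltrametricDist.norm_intCast_le_one _ k

theorem nm_mod {A : ℕ} {a b : ℤ} (h : (a : ZMod (3 ^ A)) = b) :
    ‖(a : ℂ_[3]) - b‖ ≤ (1 / 3) ^ A := by
  obtain ⟨k, hk⟩ := (ZMod.intCast_eq_intCast_iff_dvd_sub _ _ _).1 h.symm
  rw [← Int.cast_sub, hk]
  push_cast
  rw [norm_mul, norm_pow, nrm_two]
  exact mul_le_of_le_one_right (by positivity) (nm_z k)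

variable {K : Type} [Field K] [NumberField K] {ι : ℂ →+* ℂ_[3]} {J : K →+* ℂ}
  {M : Type} [Field M] [NumberField M] [Algebra K M] {n : ℕ} {σ : Fin n → M →+* ℂ}

theorem vi_le (h : Sg J σ) {x : M} (hx : Vi ι J x) (i : Fin n) : ‖ι (σ i x)‖ ≤ 1 := by
  obtain ⟨s, h1, h2⟩ := hx
  have := nm_int (ι.comp (σ i)) h2
  rwa [RingHom.comp_apply, map_mul, h.ext, map_mul, norm_mul, h1, one_mul] at this

theorem v1_le (h : Sg J σ) {m : ℕ} {x : M} (hx : V1 ι J m x) (i : Fin n) :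
    ‖ι (σ i x) - 1‖ ≤ (1 / 3) ^ m := by
  have := vi_le h hx i
  simp only [map_div₀, map_sub, map_one, map_pow, map_ofNat, norm_div, norm_pow, nrm_two] at this
  rwa [div_le_one (by positivity)] at this

/-- the units which are close to one at an embedding -/
def nb (f : M →+* ℂ_[3]) : Subgroup Mˣ where
  carrier := {x | ‖f x - 1‖ ≤ 1 / 9}
  one_mem' := by simp
  mul_mem' {x y} hx hy := by
    have h1 : ‖f x‖ = 1 := nrm_near (lt_of_le_of_lt hx (by norm_num))
    change ‖f _ - 1‖ ≤ _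
    rw [Units.val_mul, map_mul, show f x * f y - 1 = f x * (f y - 1) + (f x - 1) by ring]
    exact nrm_add (by rwa [norm_mul, h1, one_mul]) hx
  inv_mem' {x} hx := by
    have h1 : ‖f x‖ = 1 := nrm_near (lt_of_le_of_lt hx (by norm_num))
    have h2 : f x ≠ 0 := fun e => by simp [e] at h1
    change ‖f _ - 1‖ ≤ _
    rw [Units.val_inv_eq_inv_val, map_inv₀, show (f x)⁻¹ - 1 = -((f x)⁻¹ * (f x - 1)) by
      field_simp; ring, norm_neg, norm_mul, norm_inv, h1, inv_one, one_mul]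
    exact hx

theorem lg_near (hL : LG) {m : ℕ} (hm : 2 ≤ m) {u : ℂ_[3]} (h : ‖u - 1‖ ≤ (1 / 3) ^ m) :
    ‖lg u / 3 ^ m - (u - 1) / 3 ^ m‖ ≤ 3 * (1 / 3) ^ m := by
  have h1 : (1 / 3 : ℝ) ^ m ≤ (1 / 3) ^ 2 := pow_le_pow_of_le_one (by norm_num) (by norm_num) hm
  have h2 := (hL u (by linarith)).2.2.1
  rw [← sub_div, norm_div, norm_pow, nrm_two, div_le_iff₀ (by positivity)]
  have := pow_le_pow_left₀ (norm_nonneg _) h 2
  linarith

theorem det_sq (h : Sg J σ) (b : Basis (Fin n) K M) :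
    (Matrix.of fun k i => ι (σ i (b k))).det ^ 2 = ι (J (Algebra.discr K b)) := by
  rw [Algebra.discr_def, ← RingHom.comp_apply, RingHom.map_det, sq]
  nth_rw 2 [← Matrix.det_transpose]
  rw [← Matrix.det_mul]
  refine congrArg Matrix.det (Matrix.ext fun k l => ?_)
  simp [Matrix.mul_apply, Algebra.traceForm_apply, ← (h.both _).2]

end Vale.Agent.P014Y.C.Ld.Cd

namespace Vale.Agent.P014Y.C.Ld

open As Al.Gx Oc Cd

/-- **row COO** -/
theorem coo (hL : LG) : COO := by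
  intro K _ _ ι J M _ _ _ n σ b hσ hb
  have _ := fd K M
  have h1 : dv ι J b = ‖(Matrix.of fun k i => ι (σ i (b k))).det‖ ^ 2 := by
    rw [← norm_pow, det_sq hσ, dv]
  have h2 : ∀ k i, ‖ι (σ i (b k))‖ ≤ 1 := fun k => vi_le hσ ((hb _).2 fun j => by
    rw [b.repr_self_apply]
    split_ifs <;> simp)
  refine ⟨norm_pos_iff.2 ((map_ne_zero ι).2 ((map_ne_zero J).2
    (Algebra.discr_not_zero_of_basis K b))), ?_, _, by rw [h1, Real.sqrt_sq (norm_nonneg _)],
    fun m r A γ β f P hm hγ hf hβ => ?_⟩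
  · rw [h1]
    exact pow_le_one₀ (norm_nonneg _) (nm_det1 le_rfl h2 h2 fun _ _ => by simp).1
  have q : (1 / 3 : ℝ) ^ m ≤ (1 / 3) ^ 2 := pow_le_pow_of_le_one (by norm_num) (by norm_num) hm
  have q0 : (0 : ℝ) < (1 / 3) ^ m := by positivity
  have q1 : (0 : ℝ) < (1 / 3) ^ A := by positivity
  have k1 : ∀ j i, lg (ι (σ i (β j))) / 3 ^ m = ∑ j', P j j' * (lg (ι (σ i (γ j'))) / 3 ^ m) :=
    fun j i => by
      rw [hβ, add_prod (nb (ι.comp (σ i))) (l := fun x : Mˣ => lg (ι (σ i x)))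
        (fun x hx y hy => by
          rw [Units.val_mul, map_mul, map_mul]
          exact (hL _ hx).2.2.2 _ hy) fun j' => (v1_le hσ (hγ j') i).trans (by linarith), sum_div]
      exact sum_congr rfl fun _ _ => by rw [zsmul_eq_mul, mul_div_assoc]
  have k2 : ∀ j i, ‖lg (ι (σ i (γ j))) / 3 ^ m - ι (σ i ((γ j - 1) / 3 ^ m))‖ ≤
      3 * (1 / 3) ^ m := fun j i => by
    simpa only [map_div₀, map_sub, map_one, map_pow, map_ofNat] using
      lg_near hL hm (v1_le hσ (hγ j) i)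
  have k3 : ∀ {g : Fin n ⊕ Fin r → ℂ_[3]} {C : ℝ} (j : Fin n ⊕ Fin r), 0 ≤ C → (∀ i, ‖g i‖ ≤ C) →
      ‖∑ j', P j j' * g j'‖ ≤ C := fun j hC hg => nrm_sum hC fun i _ => by
    rw [norm_mul]
    exact (mul_le_of_le_one_left (norm_nonneg _) (nm_z _)).trans (hg i)
  have k4 : ∀ j i, ‖lg (ι (σ i (β j))) / 3 ^ m‖ ≤ 1 := fun j i => by
    rw [k1]
    refine k3 j zero_le_one fun j' => ?_
    simpa using nrm_add ((k2 j' i).trans (by linarith)) (vi_le hσ (hγ j') i)
  refine ⟨k4, ?_⟩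
  have k5 : (Matrix.of fun j j' => Sum.elim (fun i => ι (σ i (((γ j : M) - 1) / 3 ^ m)))
      (fun i : Fin r => ((f i (γ j)).val : ℂ_[3])) j') = (Matrix.of fun j j' => Sum.elim
        (fun i => ι (J (b.repr (((γ j : M) - 1) / 3 ^ m) i)))
        (fun i : Fin r => ((f i (γ j)).val : ℂ_[3])) j') *
      Matrix.fromBlocks (Matrix.of fun k i => ι (σ i (b k))) 0 0 1 := by
    ext j j'
    generalize hx : ((γ j : M) - 1) / 3 ^ m = x
    rcases j' with i | i
    · simp only [Matrix.mul_apply, Fintype.sum_sum_type, Matrix.of_apply, hx, Sum.elim_inl,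
        Matrix.fromBlocks_apply₁₁, Matrix.fromBlocks_apply₂₁, Matrix.zero_apply, mul_zero,
        sum_const_zero, add_zero]
      conv_lhs => rw [← b.sum_repr x]
      simp only [map_sum, Algebra.smul_def, map_mul, hσ.ext]
    · simp [Matrix.mul_apply, Fintype.sum_sum_type, Matrix.one_apply]
  have k6 := congrArg Matrix.det k5
  rw [Matrix.det_mul, Matrix.det_fromBlocks_zero₂₁, Matrix.det_one, mul_one] at k6
  rw [mul_assoc, mul_comm (Matrix.det _), ← k6, Int.cast_det, ← Matrix.det_mul]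
  have k7 : ∀ a : ℕ, ‖(a : ℂ_[3])‖ ≤ 1 := IsUltrametricDist.norm_natCast_le_one _
  refine (nm_det1 (by positivity) (fun j j' => ?_) (fun j j' => ?_) fun j j' => ?_).2
  · rcases j' with i | i
    · exact k4 j i
    · exact k7 _
  · refine k3 j zero_le_one fun j'' => ?_
    rcases j' with i | i
    · exact vi_le hσ (hγ j'') i
    · exact k7 _
  · rcases j' with i | i
    · simp only [Matrix.mul_apply, Matrix.of_apply, Sum.elim_inl, Matrix.map_apply]
      rw [k1, ← sum_sub_distrib]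
      simp only [← mul_sub]
      exact (k3 j (by positivity) fun j' => k2 j' i).trans (by linarith)
    · simp only [Matrix.mul_apply, Matrix.of_apply, Sum.elim_inr, Matrix.map_apply]
      have := nm_mod (A := A) (a := (f i (β j)).val) (b := ∑ j', P j j' * (f i (γ j')).val) (by
        rw [hβ, add_prod ⊤ (l := fun x : Mˣ => f i x)
          (fun x _ y _ => hf i _ _ x.ne_zero y.ne_zero) fun _ => trivial]
        simp)
      push_cast at this
      linarith

end Vale.Agent.P014Y.C.Ld
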