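import Vale.Agent.P014Y.C.Ld.St3
import Vale.Agent.P014Y.C.Ld.Coo

/-!
# P014 Y, C, the leading term: the last assembly
-/

set_option autoImplicit false
set_option linter.unusedSectionVars false

open NumberField Module IsDedekindDomain Finset
open scoped Classical

noncomputable section

namespace Vale.Agent.P014Y.C.Ld.Fi

open As Al.Gx IsUltrametricDist

theorem n1 {x : ℂ_[3]} {δ : ℝ} (d : δ < 1) (h : ‖x - 1‖ ≤ δ) : ‖x‖ = 1 := by
  have := norm_add_eq_max_of_norm_ne_norm (x := x - 1) (y := 1)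
    (by rw [norm_one]; exact (h.trans_lt d).ne)
  rwa [sub_add_cancel, norm_one, max_eq_right (h.trans d.le)] at this

/-- the elements near one -/
def nr {δ : ℝ} (d0 : 0 ≤ δ) (d : δ < 1) : Submonoid ℂ_[3] where
  carrier := {x | ‖x - 1‖ ≤ δ}
  one_mem' := by simpa using d0
  mul_mem' {x y} a b := by
    rw [Set.mem_ofPred_eq, show x * y - 1 = x * (y - 1) + (x - 1) by ring]
    refine (norm_add_le_max _ _).trans (max_le ?_ a)
    rwa [norm_mul, n1 d a, one_mul]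

theorem nr_inv {δ : ℝ} {d0 : 0 ≤ δ} {d : δ < 1} {x : ℂ_[3]} (h : x ∈ nr d0 d) : x⁻¹ ∈ nr d0 d := by
  have k := n1 d h
  have x0 : x ≠ 0 := fun e => by simp [e] at k
  change ‖x⁻¹ - 1‖ ≤ δ
  rwa [show x⁻¹ - 1 = -x⁻¹ * (x - 1) by field_simp; ring, norm_mul, norm_neg, norm_inv, k,
    inv_one, one_mul]

theorem key {β : Type} (F : Finset β) (ch wt X : β → ℂ_[3]) {u v tg : ℂ_[3]} {x C e T : ℝ}
    (x0 : 0 ≤ x) (C0 : 0 ≤ C) (h1 : ∀ z, ‖ch z‖ ≤ 1) (h2 : ∀ z, ‖wt z - 1‖ ≤ x)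
    (h3 : ∀ z ∈ F, ‖X z‖ ≤ C) (h4 : ‖v‖ ≤ 1) (h5 : ‖v * u - 1‖ ≤ x) (h6 : ‖tg‖ ≤ T)
    (h : ‖∑ z ∈ F, ch z * X z - tg * u‖ ≤ e) :
    ‖∑ z ∈ F, ch z * wt z * (v * X z) - tg‖ ≤ e + x * C + x * T := by
  have k : ∑ z ∈ F, ch z * wt z * (v * X z) - tg = v * (∑ z ∈ F, ch z * X z - tg * u) +
      ∑ z ∈ F, v * ch z * ((wt z - 1) * X z) + (v * u - 1) * tg := by
    rw [mul_sub, mul_sum, sub_add_eq_add_sub, ← sum_add_distrib,
      sum_congr rfl fun z _ => show v * (ch z * X z) + v * ch z * ((wt z - 1) * X z) =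
        ch z * wt z * (v * X z) by ring]
    ring
  rw [k]
  refine norm_add₃_le.trans (add_le_add_three ?_ ?_ ?_)
  · rw [norm_mul]
    exact (mul_le_of_le_one_left (norm_nonneg _) h4).trans h
  · refine norm_sum_le_of_forall_le_of_nonneg (mul_nonneg x0 C0) fun z hz => ?_
    rw [norm_mul, norm_mul, norm_mul]
    exact (mul_le_of_le_one_left (by positivity) (mul_le_one₀ h4 (norm_nonneg _) (h1 z))).trans
      (mul_le_mul (h2 z) (h3 z hz) (norm_nonneg _) x0)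
  · rw [norm_mul]
    exact mul_le_mul h5 h6 (norm_nonneg _) x0

theorem core {α β γ : Type} (R : Finset α) (F : Finset β) (Y Y' : Finset γ) (c : α → β → ℂ_[3])
    (X X' : α → β → γ → ℂ_[3]) {tg Z : ℂ_[3]} {E : ℝ} (E0 : 0 ≤ E)
    (h1 : ∀ I ∈ R, ∀ y ∈ Y, ‖∑ z ∈ F, c I z * X I z y - tg‖ ≤ E)
    (h2 : ∀ I ∈ R, ∀ z ∈ F, ∀ y ∈ Y', ‖c I z * X' I z y‖ ≤ E)
    (h : Y.card * Z = ∑ I ∈ R, ∑ z ∈ F, c I z * (∑ y ∈ Y, X I z y + ∑ y ∈ Y', X' I z y)) :
    ‖(Y.card : ℂ_[3])‖ * ‖Z - R.card * tg‖ ≤ E := by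
  have k : Y.card * (Z - R.card * tg) = ∑ I ∈ R, (∑ y ∈ Y, (∑ z ∈ F, c I z * X I z y - tg) +
      ∑ z ∈ F, ∑ y ∈ Y', c I z * X' I z y) := by
    rw [mul_sub, h]
    simp only [mul_add, mul_sum, sum_add_distrib, sum_sub_distrib, sum_const, nsmul_eq_mul]
    rw [sum_congr rfl fun I _ => sum_comm (s := F) (t := Y)]
    ring
  rw [← norm_mul, k]
  refine norm_sum_le_of_forall_le_of_nonneg E0 fun I hI => (norm_add_le_max _ _).trans (max_le
    (norm_sum_le_of_forall_le_of_nonneg E0 (h1 I hI)) ?_)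
  exact norm_sum_le_of_forall_le_of_nonneg E0 fun z hz =>
    norm_sum_le_of_forall_le_of_nonneg E0 (h2 I hI z hz)

theorem last {Z N η a κ B D D0 P : ℂ_[3]} {s e ρ : ℝ} (h1 : ‖η‖ = 1) (h2 : ‖κ‖ = s)
    (h3 : s * ‖B‖ = 1) (h4 : ‖P‖ = 1) (h5 : ‖a‖ ≤ 1) (h6 : ‖N‖ ≤ 1) (h7 : ‖D - P * B * D0‖ ≤ ρ)
    (h : ‖Z - N * (η * a * κ * D)‖ ≤ e) : |‖Z‖ - ‖a * N * D0‖| ≤ e + s * ρ := by
  have k : ‖a * N * D0‖ = ‖N * (η * a * κ * (P * B * D0))‖ := by
    simp only [norm_mul, h1, h2, h4]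
    linear_combination (-‖a‖ * ‖N‖ * ‖D0‖) * h3
  rw [k]
  refine (abs_norm_sub_norm_le _ _).trans ?_
  rw [show Z - N * (η * a * κ * (P * B * D0)) = Z - N * (η * a * κ * D) +
    N * a * (η * κ * (D - P * B * D0)) by ring]
  refine (norm_add_le _ _).trans (add_le_add h ?_)
  rw [norm_mul, norm_mul, norm_mul, norm_mul, h1, h2, one_mul]
  have s0 : 0 ≤ s := h2 ▸ norm_nonneg _
  exact (mul_le_of_le_one_left (by positivity) (mul_le_one₀ h6 (norm_nonneg _) h5)).trans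
    (mul_le_mul_of_nonneg_left h7 s0)

end Vale.Agent.P014Y.C.Ld.Fi

namespace Vale.Agent.P014Y.C.Ld

open As Al.Gx IsUltrametricDist Fi

/-- **the rows give LEAD** -/
theorem fin (h1 : Ms.BAS) (h2 : Ms.EMB) (h3 : Ms.DIF) (h4 : PIY) (h5 : VLZ) (h6 : SUM) (h7 : FRM)
    (h8 : COO) (h9 : KV) : LEAD := by
  intro K _ _ ι J Ω hB M _ _ _ n b hb c l hc h r h0 ε ε0
  have rk : finrank K M = n := (finrank_eq_card_basis b).trans (Fintype.card_fin n)
  have := fd K M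
  obtain ⟨p, rfl⟩ : ∃ p, n = p + 1 := Nat.exists_eq_succ_of_ne_zero (rk ▸ finrank_pos.ne')
  obtain ⟨c, rfl⟩ : ∃ c' : Pl M, c'.asIdeal = c :=
    ⟨⟨c, Ideal.isPrime_of_irreducible_absNorm (hc.2.2.1 ▸ hc.1), fun e =>
      hc.1.ne_zero (by simpa [e] using hc.2.2.1.symm)⟩, rfl⟩
  obtain ⟨σ, hσ⟩ := ex_sg J rk
  obtain ⟨π, τ, ψ, ω, hO⟩ := h1 K ι J Ω hB hB.sur
  obtain ⟨⟨t0, ht⟩, hd⟩ := h3 K ι J π τ ψ hO.toAr M _ b hb
  obtain ⟨t1, t2⟩ := hd t0 ht
  obtain ⟨-, kp1, -⟩ := (h2 K ι J M _ b).2 σ (em_of hσ)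
  obtain ⟨d0, -, B, hBn, hC⟩ := h8 K ι J M _ σ b hσ hb
  have q : Fin (p + 1) ⊕ Fin r ≃ Fin (r + 1) ⊕ Fin p := Fintype.equivOfCardEq (by simp; omega)
  obtain ⟨s, s0, s1⟩ : ∃ s : ℝ, 0 < s ∧ s * √(dv ι J b) = 1 :=
    ⟨_, inv_pos.2 (Real.sqrt_pos.2 d0), inv_mul_cancel₀ (Real.sqrt_pos.2 d0).ne'⟩
  have s2 := Real.mul_self_sqrt d0.le
  have s3 := Real.sqrt_pos.2 d0
  have hf : (1 / 3 : ℝ) < 1 := by norm_num
  have mono : ∀ {a b : ℕ}, a ≤ b → (1 / 3 : ℝ) ^ b ≤ (1 / 3) ^ a := fun k =>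
    pow_le_pow_of_le_one (by norm_num) hf.le k
  obtain ⟨m1, hm1⟩ := exists_pow_lt_of_lt_one (show 0 < ε / 6 / s by positivity) hf
  refine ⟨max 7 m1, fun m hm => ?_⟩
  have m7 := le_of_max_le_left hm
  have m2 : 2 ≤ m := by omega
  obtain ⟨C, C0, hP⟩ := h4 K ι J Ω hB π τ ψ ω hO M p b hb σ hσ c l hc r q m m7
  obtain ⟨Y, Y', Yn, hY, hY', hS⟩ := h6 K ι J Ω hB π τ ψ hO.toAr M m m2
  have N0 : 0 < ‖(Y.card : ℂ_[3])‖ := norm_pos_iff.2 (Nat.cast_ne_zero.2 Yn.card_pos.ne')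
  obtain ⟨A1, hA1⟩ := exists_pow_lt_of_lt_one
    (show 0 < ε / 2 / ((3 * C + s + 1) / ‖(Y.card : ℂ_[3])‖ + s) by positivity) hf
  refine ⟨A1 + 1, fun e A he hA lam hl W Φ φ hX γ hγ R hR => ?_⟩
  obtain ⟨w, rfl⟩ : ∃ w : Fin (r + 1) → Pl M, (fun i => (w i).asIdeal) = W :=
    ⟨fun i => ⟨W i, (hX.max i).isPrime, Ring.ne_bot_of_isMaximal_of_not_isField (hX.max i)
      (RingOfIntegers.not_isField M)⟩, rfl⟩
  obtain ⟨π', h', u, d, Rho, D, γ', P, hF, hD, g1, P1, g2⟩ :=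
    h7 K ι J Ω hB M p m r A (3 * l) w Φ φ q γ rk m2 (dvd_mul_right _ _) hX hγ
  obtain rfl : (fun j => (γ' j : M)) = γ := funext fun j => (g1 j).1
  have e1 : 1 ≤ e := by omega
  obtain ⟨-, -, -, v1, v2⟩ := h9 K ι J Ω hB M h e lam _ h0 e1 hl fun _ => rfl
  have hS := hS t0 c l p r A h e w Φ φ R lam _ ht hc hX hR h0 e1 hl (fun _ => rfl) π' h' u d Rho D
    hF hD
  have k1 : ‖((2 * h * 3 ^ e : ℕ) : ℂ_[3])‖ ≤ (1 / 3) ^ e := by
    rw [Nat.cast_mul, norm_mul, Nat.cast_pow, norm_pow, Nat.cast_ofNat, nm_two]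
    exact mul_le_of_le_one_left (by positivity) (norm_natCast_le_one _ _)
  obtain ⟨k, hk⟩ : ∃ k, 2 * h * 3 ^ e = k + 1 := Nat.exists_eq_succ_of_ne_zero (by positivity)
  have k2 : e ≤ k ∧ 3 ≤ k + 1 := by
    have a := Nat.lt_pow_self (n := e) (show 1 < 3 by norm_num)
    have b := Nat.le_mul_of_pos_left (3 ^ e) h0
    rw [mul_assoc] at hk
    omega
  rw [hk] at v2 hS k1 ⊢
  obtain ⟨η, η1, hη⟩ := hP A w Φ φ hX π' h' u d Rho D _ hF hD k2.2
  obtain ⟨c1, c2⟩ := hC m r A γ' (fun j => (Sum.elim π' u (q j) : Ew w ι J m))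
    (fun i => φ i.succ) P m2 (fun j => (g1 j).2) (fun i => hX.loc i.succ) g2
  have gn : ∀ y ∈ Y, Ms.Gn ι J (t0 * y) := fun y hy => by
    obtain ⟨a1, a2, a3⟩ := hY y hy
    refine ⟨mul_ne_zero ht.1 a1, fun x => (ht.2 x).trans ⟨fun a => ?_, fun a => ?_⟩⟩
    · simpa only [div_mul_eq_div_div, div_eq_mul_inv _ y] using Vi_mul a a3
    · simpa only [div_mul_eq_div_div, div_mul_cancel₀ _ a1] using Vi_mul a a2
  choose! S S1 S2 using fun I (hI : I ∈ R) y (hy : y ∈ Y) =>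
    hη (t0 * y) I (gn y hy) (hR.cop I hI).1 (hR.cop I hI).2.1
  choose! S' T1 T2 using fun I (hI : I ∈ R) z (hz : z ∈ ix A h' Rho) y (hy : y ∈ Y') =>
    h5 K ι J Ω hB π τ ψ ω hO M p b hb c l hc m r A w Φ φ m2 hX π' h' u d Rho D _ hF hD k2.2 I
      (hR.cop I hI).1 (hR.cop I hI).2.1 z hz (t0 * y)
      ((1 / 3 * ‖ι (J (Algebra.norm K t0))‖) ^ k)
      ((ht.2 _).2 (by rw [mul_div_cancel_left₀ _ ht.1]; exact (hY' y hy).1)) fun y' a => by
        have a1 := (hY' y hy).2 (y' / t0) (by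
          simpa only [sub_div _ _ t0, mul_div_cancel_left₀ _ ht.1] using (t2 _ _).1 a)
        rw [norm_pow, Nat.add_sub_cancel, ← div_mul_cancel₀ y' ht.1, map_mul, map_mul, map_mul,
          norm_mul]
        gcongr
  have hS := hS (fun I z y => S I y z) S' fun I hI z hz =>
    ⟨fun y hy => (S1 I hI y hy z hz).1, T1 I hI z hz⟩
  have x0 : (0 : ℝ) ≤ (1 / 3) ^ e := by positivity
  have x1 : (1 / 3 : ℝ) ^ e < 1 := pow_lt_one₀ (by norm_num) hf (by omega)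
  have xe := mono (show A1 ≤ e by omega)
  have xA := mono (show A1 ≤ A by omega)
  have n0 : 0 < ‖ι (J (Algebra.norm K t0))‖ := (norm_nonneg _).lt_of_ne' fun k => by
    simp [k] at t1
  have κ1 : ‖ι (Ms.kp b σ) * ι (J (Algebra.norm K t0))‖ = s := by
    rw [norm_mul, kp1]
    linear_combination (-√(dv ι J b) * ‖ι (J (Algebra.norm K t0))‖) * s1 +
      s * ‖ι (J (Algebra.norm K t0))‖ * s2 + s * t1
  have l1 : ‖(1 - l : ℂ_[3])‖ ≤ 1 := by simpa using Cd.nm_z (1 - l)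
  have wt : ∀ I ∈ R, ∀ z : Pc M r A, ι (lam (Ideal.relNorm (𝓞 K) I) /
      ∏ j, lam (Ideal.relNorm (𝓞 K) (w j).asIdeal) ^ z.1 j) ∈ nr x0 x1 := fun I hI z => by
    have a : Ideal.span {(3 * l : 𝓞 M)} ≤ Ideal.span {3} :=
      Ideal.span_singleton_le_span_singleton.2 (dvd_mul_right _ _)
    rw [map_div₀, map_prod, div_eq_mul_inv (ι _)]
    refine mul_mem (v1 I (top_unique ((hR.cop I hI).2.1.ge.trans (sup_le_sup_left a _))))
      (nr_inv (prod_mem fun j _ => ?_))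
    rw [map_pow]
    exact pow_mem (v1 _ ((hX.max j).out.2 _ (left_lt_sup.2 fun k =>
      hX.cop j ((Ideal.span_singleton_le_iff_mem _).1 (a.trans k))))) _
  generalize hZ : (Matrix.of fun j j' => Sum.elim
    (fun i => lg (ι (σ i ((Sum.elim π' u (q j) : Ew w ι J m) : Mˣ))) / 3 ^ m)
    (fun i : Fin r => ((φ i.succ ((Sum.elim π' u (q j) : Ew w ι J m) : Mˣ)).val : ℂ_[3])) j' :
      Matrix _ _ ℂ_[3]) = Z at S2 c2
  have Z1 : ∀ j j', ‖Z j j'‖ ≤ 1 := by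
    rintro j (i | i)
    · exact hZ ▸ c1 j i
    · exact hZ ▸ norm_natCast_le_one _ _
  have Z2 : ‖Z.det‖ ≤ 1 := (Cd.nm_det1 le_rfl Z1 Z1 fun _ _ => by simp).1
  have main : ∀ i ≤ r, ‖nm ι J b σ ω m (k + 1) t0 * 3 ^ (m * (p + 1)) *
      ι (zz (fun i => (w i).asIdeal) Φ (fun I => lam (Ideal.relNorm (𝓞 K) I)) c.asIdeal l i) -
      R.card * if i = r then η * (1 - l) * (ι (Ms.kp b σ) * ι (J (Algebra.norm K t0))) * Z.det
        else 0‖ ≤ (1 / 3) ^ A1 * ((3 * C + s + 1) / ‖(Y.card : ℂ_[3])‖) := fun i hi => by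
    rw [← mul_div_assoc, le_div_iff₀' N0]
    refine core R (ix A h' Rho) Y Y' (fun I z => ((Φ I - z.2.1).val.choose i : ℂ_[3]) *
      ι (lam (Ideal.relNorm (𝓞 K) I) / ∏ j, lam (Ideal.relNorm (𝓞 K) (w j).asIdeal) ^ z.1 j))
      (fun I z y => nm ι J b σ ω m (k + 1) t0 * ι (S I y z))
      (fun I z y => nm ι J b σ ω m (k + 1) t0 * ι (S' I z y)) (by positivity)
      (fun I hI y hy => ?_) (fun I hI z hz y hy => ?_) ?_
    · have a := v2 y (hY y hy).1 (hY y hy).2.1 (hY y hy).2.2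
      have a1 : ‖ι (J (Algebra.norm K y))‖ = 1 :=
        (pow_eq_one_iff_of_nonneg (norm_nonneg _) k.succ_ne_zero).1
          ((norm_pow _ _).symm.trans (n1 x1 a))
      have a2 : ι (J (Algebra.norm K y)) ≠ 0 := fun k => by simp [k] at a1
      have a3 : nm ι J b σ ω m (k + 1) t0 =
          ι (J (Algebra.norm K y)) ^ k * nm ι J b σ ω m (k + 1) (t0 * y) := by
        simp only [nm, map_mul, mul_pow, Nat.add_sub_cancel]
        field_simp
      simp only [a3, mul_assoc (ι (J (Algebra.norm K y)) ^ k)]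
      refine (key (u := ι (J (Algebra.norm K y))) (T := s) (e := C * ((1 / 3) ^ A + ‖((k + 1 : ℕ) : ℂ_[3])‖)) _ _ _ _ x0 C0
        (fun _ => norm_natCast_le_one _ _) (wt I hI)
        (fun z hz => (S1 I hI y hy z hz).2) (by rw [norm_pow, a1, one_pow])
        (by rw [← pow_succ]; exact a) ?_ ?_).trans ?_
      · split_ifs
        · rw [norm_mul, norm_mul, norm_mul, κ1, η1, one_mul]
          exact (mul_le_of_le_one_right (by positivity) Z2).trans (mul_le_of_le_one_left s0.le l1)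
        · simpa using s0.le
      · refine le_of_eq_of_le (congrArg (fun t => ‖_ - t‖) ?_) (S2 I hI y hy (Φ I) i hi)
        split_ifs
        · simp only [map_mul]
          ring
        · exact zero_mul _
      · nlinarith [mul_le_mul_of_nonneg_left (add_le_add xA (k1.trans xe)) C0,
          mul_le_mul_of_nonneg_right xe C0, mul_le_mul_of_nonneg_right xe s0.le]
    · have a := T2 I hI z hz y hy
      rw [show nm ι J b σ ω m (k + 1) t0 * ι (S' I z y) = ι (Ms.kp b σ) /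
        ι (J (Algebra.norm K t0)) ^ k * (((k + 1 - 1).factorial : ℂ_[3]) ^ (p + 1) * ι (S' I z y) /
          (ι ω ^ ((p + 1) * (k + 1)) * 3 ^ (m * (p + 1)))) by
            rw [nm, Nat.add_sub_cancel]; ring, norm_mul, norm_mul, norm_mul, n1 x1 (wt I hI z),
        mul_one, norm_div, norm_pow, kp1]
      refine (mul_le_of_le_one_left (by positivity) (norm_natCast_le_one _ _)).trans
        ((mul_le_mul_of_nonneg_left a (by positivity)).trans ?_)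
      rw [mul_pow, show ∀ x y z : ℝ, √(dv ι J b) / x * (y * z / √(dv ι J b)) = y * z / x from
        fun x y z => by field_simp, mul_div_cancel_right₀ _ (by positivity)]
      refine ((mono k2.1).trans xe).trans (le_mul_of_one_le_right (by positivity) ?_)
      linarith
    · have a := congrArg (fun t => nm ι J b σ ω m (k + 1) t0 * ι t) (hS i)
      simp only [rk, map_mul, map_sum, map_add, map_natCast, map_pow, map_ofNat] at a
      rw [mul_left_comm, ← mul_assoc (nm ι J b σ ω m (k + 1) t0)] at a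
      rw [a]
      simp only [mul_sum, mul_add, mul_left_comm (nm ι J b σ ω m (k + 1) t0)]
  have nz : ∀ t : ℂ_[3], sc Ω (dv ι J b) (p + 1) (k + 1) * ‖t‖ =
      ‖nm ι J b σ ω m (k + 1) t0 * 3 ^ (m * (p + 1)) * t‖ := fun t => by
    have a := hB.pos
    have a1 : ‖ι (J (Algebra.norm K t0))‖ = (dv ι J b)⁻¹ := eq_inv_of_mul_eq_one_left t1
    simp only [sc, nm, norm_mul, norm_div, norm_pow, kp1, hO.om, a1, Nat.add_sub_cancel, nm_two]
    rw [pow_succ (dv ι J b), div_pow, ← pow_mul, mul_comm (k + 1), inv_pow]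
    field_simp
    rw [Real.sq_sqrt d0.le]
  have f1 := (lt_div_iff₀ (by positivity)).1 hA1
  have f2 := (lt_div_iff₀ s0).1 ((mono (le_of_max_le_right hm)).trans_lt hm1)
  have f3 : 0 ≤ (1 / 3 : ℝ) ^ A1 * s := by positivity
  refine ⟨fun i hi => ?_, ?_⟩
  · have a := main i hi.le
    rw [if_neg hi.ne, mul_zero, sub_zero] at a
    rw [nz]
    linarith
  · have a := main r le_rfl
    rw [if_pos rfl] at a
    rw [nz]
    refine (last η1 κ1 (hBn ▸ s1) ?_ l1 (norm_natCast_le_one _ _) c2 a).trans ?_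
    · rcases P1 with k | k <;> simp [k]
    · nlinarith [mul_le_mul_of_nonneg_right xA s0.le]

end Vale.Agent.P014Y.C.Ld
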