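import Vale.Agent.P014Y.C.Ld.Defs

/-!
# P014Y C, the leading term: the Laplace transform (row GAM)
-/

set_option autoImplicit false

open Finset Filter Topology

noncomputable section

namespace Vale.Agent.P014Y.C.Ld

namespace Ga

open MvPowerSeries

variable {p : ℕ}

/-! ### norms -/

theorem n_nat (k : ℕ) : ‖(k : ℂ_[3])‖ = ‖(k : ℚ_[3])‖ := by
  rw [← map_natCast (algebraMap ℚ_[3] ℂ_[3]), norm_algebraMap']

theorem n_two : ‖(3 : ℂ_[3])‖ = 1 / 3 := by
  have := n_nat 3
  rw [Padic.norm_p] at this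
  simpa using this

theorem n_eight : ‖(27⁻¹ : ℂ_[3])‖ = 27 := by
  rw [show (27 : ℂ_[3]) = 3 ^ 3 by norm_num, norm_inv, norm_pow, n_two]; norm_num

theorem n_fac (d : ℕ) : ‖((d.factorial : ℂ_[3]))⁻¹‖ ≤ 3 ^ d := by
  rw [norm_inv, n_nat, Padic.norm_eq_zpow_neg_valuation (by exact_mod_cast d.factorial_ne_zero),
    Padic.valuation_natCast, zpow_neg, inv_inv, zpow_natCast]
  exact_mod_cast Nat.pow_le_pow_right (by norm_num : 0 < 3) (padicValNat_factorial_le 3 d)

theorem nr_mono {n m m' : ℕ} {e : Fin n → ℂ_[3]} (h : Nr m e) (k : m' ≤ m) : Nr m' e := fun i =>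
  (h i).trans (pow_le_pow_of_le_one (by norm_num) (by norm_num) k)

theorem nr_mul {n m : ℕ} {e t : Fin n → ℂ_[3]} (h : Nr m e) (k : Nr m t) : Nr m (e * t) := by
  intro i
  have h1 : ‖e i‖ ≤ 1 := by
    rw [show e i = (e i - 1) + 1 by ring]
    exact (IsUltrametricDist.norm_add_le_max _ _).trans
      (max_le ((h i).trans (pow_le_one₀ (by norm_num) (by norm_num))) norm_one.le)
  rw [show (e * t) i - 1 = e i * (t i - 1) + (e i - 1) by rw [Pi.mul_apply]; ring]
  refine (IsUltrametricDist.norm_add_le_max _ _).trans (max_le ?_ (h i))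
  rw [norm_mul]
  exact (mul_le_of_le_one_left (norm_nonneg _) h1).trans (k i)

/-! ### bounded series -/

theorem cf_add (F G : Qs p) (x) : cf (F + G) x = cf F x + cf G x := by simp [cf]

theorem cf_smul (a : ℂ_[3]) (F : Qs p) (x) : cf (a • F) x = a * cf F x := by simp [cf]

theorem b_nn {c : ℝ} {F : Qs p} (h : Bd c F) : 0 ≤ c := (norm_nonneg _).trans (h 0)

theorem b_mono {c c' : ℝ} {F : Qs p} (h : Bd c F) (k : c ≤ c') : Bd c' F := fun x => (h x).trans k

theorem b_add {c : ℝ} {F G : Qs p} (h : Bd c F) (k : Bd c G) : Bd c (F + G) := fun x => by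
  rw [cf_add]
  exact (IsUltrametricDist.norm_add_le_max _ _).trans (max_le (h x) (k x))

theorem b_smul {c : ℝ} {F : Qs p} (a : ℂ_[3]) (h : Bd c F) : Bd (‖a‖ * c) (a • F) := fun x => by
  rw [cf_smul, norm_mul]
  exact mul_le_mul_of_nonneg_left (h x) (norm_nonneg _)

theorem b_neg {c : ℝ} {F : Qs p} (h : Bd c F) : Bd c (-F) := by
  simpa using b_smul (-1) h

theorem b_zero {c : ℝ} (h : 0 ≤ c) : Bd c (0 : Qs p) := fun x => by simpa [cf] using h

theorem b_sum {ι : Type} {c : ℝ} (hc : 0 ≤ c) (s : Finset ι) {F : ι → Qs p}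
    (h : ∀ i ∈ s, Bd c (F i)) : Bd c (∑ i ∈ s, F i) :=
  Finset.sum_induction F (Bd c) (fun _ _ => b_add) (b_zero hc) h

theorem b_C {c : ℝ} {y : Tt p} : Bd c (PowerSeries.C y) ↔ ∀ b, ‖coeff b y‖ ≤ c := by
  refine ⟨fun h b => by simpa [cf] using h (0, b), fun h x => ?_⟩
  rw [cf, PowerSeries.coeff_C]
  split_ifs
  · exact h _
  · simpa using (norm_nonneg _).trans (h 0)

theorem b_CC (a : ℂ_[3]) : Bd ‖a‖ (PowerSeries.C (C a) : Qs p) := b_C.2 fun b => by
  rw [coeff_C]
  split_ifs <;> simp

theorem b_one : Bd 1 (1 : Qs p) := by simpa using b_CC (p := p) 1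

theorem b_prod (h : S1 p) {ι : Type} {c : ℝ} (s : Finset ι) {F : ι → Qs p}
    (hF : ∀ i ∈ s, Bd c (F i)) : Bd (c ^ s.card) (∏ i ∈ s, F i) := by
  classical
  induction s using Finset.induction_on with
  | empty => simpa using b_one
  | insert j s hj ih =>
    rw [prod_insert hj, card_insert_of_notMem hj, pow_succ']
    exact h.mul _ _ _ _ (hF j (mem_insert_self _ _)) (ih fun i hi => hF i (mem_insert_of_mem hi))

theorem lu_single (i : Fin (p + 1)) (a : ℂ_[3]) : lu (Pi.single i a) = C a * (uu i : Tt p) := by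
  rw [lu, Finset.sum_eq_single i (fun j _ hj => by simp [Pi.single_eq_of_ne hj]) (by simp),
    Pi.single_eq_same]

theorem b_uu (h : S1 p) (i : Fin (p + 1)) : Bd 27 (PowerSeries.C (uu i) : Qs p) := by
  have := h.lu 1 (Pi.single i 1) fun j => by
    by_cases k : j = i
    · subst k; simp
    · simp [Pi.single_eq_of_ne k]
  rwa [lu_single, map_one, one_mul, mul_one] at this

/-! ### extension of scalars -/

/-- polynomials over the series -/
abbrev PT (p : ℕ) : Type := MvPolynomial (Fin (p + 1)) (Tt p)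

theorem ngm (S z : PT p) : -S * z = -(S * z) := by ring

theorem nT_mon (ν : Fn (p + 1)) (b : Fin (p + 1) →₀ ℕ) (y : Tt p) :
    nT ν (MvPolynomial.monomial b y) = y * C (ν (MvPolynomial.monomial b 1)) := by
  have : nT ν (MvPolynomial.monomial b 1) = C (ν (MvPolynomial.monomial b 1)) :=
    (MvPolynomial.basisMonomials _ _).constr_basis (Tt p) _ b
  rw [← smul_eq_mul, ← this, ← map_smul, MvPolynomial.smul_monomial, smul_eq_mul, mul_one]

theorem nT_C (ν : Fn (p + 1)) (y : Tt p) (P : PT p) :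
    nT ν (MvPolynomial.C y * P) = y * nT ν P := by
  rw [← MvPolynomial.smul_eq_C_mul, map_smul, smul_eq_mul]

theorem nT_map (ν : Fn (p + 1)) (q : Py (p + 1)) :
    nT ν (MvPolynomial.map (C : ℂ_[3] →+* Tt p) q) = C (ν q) := by
  induction q using MvPolynomial.induction_on' with
  | monomial b a =>
    rw [MvPolynomial.map_monomial, nT_mon, ← map_mul, ← smul_eq_mul, ← map_smul,
      MvPolynomial.smul_monomial, smul_eq_mul, mul_one]
  | add q q' h h' => rw [map_add, map_add, h, h', map_add, map_add]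

theorem nT_comp (ν : Fn (p + 1)) (f : Fin (p + 1) → Py (p + 1)) (P : PT p) :
    nT (ν ∘ₗ (MvPolynomial.aeval f).toLinearMap) P =
      nT ν (MvPolynomial.aeval (fun i => MvPolynomial.map (C : ℂ_[3] →+* Tt p) (f i)) P) := by
  induction P using MvPolynomial.induction_on' with
  | monomial b y =>
    rw [nT_mon, MvPolynomial.aeval_monomial, MvPolynomial.algebraMap_eq, nT_C, LinearMap.comp_apply,
      AlgHom.toLinearMap_apply, MvPolynomial.aeval_monomial, map_one, one_mul, ← nT_map,
      map_finsuppProd]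
    simp only [map_pow]
  | add q q' h h' => rw [map_add, map_add, h, h', map_add]

theorem nT_hom (ν : Fn (p + 1)) (φ : Tt p →ₐ[ℂ_[3]] Tt p) (P : PT p) :
    φ (nT ν P) = nT ν (MvPolynomial.map φ.toRingHom P) := by
  induction P using MvPolynomial.induction_on' with
  | monomial b y =>
    rw [MvPolynomial.map_monomial, nT_mon, nT_mon, map_mul]
    exact congrArg _ (φ.commutes _)
  | add q q' h h' => rw [map_add, map_add, h, h', map_add, map_add]

/-- the functional, coefficient by coefficient -/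
def nP (ν : Fn (p + 1)) (G : PowerSeries (PT p)) : Qs p :=
  PowerSeries.mk fun d => nT ν (PowerSeries.coeff d G)

/-- the exponent -/
def Y (p : ℕ) : PT p := -∑ i, MvPolynomial.C (C 27⁻¹ * uu i) * (MvPolynomial.X i - 1)

theorem gm_eq (ν : Fn (p + 1)) :
    Gm ν = nP ν (PowerSeries.rescale (Y p) (PowerSeries.exp (PT p))) := rfl

theorem nP_mul (ν : Fn (p + 1)) (F : Qs p) (G : PowerSeries (PT p)) :
    nP ν (PowerSeries.map MvPolynomial.C F * G) = F * nP ν G := by
  refine PowerSeries.ext fun d => ?_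
  simp only [nP, PowerSeries.coeff_mk, PowerSeries.coeff_mul, map_sum, PowerSeries.coeff_map, nT_C]

theorem map_resc {A B : Type} [CommRing A] [CommRing B] [Algebra ℚ A] [Algebra ℚ B] (φ : A →+* B)
    (a : A) : PowerSeries.map φ (PowerSeries.rescale a (PowerSeries.exp A)) =
      PowerSeries.rescale (φ a) (PowerSeries.exp B) := by
  refine PowerSeries.ext fun d => ?_
  rw [← PowerSeries.map_exp φ]
  simp only [PowerSeries.coeff_map, PowerSeries.coeff_rescale, map_mul, map_pow]

theorem gm_comp (ν : Fn (p + 1)) (f : Fin (p + 1) → Py (p + 1)) (η : Fin (p + 1) → ℂ_[3])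
    (Z : PT p) (h : MvPolynomial.aeval (fun i => MvPolynomial.map (C : ℂ_[3] →+* Tt p) (f i)) (Y p)
      = MvPolynomial.C (-(C 27⁻¹ * lu η)) + Z) :
    Gm (ν ∘ₗ (MvPolynomial.aeval f).toLinearMap) =
      Ex η * nP ν (PowerSeries.rescale Z (PowerSeries.exp (PT p))) := by
  rw [← nP_mul, Ex, map_resc, PowerSeries.exp_mul_exp_eq_exp_add, ← h, gm_eq]
  refine PowerSeries.ext fun d => ?_
  have := congrArg (PowerSeries.coeff d) (map_resc (MvPolynomial.aeval (R := Tt p) fun i =>
    MvPolynomial.map (C : ℂ_[3] →+* Tt p) (f i)).toRingHom (Y p))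
  rw [PowerSeries.coeff_map] at this
  rw [nP, nP, PowerSeries.coeff_mk, PowerSeries.coeff_mk, nT_comp]
  exact congrArg _ this

theorem y_bd (h : S1 p) {m : ℕ} {c : ℝ} {ν : Fn (p + 1)} (hν : Bn m c ν) (d : ℕ)
    (b : Fin (p + 1) → ℕ) : Bd ((729 * (1 / 3) ^ m) ^ d * (c * (1 / 3) ^ (m * ∑ i, b i)))
      (PowerSeries.C (nT ν (Y p ^ d * ∏ i, (MvPolynomial.X i - 1) ^ b i))) := by
  induction d generalizing b with
  | zero =>
    have := nT_map ν (∏ i, (MvPolynomial.X i - 1) ^ b i)
    simp only [map_prod, map_pow, map_sub, MvPolynomial.map_X, map_one] at this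
    rw [pow_zero, pow_zero, one_mul, one_mul, this]
    exact b_mono (b_CC _) (hν b)
  | succ d ih =>
    have e : ∀ i, (∏ j, (MvPolynomial.X j - 1) ^ (b + Pi.single i 1 : Fin (p + 1) → ℕ) j : PT p) =
        (MvPolynomial.X i - 1) * ∏ j, (MvPolynomial.X j - 1) ^ b j := fun i => by
      simp only [Pi.add_apply, pow_add, prod_mul_distrib]
      rw [mul_comm, Finset.prod_eq_single i (fun j _ hj => by simp [Pi.single_eq_of_ne hj])
        (by simp), Pi.single_eq_same, pow_one]
    have e2 : Y p ^ (d + 1) * ∏ i, (MvPolynomial.X i - 1) ^ b i = -∑ i, MvPolynomial.C (C 27⁻¹ * uu i)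
        * (Y p ^ d * ∏ j, (MvPolynomial.X j - 1) ^ (b + Pi.single i 1 : Fin (p + 1) → ℕ) j) := by
      rw [pow_succ', mul_assoc]
      nth_rewrite 1 [Y]
      rw [ngm, sum_mul]
      exact congrArg _ (sum_congr rfl fun i _ => by rw [e]; ring)
    have h0 := b_nn (ih b)
    rw [e2, map_neg, map_neg, map_sum, map_sum]
    refine b_neg (b_sum (by
      rw [pow_succ', mul_assoc]; exact mul_nonneg (by positivity) h0) _ fun i _ => ?_)
    rw [nT_C, map_mul, map_mul]
    refine b_mono (h.mul _ _ _ _ (h.mul _ _ _ _ (b_CC _) (b_uu h i)) (ih _)) (le_of_eq ?_)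
    simp only [Pi.add_apply, sum_add_distrib, Finset.sum_pi_single', mem_univ, if_true, n_eight]
    ring

end Ga

open Ga MvPowerSeries in
/-- **row GAM** -/
theorem gam {p : ℕ} (h : S1 p) : GAM p where
  add ν ν' := by
    refine PowerSeries.ext fun d => ?_
    simp only [gm_eq, nP, map_add, PowerSeries.coeff_mk]
    generalize PowerSeries.coeff d (PowerSeries.rescale (Y p) (PowerSeries.exp (PT p))) = P
    induction P using MvPolynomial.induction_on' with
    | monomial b y => simp only [nT_mon, LinearMap.add_apply, map_add, mul_add]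
    | add q q' k k' => simp only [map_add, k, k']; ring
  smul a ν := by
    refine PowerSeries.ext fun d => ?_
    simp only [gm_eq, nP, PowerSeries.coeff_smul, PowerSeries.coeff_mk]
    generalize PowerSeries.coeff d (PowerSeries.rescale (Y p) (PowerSeries.exp (PT p))) = P
    induction P using MvPolynomial.induction_on' with
    | monomial b y =>
      simp only [nT_mon, LinearMap.smul_apply, smul_eq_mul, map_mul, smul_eq_C_mul]; ring
    | add q q' k k' => simp only [map_add, k, k', smul_add]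
  bd m c ν hm hν x := by
    have h1 := y_bd h hν x.1 0
    simp only [Pi.zero_apply, pow_zero, prod_const_one, mul_one, sum_const_zero, mul_zero] at h1
    have h2 := b_C.1 (h.mul _ _ _ _ (b_CC ((x.1.factorial : ℂ_[3])⁻¹)) h1 |> fun k => by
      rwa [← map_mul] at k) x.2
    have h0 : 0 ≤ c := by simpa using (norm_nonneg _).trans (hν 0)
    have e : algebraMap ℚ (PT p) (1 / x.1.factorial) =
        MvPolynomial.C (C ((x.1.factorial : ℂ_[3])⁻¹)) := by
      rw [← ((MvPolynomial.C : Tt p →+* PT p).comp (C : ℂ_[3] →+* Tt p)).map_rat_algebraMap]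
      simp
    rw [cf, gm_eq, nP, PowerSeries.coeff_mk, PowerSeries.coeff_rescale, PowerSeries.coeff_exp, e,
      mul_comm, nT_C]
    refine h2.trans ?_
    rw [← mul_assoc]
    refine mul_le_of_le_one_left h0 ((mul_le_mul_of_nonneg_right (n_fac _) (by positivity)).trans ?_)
    rw [← mul_pow]
    refine pow_le_one₀ (by positivity) ?_
    have : ((1 : ℝ) / 3) ^ m ≤ (1 / 3) ^ 7 := pow_le_pow_of_le_one (by norm_num) (by norm_num) hm
    linarith [show ((1 : ℝ) / 3) ^ 7 = 1 / 2187 by norm_num]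
  zero ν := by
    have := nT_map ν 1
    rw [map_one] at this
    rw [gm_eq, nP, PowerSeries.coeff_mk, PowerSeries.coeff_rescale, PowerSeries.coeff_exp, ← this]
    simp
  sh ν a := gm_comp ν _ a (Y p) (by
    simp only [Y, lu, map_neg, map_sum, map_mul, map_sub, map_add, map_one, MvPolynomial.aeval_X,
      MvPolynomial.aeval_C, MvPolynomial.map_X, MvPolynomial.map_C, MvPolynomial.algebraMap_eq,
      mul_sum, ← neg_add, ← sum_add_distrib]
    exact congrArg _ (sum_congr rfl fun i _ => by ring))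
  dl ν e he := by
    rw [dl, gm_comp ν _ (e - 1) (-∑ i, MvPolynomial.C (C 27⁻¹ * (C (e i) * uu i)) *
      (MvPolynomial.X i - 1)) (by
      simp only [Y, lu, map_neg, map_sum, map_mul, map_sub, map_one, MvPolynomial.aeval_X,
        MvPolynomial.aeval_C, MvPolynomial.map_X, MvPolynomial.map_C, MvPolynomial.algebraMap_eq,
        mul_sum, ← neg_add, ← sum_add_distrib, Pi.sub_apply, Pi.one_apply]
      exact congrArg _ (sum_congr rfl fun i _ => by ring))]
    refine congrArg _ (PowerSeries.ext fun d => ?_)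
    have e1 : ∀ i, lu e * se e (uu i) = C (e i) * uu i := fun i => by
      have := (h.se e he).1 (Pi.single i 1)
      rwa [lu_single, map_one, one_mul, ← Pi.single_mul_right, mul_one, lu_single] at this
    have e2 : -∑ i, MvPolynomial.C (C 27⁻¹ * (C (e i) * uu i)) * (MvPolynomial.X i - 1) =
        MvPolynomial.map (se e).toRingHom (Y p) * MvPolynomial.C (lu e) := by
      simp only [Y, map_neg, map_sum, map_mul, map_sub, map_one, MvPolynomial.map_X,
        MvPolynomial.map_C, ← e1]
      rw [ngm, sum_mul]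
      refine congrArg _ (sum_congr rfl fun i _ => ?_)
      rw [show (se e).toRingHom (C 27⁻¹) = C 27⁻¹ from (se e).commutes _]
      simp only [AlgHom.toRingHom_eq_coe, RingHom.coe_coe]
      ring
    rw [e2, ← PowerSeries.rescale_rescale, ← map_resc, gm_eq]
    simp only [nP, Se, RingHom.comp_apply, PowerSeries.coeff_mk, PowerSeries.coeff_rescale,
      PowerSeries.coeff_map, ← map_pow, nT_C]
    exact congrArg _ (nT_hom ν (se e) _).symm

end Vale.Agent.P014Y.C.Ld
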