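import Vale.Agent.P014Y.C.Ld.Defs

/-!
# P014Y C, the leading term: the recurrences that determine the functional
-/

set_option autoImplicit false

open Finset Filter Topology MvPowerSeries

noncomputable section

namespace Vale.Agent.P014Y.C.Ld.Iv

variable {p : ℕ} {B B' r : ℝ} {F G : Qs p}

theorem cf_add (F G : Qs p) (x) : cf (F + G) x = cf F x + cf G x := by simp [cf]

theorem cf_smul (a : ℂ_[3]) (F : Qs p) (x) : cf (a • F) x = a * cf F x := rfl

theorem bd_nn (h : Bd B F) : 0 ≤ B := (norm_nonneg _).trans (h 0)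

theorem bd_le (h : Bd B F) (k : B ≤ B') : Bd B' F := fun x => (h x).trans k

theorem bd_add (h : Bd B F) (k : Bd B G) : Bd B (F + G) := fun x => by
  rw [cf_add]
  exact (IsUltrametricDist.norm_add_le_max _ _).trans (max_le (h x) (k x))

theorem bd_smul (a : ℂ_[3]) (h : Bd B F) : Bd (‖a‖ * B) (a • F) := fun x => by
  rw [cf_smul, norm_mul]
  exact mul_le_mul_of_nonneg_left (h x) (norm_nonneg _)

theorem bd_neg (h : Bd B F) : Bd B (-F) := by simpa using bd_smul (-1) h

theorem bd_sub (h : Bd B F) (k : Bd B G) : Bd B (F - G) := by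
  simpa only [sub_eq_add_neg] using bd_add h (bd_neg k)

/-- monomials -/
def mo (x : ℕ × (Fin p →₀ ℕ)) : Qs p := PowerSeries.monomial x.1 (monomial x.2 1)

theorem cf_mo (x y : ℕ × (Fin p →₀ ℕ)) : cf (mo x) y = if y = x then 1 else 0 := by
  by_cases a : y.1 = x.1 <;> by_cases b : y.2 = x.2 <;>
    simp [cf, mo, PowerSeries.coeff_monomial, coeff_monomial, Prod.ext_iff, a, b]

theorem bd_mo (x : ℕ × (Fin p →₀ ℕ)) : Bd 1 (mo x) := fun y => by
  rw [cf_mo]
  split_ifs <;> simp

theorem bd_one : Bd 1 (1 : Qs p) := by simpa [mo] using bd_mo (p := p) 0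

theorem CC (a : ℂ_[3]) (F : Qs p) : PowerSeries.C (C a) * F = a • F := by
  rw [Algebra.smul_def, PowerSeries.algebraMap_apply, MvPowerSeries.algebraMap_apply]
  rfl

theorem sg_eq : (sg : Qs p) = (27⁻¹ : ℂ_[3]) • PowerSeries.X := CC _ _

theorem n2 : ‖(3 : ℂ_[3])‖ = 3⁻¹ := by
  have := PadicComplex.norm_extends 3 (((3 : ℕ) : ℚ_[3]) : PadicAlgCl 3)
  rw [PadicAlgCl.norm_extends, Padic.norm_p, map_natCast, PadicComplex.coe_natCast] at this
  simpa using this

theorem n8 : ‖(27⁻¹ : ℂ_[3])‖ = 27 := by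
  rw [show (27 : ℂ_[3]) = 3 ^ 3 by norm_num, norm_inv, norm_pow, n2]
  norm_num

theorem bd_sg : Bd 27 (sg : Qs p) := by
  have := bd_smul (27⁻¹ : ℂ_[3]) (bd_mo (p := p) (1, 0))
  rw [n8, mul_one] at this
  rwa [sg_eq, PowerSeries.X_eq]

/-- bounded series -/
def BB (h : S1 p) : Subalgebra ℂ_[3] (Qs p) where
  carrier := {F | ∃ B, Bd B F}
  mul_mem' := fun ⟨_, a⟩ ⟨_, b⟩ => ⟨_, h.mul _ _ _ _ a b⟩
  add_mem' := fun ⟨B, a⟩ ⟨B', b⟩ =>
    ⟨max B B', bd_add (bd_le a (le_max_left _ _)) (bd_le b (le_max_right _ _))⟩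
  algebraMap_mem' a := ⟨_, Algebra.algebraMap_eq_smul_one (A := Qs p) a ▸ bd_smul a bd_one⟩

theorem ex_L (h1 : S1 p) (h2 : S2 p) : ∃ L : Qs p →ₗ[ℂ_[3]] Dn, ∀ F ∈ BB h1, L F = Lt F := by
  obtain ⟨L, hL⟩ := LinearMap.exists_extend (p := (BB h1).toSubmodule)
    { toFun := fun F => Lt F.1
      map_add' := fun ⟨F, B, a⟩ ⟨G, B', b⟩ => by
        obtain ⟨_, k⟩ := (BB h1).add_mem ⟨B, a⟩ ⟨B', b⟩
        exact (h2.has _ _ k).unique (by
          simpa only [cf_add, add_smul] using (h2.has _ _ a).add (h2.has _ _ b))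
      map_smul' := fun c ⟨F, B, a⟩ => (h2.has _ _ (bd_smul c a)).unique (by
        simpa only [cf_smul, mul_smul, RingHom.id_apply] using (h2.has _ _ a).const_smul c) }
  exact ⟨L, fun F k => LinearMap.congr_fun hL ⟨F, k⟩⟩

/-- the barycentric coordinates as series -/
def U (i : Fin (p + 1)) : Qs p := PowerSeries.C (uu i)

theorem lu_single (i : Fin (p + 1)) (a : ℂ_[3]) : lu (Pi.single i a) = C a * uu i := by
  rw [lu, sum_eq_single i (fun j _ k => by simp [k]) (by simp)]
  simp

theorem lu_one' (i : Fin (p + 1)) : lu (Pi.single i 1) = uu i := by simp [lu_single]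

theorem sum_uu : ∑ i, (uu i : Tt p) = 1 := by simp [uu, Fin.sum_univ_succ]

theorem lu_add (a b : Fin (p + 1) → ℂ_[3]) : lu (a + b) = lu a + lu b := by
  simp [lu, add_mul, sum_add_distrib]

theorem lu_one : lu (1 : Fin (p + 1) → ℂ_[3]) = 1 := by simp [lu, sum_uu]

theorem lu_smul (a : ℂ_[3]) (b : Fin (p + 1) → ℂ_[3]) : lu (a • b) = C a * lu b := by
  simp [lu, mul_sum, mul_assoc]

theorem U_mem (h : S1 p) (i : Fin (p + 1)) : U i ∈ BB h := by
  have := h.lu 1 (Pi.single i 1) fun j => by by_cases k : j = i <;> simp [k]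
  exact ⟨_, lu_one' i ▸ this⟩

section rec

open DualNumber

variable {n : ℕ} {T : ℕ → Multiset (Fin n) → Dn}

/-- the recurrences -/
def Rc (T : ℕ → Multiset (Fin n) → Dn) : Prop := ∀ d m, (∑ i, T d (i ::ₘ m) = T d m) ∧ ∀ i,
  ((m.count i : Dn) + 1 + eps) * T d m + ((d : Dn) - (m.card : Dn) - (n : Dn)) * T d (i ::ₘ m) =
    T (d + 1) (i ::ₘ m)

theorem Rc.up (h : Rc T) (d m) : T (d + 1) m = ((d : Dn) + (n : Dn) * eps) * T d m := by
  have a := sum_congr (s₁ := univ) rfl fun i _ => (h d m).2 i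
  have c : ∑ i, (m.count i : Dn) = m.card := by
    rw [← Nat.cast_sum, Multiset.sum_count_eq_card fun _ _ => mem_univ _]
  simp only [sum_add_distrib, ← mul_sum, ← sum_mul, (h _ m).1, c, sum_const, card_univ,
    Fintype.card_fin, nsmul_eq_mul] at a
  linear_combination -a

theorem Rc.zero (hn : 0 < n) (h : Rc T) (h0 : T 0 0 = 0) (d m) : T d m = 0 := by
  induction d with
  | succ d ih => rw [h.up, ih, mul_zero]
  | zero =>
    induction m using Multiset.induction_on with
    | empty => exact h0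
    | cons i m ih =>
      have a := (h 0 m).2 i
      have u : IsUnit ((m.card : Dn) + (n : Dn) + (n : Dn) * eps) := by
        rw [TrivSqZeroExt.isUnit_iff_isUnit_fst, isUnit_iff_ne_zero]
        have : ((m.card + n : ℕ) : ℂ_[3]) ≠ 0 := Nat.cast_ne_zero.2 (by omega)
        simpa using this
      rw [h.up, ih] at a
      refine u.mul_right_eq_zero.1 ?_
      push_cast at a
      linear_combination -a

theorem Rc.sub {T' : ℕ → Multiset (Fin n) → Dn} (h : Rc T) (h' : Rc T') (c : Dn) :
    Rc fun d m => T d m - c * T' d m := fun d m =>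
  ⟨by simp only [sum_sub_distrib, ← mul_sum, (h d m).1, (h' d m).1], fun i => by
    linear_combination (h d m).2 i - c * (h' d m).2 i⟩

/-- a frame gives a solution of the recurrences -/
theorem frame {Q : Type} [CommRing Q] [Algebra ℂ_[3] Q] {sg : Q} {U : Fin (p + 1) → Q}
    {L : Q →ₗ[ℂ_[3]] Dn} {D : Fin (p + 1) → Derivation ℂ_[3] (Q) (Q)}
    {A : Subalgebra ℂ_[3] (Q)} (hk : ∀ i, ∀ F ∈ A, D i F ∈ A →
      L (D i F) + (1 + eps) * L F = L (sg * U i * F) + ((p : Dn) + 1) * L (U i * F))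
    (m0 : sg ∈ A) (m1 : ∀ i, U i ∈ A) {g s : Q} {V : Fin (p + 1) → Q} (mg : g ∈ A)
    (ms : s ∈ A) (mV : ∀ i, V i ∈ A) (h1 : ∑ i, V i = 1) (hs : ∀ i, D i s = V i * s)
    (hV : ∀ i j, D i (V j) = ((if i = j then 1 else 0) - V i) * V j)
    (hg : ∀ i, D i g = (sg * U i + ((p : Q) + 1) * U i - s * V i - ((p : Q) + 1) * V i) * g) :
    Rc fun d m => L (g * s ^ d * (m.map V).prod) := fun d m => by
  refine ⟨?_, fun i => ?_⟩
  · simp only [Multiset.map_cons, Multiset.prod_cons, ← map_sum, ← mul_sum, ← sum_mul, h1, one_mul]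
  have a : D i (s ^ d) = d * V i * s ^ d := by
    induction d with
    | zero => simp
    | succ d ih =>
      rw [pow_succ, Derivation.leibniz, ih, hs, smul_eq_mul, smul_eq_mul]
      push_cast
      ring
  have b : D i (m.map V).prod = (m.count i - m.card * V i) * (m.map V).prod := by
    induction m using Multiset.induction_on with
    | empty => simp
    | cons j m ih =>
      rw [Multiset.map_cons, Multiset.prod_cons, Derivation.leibniz, ih, hV, smul_eq_mul,
        smul_eq_mul, Multiset.count_cons, Multiset.card_cons]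
      push_cast
      ring
  have mH : g * s ^ d * (m.map V).prod ∈ A := mul_mem (mul_mem mg (pow_mem ms d))
    (multiset_prod_mem _ fun x k => by
      obtain ⟨j, -, rfl⟩ := Multiset.mem_map.1 k
      exact mV j)
  have c : D i (g * s ^ d * (m.map V).prod) = (sg * U i + ((p : Q) + 1) * U i - s * V i -
      ((p : Q) + 1) * V i + (d : Q) * V i + (m.count i : Q) - (m.card : Q) * V i) *
      (g * s ^ d * (m.map V).prod) := by
    rw [Derivation.leibniz, Derivation.leibniz, a, b, hg]
    simp only [smul_eq_mul]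
    ring
  have k := hk i _ mH (c ▸ mul_mem (by
    have := m1 i
    have := mV i
    aesop (add safe apply [sub_mem, add_mem, mul_mem, natCast_mem, one_mem])) mH)
  have e : D i (g * s ^ d * (m.map V).prod) + g * s ^ (d + 1) * (V i * (m.map V).prod) +
      (m.card + (p + 1)) • (g * s ^ d * (V i * (m.map V).prod)) =
      sg * U i * (g * s ^ d * (m.map V).prod) + (p + 1) • (U i * (g * s ^ d * (m.map V).prod)) +
      d • (g * s ^ d * (V i * (m.map V).prod)) + m.count i • (g * s ^ d * (m.map V).prod) := by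
    simp only [c, nsmul_eq_mul]
    push_cast
    ring
  have f := congrArg L e
  simp only [map_add, map_nsmul] at f
  simp only [nsmul_eq_mul, Multiset.map_cons, Multiset.prod_cons] at f ⊢
  push_cast at f ⊢
  linear_combination k - f

end rec

/-- coefficientwise sums -/
def HS {ι : Type*} (G : ι → Qs p) (F : Qs p) : Prop := ∀ y, HasSum (fun i => cf (G i) y) (cf F y)

theorem cf_mul (F G : Qs p) (y) : cf (F * G) y = ∑ a ∈ antidiagonal y.1, ∑ b ∈ antidiagonal y.2,
    cf F (a.1, b.1) * cf G (a.2, b.2) := by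
  simp only [cf, PowerSeries.coeff_mul, map_sum, coeff_mul]

theorem HS.mul {ι : Type*} {G : ι → Qs p} (h : HS G F) (g : Qs p) :
    HS (fun i => g * G i) (g * F) := fun y => by
  simp only [cf_mul]
  exact hasSum_sum fun a _ => hasSum_sum fun b _ => (h _).mul_left _

theorem Se_C (e : Fin (p + 1) → ℂ_[3]) (a : Tt p) :
    Se e (PowerSeries.C a) = PowerSeries.C (se e a) := by
  ext1 d
  simp only [Se, RingHom.comp_apply, PowerSeries.map_C, PowerSeries.coeff_rescale,
    PowerSeries.coeff_C]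
  split_ifs with h <;> simp [h]

theorem Se_smul (e : Fin (p + 1) → ℂ_[3]) (a : ℂ_[3]) (F : Qs p) : Se e (a • F) = a • Se e F := by
  rw [← CC, ← CC, map_mul, Se_C]
  exact congrArg (fun z => PowerSeries.C z * Se e F) ((se e).commutes a)

theorem Se_sg (e : Fin (p + 1) → ℂ_[3]) : Se e sg = PowerSeries.C (lu e) * sg := by
  rw [sg_eq, Se_smul, mul_smul_comm]
  simp [Se, PowerSeries.rescale_X]

theorem hs_se (e : Fin (p + 1) → ℂ_[3]) (f : Tt p) (y : Fin p →₀ ℕ) :
    HasSum (fun b => coeff b f * coeff y (se e (monomial b 1))) (coeff y (se e f)) := by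
  have hs : HasSubst fun i : Fin p => (C (e i.succ) * X i * (lu e)⁻¹ : Tt p) :=
    hasSubst_of_constantCoeff_zero fun i => by simp
  have k := coeff_subst_finite hs f y
  have a := (summable_of_hasFiniteSupport (L := .unconditional _) k).hasSum
  rw [tsum_eq_finsum k, ← coeff_subst hs] at a
  simpa only [se, substAlgHom_apply, subst_monomial hs, map_one, one_mul, smul_eq_mul] using a

theorem hs_Se (e : Fin (p + 1) → ℂ_[3]) (F : Qs p) :
    HS (fun x => cf F x • Se e (mo x)) (Se e F) := by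
  have a : HS (fun x => cf F x • PowerSeries.map (se e).toRingHom (mo x))
      (PowerSeries.map (se e).toRingHom F) := fun y => by
    have i : Function.Injective fun b : Fin p →₀ ℕ => (y.1, b) := Prod.mk_right_injective _
    refine (i.hasSum_iff fun x hx => ?_).1 ?_
    · have : y.1 ≠ x.1 := fun e => hx ⟨x.2, by rw [e]⟩
      rw [cf_smul, cf, cf, PowerSeries.coeff_map, mo, PowerSeries.coeff_monomial, if_neg this,
        map_zero, map_zero, mul_zero]
    · refine (hs_se e (PowerSeries.coeff y.1 F) y.2).congr_fun fun b => ?_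
      rw [Function.comp, cf_smul, cf, cf, PowerSeries.coeff_map, mo, PowerSeries.coeff_monomial,
        if_pos rfl]
      rfl
  intro y
  have k : ∀ G : Qs p, cf (Se e G) y =
      cf (PowerSeries.C (lu e ^ y.1) * PowerSeries.map (se e).toRingHom G) y := fun G => by
    rw [cf, cf, PowerSeries.coeff_C_mul, Se, RingHom.comp_apply, PowerSeries.coeff_rescale]
  rw [k]
  refine (a.mul (PowerSeries.C (lu e ^ y.1)) y).congr_fun fun x => ?_
  simp only [mul_smul_comm, cf_smul, k]

end Vale.Agent.P014Y.C.Ld.Iv
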