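import Vale.Agent.P014Y.C.Ld.St3
import Vale.Agent.P004C.An.Ipl

/-!
# P014Y C, the leading term: interpolation in the field
-/

set_option autoImplicit false
set_option linter.all false

open NumberField Module Finset
open scoped Classical

noncomputable section

namespace Vale.Agent.P014Y.C.Ld

open P004C.An As

namespace Im

variable {G H : Type} [CommGroup G] [CommGroup H]

theorem mp_cyc (f : G →* H) (L : List G) : mp f (cyc L) = cyc (L.map f) := by
  induction L with
  | nil => simp [cyc]
  | cons e L k =>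
    rw [List.map_cons, cyc, cyc, ← k, mp_pr, pr_mp]
    exact congrArg₂ (pr · · _) rfl (funext fun a => map_mul f e a)

theorem cb_fin (L : List G) : (cb L).Finite := by
  induction L with
  | nil => exact Set.finite_singleton 1
  | cons e L k => exact k.union (k.image _)

theorem ex_den {M : Type} [Field M] [NumberField M] (T : M) :
    ∃ n : ℕ, n ≠ 0 ∧ IsIntegral ℤ (n * T) := by
  obtain ⟨y, a, h⟩ := ((IsFractionRing.isAlgebraic_iff ℤ ℚ M).2
    (Algebra.IsAlgebraic.isAlgebraic T)).exists_integral_multiple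
  refine ⟨y.natAbs, Int.natAbs_ne_zero.2 a, ?_⟩
  rw [zsmul_eq_mul] at h
  rcases Int.natAbs_eq y with e | e
  · rwa [e, Int.cast_natCast] at h
  · rw [e, Int.cast_neg, Int.cast_natCast, neg_mul] at h
    simpa using h.neg

end Im

open Im

theorem ipm : IPM := by
  intro K _ _ ι J Ω hB M _ _ _ p σ hσ G _ j U ε k hj hε hb hU hk
  let ε' : Fin p → U := fun i => ⟨ε i, hε i⟩
  let ch : U →* (Fin (p + 1) → ℂ) :=
    { toFun := fun u i => σ i (j u)
      map_one' := by funext i; simp
      map_mul' := fun a b => by funext i; simp }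
  let f : U →* 𝓞 M :=
    { toFun := fun u => ⟨j u, (hU u u.2).2⟩
      map_one' := Subtype.ext (congrArg Units.val (map_one j))
      map_mul' := fun a b => Subtype.ext (congrArg Units.val (map_mul j a.1 b.1)) }
  obtain ⟨η, hη, H⟩ := ipl p U ch ε' (fun u => by
      rw [show ∏ i, ch u i = _ from (hσ.both _).1, (hU _ u.2).1, map_one]) (fun u => by
      simpa only [Subtype.ext_iff, SubmonoidClass.coe_finsetProd, SubgroupClass.coe_zpow] using
        hb u u.2) fun R => by
      refine Set.Finite.of_finite_image (f := f) ((hσ.fin hB R).subset ?_) fun a _ b _ e =>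
        Subtype.ext (hj (Units.ext (congrArg Subtype.val e)))
      rintro _ ⟨u, hu, rfl⟩ i
      exact (norm_le_pi_norm (ch u) i).trans hu
  refine ⟨η * (-1) ^ ((p + 1) * (k - 1)), ((cb_fin (List.ofFn ε')).image Subtype.val).toFinset, by
    rcases neg_one_pow_eq_or ℂ ((p + 1) * (k - 1)) with e | e <;> rcases hη with rfl | rfl <;>
      simp [e], fun φ D T ⟨N, hN, hL⟩ ⟨B, hφ⟩ hi h0 hD hg hz => ?_⟩
  obtain ⟨n, hn, hT⟩ := ex_den T
  have hN' : (N : M) ≠ 0 := Nat.cast_ne_zero.2 hN
  have hNc : (0 : ℝ) < N := Nat.cast_pos.2 (Nat.pos_of_ne_zero hN)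
  have hnc : (0 : ℝ) < n := Nat.cast_pos.2 (Nat.pos_of_ne_zero hn)
  let F : 𝓞 M →+ M :=
    { toFun := fun x => (x : M) / N
      map_zero' := by simp
      map_add' := fun a b => by simp [add_div] }
  have hF : Function.Injective F := fun a b e =>
    RingOfIntegers.coe_injective ((div_left_inj' hN').1 e)
  have hFs : ∀ x : M, φ x ≠ 0 → ∃ z, x = F z := fun x k =>
    ⟨⟨N * x, hL x k⟩, (mul_div_cancel_left₀ x hN').symm⟩
  let _ : DistribMulAction U (𝓞 M) := .compHom _ f
  have hFu : ∀ (u : U) (x : 𝓞 M), F (u • x) = j u * F x := fun u x => mul_div_assoc _ _ _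
  let em : 𝓞 M →+ (Fin (p + 1) → ℂ) :=
    { toFun := fun x i => σ i (F x)
      map_zero' := by funext i; simp
      map_add' := fun a b => by funext i; simp }
  have nz : ∀ x, φ x ≠ 0 → x ≠ 0 := fun x a e => hg x a (by rw [e, mul_zero, map_zero])
  choose r hr using fun i : {x : D // φ x ≠ 0} => hFs i.1 i.2
  obtain ⟨S, -, h1, h2⟩ := H (𝓞 M) em (fun i => σ i T) (fun x => φ (F x)) B (1 / (n * N)) _ r k
    (fun a b e => hF ((σ 0).injective (congrFun e 0)))
    (fun u x => by funext i; show σ i (F (u • x)) = σ i _ * σ i _; rw [hFu, map_mul])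
    (fun R => (hσ.fin hB (R * N)).subset fun x hx i => by
      have : ‖σ i ((x : M) / N)‖ ≤ R := (norm_le_pi_norm (em x) i).trans hx
      rwa [map_div₀, map_natCast, norm_div, Complex.norm_natCast, div_le_iff₀ hNc] at this)
    (fun x => hφ _) (fun u x => by rw [hFu, hi _ u.2]) (by positivity)
    (fun x a => by
      refine ⟨fun i => (map_ne_zero (σ i)).2 (nz _ a), ?_⟩
      have e : Algebra.trace K M (T * F x) =
          Algebra.trace K M ((⟨_, hT⟩ * x : 𝓞 M) : M) / (n * N : ℕ) := by
        rw [eq_div_iff (Nat.cast_ne_zero.2 (mul_ne_zero hn hN)), mul_comm, ← nsmul_eq_mul,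
          ← map_nsmul, nsmul_eq_mul]
        congr 1
        show _ * (T * ((x : M) / N)) = n * T * x
        push_cast
        field_simp
      rw [show lf _ (em x) = _ from hσ.lf T (F x), e, map_div₀, map_natCast, norm_div,
        Complex.norm_natCast, Nat.cast_mul]
      exact div_le_div_of_nonneg_right (one_le hB (tr_int _) fun k2 => hg _ a (by
        rw [e, k2, zero_div])) (by positivity))
    (fun a ha => by
      obtain ⟨e, q, k1, k2⟩ := hz (fun i => a i) fun i =>
        (Set.Finite.mem_toFinset _).2 ⟨_, ha i, rfl⟩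
      have e1 : F (N * e) = e := by
        show (((N : 𝓞 M) * e : 𝓞 M) : M) / N = _
        push_cast
        exact mul_div_cancel_left₀ _ hN'
      refine ⟨N * e, q, ⟨k1.1, fun x => by simp only [map_add, map_nsmul, e1, k1.2]⟩, fun i => ?_⟩
      have := hσ.lf (T * j (a i)) e
      rw [k2 i, map_zero] at this
      rw [← this]
      simp only [lf, Pi.mul_apply, map_mul]
      exact sum_congr rfl fun i _ => by
        rw [show em (N * e) i = σ i e from congrArg _ e1, mul_comm (σ i T)]
        rfl)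
    (fun a b e => by
      have e := congrArg F e
      simp only [hFu, ← hr] at e
      have := (hD _ (mul_ne_zero (j b.2).ne_zero (nz _ b.1.2))).unique (y₁ := a.2⁻¹) (y₂ := b.2⁻¹)
        ⟨inv_mem a.2.2, by rw [← e, map_inv, Units.inv_mul_cancel_left]; exact a.1.1.2⟩
        ⟨inv_mem b.2.2, by rw [map_inv, Units.inv_mul_cancel_left]; exact b.1.1.2⟩
      have k := Subtype.ext (inv_injective this)
      rw [k] at e
      exact Prod.ext (Subtype.ext (Subtype.ext (mul_left_cancel₀ (j b.2).ne_zero e))) k)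
    (fun x a => by
      obtain ⟨u, ⟨hu, m⟩, -⟩ := hD _ (nz _ a)
      exact ⟨⟨⟨_, m⟩, by rwa [hi u hu]⟩, ⟨u, hu⟩⁻¹, hF (by
        rw [hFu, ← hr, InvMemClass.coe_inv, map_inv, Units.inv_mul_cancel_left])⟩)
    (by omega)
  refine ⟨S 0, (Subtype.val_injective (p := fun x : D => φ x ≠ 0)).hasSum_iff (fun x a => ?_) |>.1
    ((h1 0 (by simpa using (by exact_mod_cast hk : (2 : ℝ) < k))).congr_fun fun i => ?_),
    Reg.ext F hF 0 (fun x a => by simpa using hFs x (left_ne_zero_of_mul a))
      (h2.congr (fun x => ?_) rfl)⟩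
  · rw [not_not.1 fun c => a ⟨⟨x, c⟩, rfl⟩, zero_div]
  · rw [show ∏ j, em (r i) j = _ from (hσ.both _).1, ← hr]
    simp
  · rw [zero_add, show List.ofFn ε = (List.ofFn ε').map U.subtype from
      (List.map_ofFn (f := ε') (g := U.subtype)).symm, ← mp_cyc, co_mp]
    simp only [map_mul, mul_comm (σ _ T)]
    rfl

end Vale.Agent.P014Y.C.Ld
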