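import Vale.Agent.P014Y.C.Ld.St2
import Vale.Agent.P004C.Ld.Rho

/-!
# P014 Y, C, the leading term: row RHO (residue classes modulo a group of units)
-/

set_option autoImplicit false

namespace Vale.Agent.P014Y.C.Ld

namespace Rh

export Vale.Agent.P004C.Ld.Rh (val_od val_one U1 ex_F)

end Rh

/-- **row RHO** -/
theorem rho : RHO := P004C.Ld.rho

end Vale.Agent.P014Y.C.Ld
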