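import Vale.Agent.P014Y.C.Ld.Defs
import Vale.Agent.P004C.Ld.St1

/-!
# P014Y C, the leading term: the algebraic rows
-/

set_option autoImplicit false

open Finset

noncomputable section

namespace Vale.Agent.P014Y.C.Ld

open P004C.An

export Vale.Agent.P004C.Ld (tw Lw CUP TRF ADP EXT)

/-- the group ring -/
abbrev Gr (A : ℕ) : Type := AddMonoidAlgebra ℂ_[3] (ZMod (3 ^ A))

/-- group elements -/
def gr {A : ℕ} (g : ZMod (3 ^ A)) : Gr A := AddMonoidAlgebra.single g 1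

/-- row TAU: coefficients of `T ^ i` -/
def TAU : Prop := ∀ A : ℕ, ∃ (S0 : Subring (Gr A)) (J : Ideal S0) (τ : ℕ → Gr A →ₗ[ℂ_[3]] ℂ_[3]),
  (∀ i g, τ i (gr g) = (g.val.choose i : ℂ_[3])) ∧ (∀ a : ℂ_[3], ‖a‖ ≤ 1 → algebraMap _ _ a ∈ S0) ∧
  (∀ g, ∃ h : gr g ∈ S0, (⟨gr g, h⟩ : S0) - 1 ∈ J) ∧
  (∀ (i j : ℕ) (z : S0), i < j → z ∈ J ^ j → ‖τ i z‖ ≤ 3 ^ i * (1 / 3) ^ A) ∧
  ∀ (n r : ℕ) (x : Fin n ⊕ Fin r → Fin n → ℂ_[3]) (g f : Fin n ⊕ Fin r → Fin r → ZMod (3 ^ A))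
    (g0 : ZMod (3 ^ A)) (i : ℕ), (∀ j k, ‖x j k‖ ≤ 1) → i ≤ r →
    ‖τ i (gr g0 * (Matrix.of fun j j' => Sum.elim (fun k => algebraMap _ _ (x j k))
        (fun k => gr (g j k) * (1 - gr (-f j k))) j').det) -
      if i = r then (Matrix.of fun j j' => Sum.elim (x j) (fun k => ((f j k).val : ℂ_[3])) j').det
      else 0‖ ≤ 3 ^ r * (1 / 3) ^ A

end Vale.Agent.P014Y.C.Ld
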