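import Vale.Agent.P014Y.C.Ld.St1
import Vale.Agent.P014Y.C.As.St
import Vale.Agent.P014Y.C.Al.Gb0
import Vale.Agent.P004C.Ld.St2

/-!
# P014 Y, C, the leading term: number field words and rows
-/

set_option autoImplicit false
set_option linter.unusedSectionVars false

open NumberField Module IsDedekindDomain Finset Filter
open scoped Classical

noncomputable section

namespace Vale.Agent.P014Y.C.Ld

open As Al.Gx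

export Vale.Agent.P004C.Ld (Pl od At Lc In RHO)

section

variable {M : Type} [Field M] [NumberField M]

/-- the local character -/
def Xw {A : ℕ} (P : Pl M) (f : M → ZMod (3 ^ A)) (a : ℂ_[3]) (x : M) : DualNumber (Gr A) :=
  TrivSqZeroExt.inl (gr (-f x)) * (1 + TrivSqZeroExt.inr (algebraMap ℂ_[3] (Gr A) (a * od P x)))

variable {r : ℕ} (w : Fin (r + 1) → Pl M)

variable {K : Type} [Field K] [NumberField K] (ι : ℂ →+* ℂ_[3]) (J : K →+* ℂ) [Algebra K M]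

/-- `x I` is integral outside `w` and `v` -/
def Iv (I : Ideal (𝓞 M)) (x : M) : Prop := ∀ P : Pl M, ¬ Av ι J P.asIdeal → (∀ i, P ≠ w i) →
  ∀ y ∈ I, P.valuation M (x * (y : 𝓞 M)) ≤ 1

/-- the smoothed function of an ideal -/
def bs (c : Pl M) (l : ℕ) (I : Ideal (𝓞 M)) (x : M) : ℤ :=
  if Iv w ι J I x then (if c.valuation M x < 1 then 1 - l else 1) else 0

variable (M) in
/-- the elements which are `1` modulo `v ^ m` -/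
def Gv (m : ℕ) : Subgroup Mˣ where
  carrier := {x | V1 ι J m (x : M) ∧ V1 ι J m ((x⁻¹ : Mˣ) : M)}
  one_mem' := ⟨v1_one, v1_one⟩
  mul_mem' a b := ⟨v1_mul a.1 b.1, by rw [mul_inv]; exact v1_mul a.2 b.2⟩
  inv_mem' a := ⟨a.2, a.1⟩

/-- the `w`-units among them -/
def Ew (m : ℕ) : Subgroup Mˣ where
  carrier := {x | x ∈ Gv M ι J m ∧ ∀ P : Pl M, (∀ i, P ≠ w i) → P.valuation M (x : M) = 1}
  one_mem' := ⟨one_mem _, fun P _ => map_one _⟩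
  mul_mem' a b := ⟨mul_mem a.1 b.1, fun P h => by rw [Units.val_mul, map_mul, a.2 P h, b.2 P h,
    mul_one]⟩
  inv_mem' a := ⟨inv_mem a.1, fun P h => by rw [Units.val_inv_eq_inv_val, map_inv₀, a.2 P h,
    inv_one]⟩

/-- representatives of the units at `v` modulo `v ^ m` -/
def Yr (m : ℕ) (Y : Finset M) : Prop := (∀ y ∈ Y, y ≠ 0 ∧ Vi ι J y ∧ Vi ι J y⁻¹) ∧
  ∀ x : M, x ≠ 0 → Vi ι J x → Vi ι J x⁻¹ → ∃! y, y ∈ Y ∧ V1 ι J m (x / y)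

end

/-- row LOC: the local cocycles -/
def LOC : Prop := ∀ (M : Type) [Field M] [NumberField M] (A : ℕ) (P : Pl M) (f : M → ZMod (3 ^ A))
  (a : ℂ_[3]) (E : Subgroup Mˣ) (S0 : Subring (Gr A)) (J : Ideal S0),
  (∀ x y, x ≠ 0 → y ≠ 0 → f (x * y) = f x + f y) → (∀ x : 𝓞 M, x - 1 ∈ P.asIdeal → f x = 0) →
  (∀ g, ∃ h : gr g ∈ S0, (⟨gr g, h⟩ : S0) - 1 ∈ J) →
  (∀ x : M, P.valuation M (x - 1) < 1 → f x = 0) ∧
  ∃ (χ : E →* DualNumber (Gr A)) (c c' : E → M → DualNumber (Gr A)) (b : M → DualNumber (Gr A)),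
    (∀ x, χ x = Xw P f a ((x : Mˣ) : M)) ∧
    Lw (0 : M) {z | z.fst ∈ S0} χ c c' b (Lc P Set.univ) (Lc P {z | ∃ y ∈ J, z.fst = (y : S0)}) ∧
    (∀ x : E, od P ((x : Mˣ) : M) = 0 → c x = 0) ∧
    ∀ (x : E) (h : ℕ), od P ((x : Mˣ) : M) = h → ∀ y,
      c x y = if y ≠ 0 ∧ 0 ≤ od P y ∧ od P y < h then -Xw P f a y else 0

/-- row FND: the group of `w`-units -/
def FND : Prop := ∀ (K : Type) [Field K] [NumberField K] (ι : ℂ →+* ℂ_[3]) (J : K →+* ℂ) (Ω : ℝ),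
  Base ι J Ω → ∀ (M : Type) [Field M] [NumberField M] [Algebra K M] (n : ℕ) (σ : Fin n → M →+* ℂ),
  Sg J σ → ∀ m : ℕ, 2 ≤ m → (∀ x : M, V1 ι J m x → Ld.Nr m fun i => ι (σ i x)) ∧
  (∀ x : M, ∏ i, σ i x = J (Algebra.norm K x)) ∧
  ∀ (r A : ℕ) (t : 𝓞 M) (w : Fin (r + 1) → Pl M) (Φ : Ideal (𝓞 M) → ZMod (3 ^ A))
    (φ : Fin (r + 1) → M → ZMod (3 ^ A)), 3 ∣ t → Aux t A (fun i => (w i).asIdeal) Φ φ →
    (∀ x : Mˣ, Ev ι J (fun i => (w i).asIdeal) m 1 1 (x : M) ↔ x ∈ Ew w ι J m) ∧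
    (∀ x ∈ Ew w ι J m, ∑ i, φ i (x : Mˣ) = 0) ∧
    (∀ i, ∃ (x : Ew w ι J m) (N : ℤ), N ≠ 0 ∧
      (fun j => od (w j) ((x : Mˣ) : M)) = Pi.single i N) ∧
    (∀ x ∈ Ew w ι J m, (∀ j, od (w j) ((x : Mˣ) : M) = 0) → Algebra.norm K ((x : Mˣ) : M) = 1 ∧
      (∃ u : (𝓞 M)ˣ, ((u : 𝓞 M) : M) = (x : Mˣ)) ∧ (w 0).valuation M
        (((x : Mˣ) : M) ^ (Ideal.absNorm (w 0).asIdeal - 1) - 1) < 1) ∧
    ∃ a : Fin (r + 1) → ℂ_[3], ∀ x ∈ Ew w ι J m,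
      ∑ i, a i * od (w i) ((x : Mˣ) : M) = -∑ j, lg (ι (σ j ((x : Mˣ) : M)))

/-- row CNT: from elements to ideals -/
def CNT : Prop := ∀ (K : Type) [Field K] [NumberField K] (ι : ℂ →+* ℂ_[3]) (J : K →+* ℂ) (Ω : ℝ),
  Base ι J Ω → ∀ (M : Type) [Field M] [NumberField M] [Algebra K M] (m r A l : ℕ) (c : Pl M)
  (w : Fin (r + 1) → Pl M) (Φ : Ideal (𝓞 M) → ZMod (3 ^ A)) (φ : Fin (r + 1) → M → ZMod (3 ^ A))
  (R : Finset (Ideal (𝓞 M))), 1 ≤ m → Sm c.asIdeal l → Aux (3 * l) A (fun i => (w i).asIdeal) Φ φ →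
  Rp ι J (fun i => (w i).asIdeal) m (3 * l) R → ∃ β : Ideal (𝓞 M) → M → Ideal (𝓞 M),
    (∀ I ∈ R, ∀ x : M, x ≠ 0 → In w I x → Φ (β I x) = Φ I - ∑ i, φ i x ∧
      (c.asIdeal ∣ β I x ↔ c.valuation M x < 1) ∧
      ∀ (a : Ideal (𝓞 M) → ℂ) (N : M →*₀ ℂ), (∀ I I', a (I * I') = a I * a I') →
        (∀ y : 𝓞 M, a (Ideal.span {y}) = N y) →
        a (β I x) * ∏ i, a (w i).asIdeal ^ od (w i) x = a I * N x) ∧
    (∀ I ∈ R, ∀ x : M, In w I x ↔ Iv w ι J I x ∧ Vi ι J x) ∧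
    ∀ (Y : Finset M) (D : Set M) (F : Ideal (𝓞 M) → ℂ), Yr ι J m Y → (0 : M) ∉ D →
      (∀ x : M, x ≠ 0 → ∃! e : Ew w ι J m, (e : Mˣ) • x ∈ D) → Summable (fun I => ‖F I‖) →
      HasSum (fun z : R × D => if In w z.1 z.2 then F (β z.1 z.2) else 0)
        (Y.card * ∑' I, if ∀ j, I ⊔ (w j).asIdeal = ⊤ then F I else 0)

/-- row KV: the character of weight `k` -/
def KV : Prop := ∀ (K : Type) [Field K] [NumberField K] (ι : ℂ →+* ℂ_[3]) (J : K →+* ℂ) (Ω : ℝ),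
  Base ι J Ω → ∀ (M : Type) [Field M] [NumberField M] [Algebra K M] (h e : ℕ)
  (lam : Ideal (𝓞 K) → ℂ) (a : Ideal (𝓞 M) → ℂ), 0 < h → 1 ≤ e → La J h (3 ^ e) lam →
  (∀ I, a I = lam (Ideal.relNorm (𝓞 K) I)) → (∀ I I', a (I * I') = a I * a I') ∧
    (∀ y : 𝓞 M, a (Ideal.span {y}) = (J (Algebra.norm K (y : M)))⁻¹ ^ (2 * h * 3 ^ e)) ∧
    Summable (fun I => ‖a I‖) ∧ (∀ I, I ⊔ Ideal.span {3} = ⊤ → ‖ι (a I) - 1‖ ≤ (1 / 3) ^ e) ∧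
    ∀ y : M, y ≠ 0 → Vi ι J y → Vi ι J y⁻¹ →
      ‖ι (J (Algebra.norm K y)) ^ (2 * h * 3 ^ e) - 1‖ ≤ (1 / 3) ^ e

/-- row COO: coordinates and logarithms -/
def COO : Prop := ∀ (K : Type) [Field K] [NumberField K] (ι : ℂ →+* ℂ_[3]) (J : K →+* ℂ)
  (M : Type) [Field M] [NumberField M] [Algebra K M] (n : ℕ) (σ : Fin n → M →+* ℂ)
  (b : Basis (Fin n) K M), Sg J σ → Vb ι J b → 0 < dv ι J b ∧ dv ι J b ≤ 1 ∧ ∃ B : ℂ_[3],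
    ‖B‖ = √(dv ι J b) ∧ ∀ (m r A : ℕ) (γ β : Fin n ⊕ Fin r → Mˣ) (f : Fin r → M → ZMod (3 ^ A))
      (P : Matrix (Fin n ⊕ Fin r) (Fin n ⊕ Fin r) ℤ), 2 ≤ m → (∀ j, V1 ι J m (γ j : M)) →
      (∀ i x y, x ≠ 0 → y ≠ 0 → f i (x * y) = f i x + f i y) → (∀ j, β j = ∏ i, γ i ^ P j i) →
      (∀ j i, ‖lg (ι (σ i (β j))) / 3 ^ m‖ ≤ 1) ∧
      ‖(Matrix.of fun j j' => Sum.elim (fun i => lg (ι (σ i (β j))) / 3 ^ m)
          (fun i : Fin r => ((f i (β j)).val : ℂ_[3])) j').det -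
        P.det * B * (Matrix.of fun j j' => Sum.elim
          (fun i => ι (J (b.repr (((γ j : M) - 1) / 3 ^ m) i)))
          (fun i : Fin r => ((f i (γ j)).val : ℂ_[3])) j').det‖ ≤ 3 * (1 / 3) ^ m + (1 / 3) ^ A

/-- row HYP: a vertex whose hyperplane avoids a residue class -/
def HYP : Prop := ∀ (K : Type) [Field K] [NumberField K] (ι : ℂ →+* ℂ_[3]) (J : K →+* ℂ)
  (M : Type) [Field M] [NumberField M] [Algebra K M] (P : Pl M) (C m : ℕ) (ρ t : M),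
  3 ∉ P.asIdeal → 1 ≤ m → ρ ≠ 0 → t ≠ 0 → ∃ s : Gv M ι J m, ∀ x : M,
    P.valuation M (x / ρ - 1) < 1 → (∀ Q : Pl M, Q ≠ P → Q.asIdeal.under ℤ = P.asIdeal.under ℤ →
      Q.valuation M x ≤ WithZero.exp (C : ℤ)) → Algebra.trace K M (t * (s : Mˣ) * x) ≠ 0

/-- row ADM: moving the vertices along the smoothing prime -/
def ADM : Prop := ∀ (K : Type) [Field K] [NumberField K] (ι : ℂ →+* ℂ_[3]) (J : K →+* ℂ)
  (M : Type) [Field M] [NumberField M] [Algebra K M] (n : ℕ), finrank K M = n →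
  ∀ (c P : Pl M) (l m : ℕ), Sm c.asIdeal l → (l : 𝓞 M) ∉ P.asIdeal → 1 ≤ m →
  ∃ ϖ : Gv M ι J m, P.valuation M (((ϖ : Mˣ) : M) - 1) < 1 ∧
    (∀ Q : Pl M, Q ≠ c → Q.valuation M ((ϖ : Mˣ) : M) = 1) ∧
    ∀ (a : Fin n → M) (N : ℕ), N.Coprime l → ∀ᶠ B : ℕ in atTop, ∀ j, ∃ d : 𝓞 M,
      (N : 𝓞 M) ∣ d ∧ d ∉ c.asIdeal ∧
      ∀ i, i ≠ j → Algebra.trace K M (((ϖ : Mˣ) : M) ^ B * a i * d) = 0

/-- row FOV: the discs at `v` -/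
def FOV : Prop := ∀ (K : Type) [Field K] [NumberField K] (ι : ℂ →+* ℂ_[3]) (J : K →+* ℂ) (Ω : ℝ),
  Base ι J Ω → ∀ (M : Type) [Field M] [NumberField M] [Algebra K M] (m : ℕ), 1 ≤ m →
  ∃ Y Y' : Finset M, Yr ι J m Y ∧ Y.Nonempty ∧ (∀ y ∈ Y', Vi ι J y ∧
      ∀ x : M, Vi ι J ((x - y) / 3 ^ m) → ‖ι (J (Algebra.norm K x))‖ ≤ 1 / 3) ∧
    ∀ (ψ : AddChar K ℂ) (y₀ : M), As.Ps ι J ψ → (∀ x, Fd ι J 0 (y₀ * x) ↔ Vi ι J x) → ∀ x : M,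
      Vi ι J (3 ^ m * x) → ∑ y ∈ Y, ψ (-Algebra.trace K M (x * (y₀ * y))) +
        ∑ y ∈ Y', ψ (-Algebra.trace K M (x * (y₀ * y))) =
      if Vi ι J x then 3 ^ (m * finrank K M) else 0

end Vale.Agent.P014Y.C.Ld
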